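import Vale.Agent.P269.Deg.Num

/-!
# P269, cohomological packages: Hodge numbers in the double point degeneration
-/

namespace Vale.Agent.P269.Deg

open Finset Hdg

/-- The supertrace of `(μ + t) ^ k` on a Lefschetz space of dimension `n`. -/
noncomputable def sT (n : ℤ) (l : Multiset ℝ) (t : ℝ) (k : ℕ) : ℂ :=
  ∑ j ∈ range (n + 1).toNat, (((j - n / 2 + t : ℝ) : ℂ)) ^ k +
    sn n • (l.map fun x : ℝ => ((x + t : ℝ) : ℂ) ^ k).sum

namespace CohNum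

variable {N : ℕ} {d : Multiset ℕ}

theorem sT_eq (hd : Pos d) {n : ℤ} (hn : n = dm N d) (t : ℝ) (k : ℕ) :
    sT n (lP N d) t k = st N d fun x => ((x + t : ℝ) : ℂ) ^ k := by
  rw [lP_eq N d hd, hn]; rfl

theorem st_one {M : Type} [AddCommGroup M] (f : ℝ → M) : st (N + 1) (d + {1}) f = st N d f := by
  have : dm (N + 1) (d + {1}) = dm N d := by simp [dm]
  simp only [st, this, eig_one]

theorem st_neg (h : dm N d < 0) {M : Type} [AddCommGroup M] (f : ℝ → M) : st N d f = 0 := by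
  simp [st, eig_of_dm_neg h, show (dm N d + 1).toNat = 0 by omega]

theorem st_add' (hd : Pos d) {a b : ℕ} (ha : 1 ≤ a) (hb : 1 ≤ b) (hn : 1 ≤ dm N d) {M : Type}
    [AddCommGroup M] (f : ℝ → M) : st N (d + {a + b}) f = st N (d + {a}) f +
      st N (d + {a, b, a + b}) f + st N (d + {b}) f - st N (d + {a, b}) (fun x => f (x - 1 / 2)) -
        st N (d + {a, b}) fun x => f (x + 1 / 2) := by
  rcases hn.eq_or_lt with hn | hn
  swap
  · exact st_add hd ha hb hn f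
  have k : ∀ c, 1 ≤ c → st N (d + {c}) f = chiP N (d + {c}) 0 • f 0 := fun c hc => by
    rw [st_eq (n := 0) (pos_add.2 ⟨hd, by simp [Pos, hc]⟩) (by simp [dm_add, ← hn])]
    simp
  have e : dm N (d + {a, b}) < 0 := by rw [dm_add, ← hn]; simp
  rw [k _ (by omega), k a ha, k b hb, st_neg e, st_neg e, st_neg (by rw [dm_add, ← hn]; simp),
    chiP_add_zero, chiP_big (d := d + {a, b}) (by simp only [dm] at e; omega)]
  simp [add_smul]

theorem zero_of_le (hd : Pos d) (h : dm N d ≤ 0) : ∀ x ∈ lP N d, x = 0 := by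
  rw [lP_eq N d hd]
  refine level_of_hp hd fun r hr => ?_
  have h1 := fun k => hp_neg (N := N) (d := d) (r := r) k
  have h2 := fun k => hp_big (N := N) (r := r) hd k
  omega

end CohNum

open CohNum

variable {N : ℕ} {d : Multiset ℕ} (hd : ∀ a ∈ d, 1 ≤ a) {a : ℕ} (ha : 1 ≤ a) (hN : d.card ≤ N)
  {n : ℤ} (hn : n = N - d.card) {lX lY lW lZ lD : Multiset ℝ} (hX : lX = lP (N + 1) (d + {a + 1}))
  (hY : lY = lP (N + 1) (d + {a})) (hW : lW = lP N d) (hZ : lZ = lP N (d + {a, a + 1}))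
  (hD : lD = lP N (d + {a}))
include hd ha hN hn hX hY hW hZ hD

theorem hodge_num (k : ℕ) : sT n lX 0 k = sT n lY 0 k + (sT n lW 0 k + sT (n - 2) lZ 0 k) -
    sT (n - 1) lD (-(1 / 2)) k - sT (n - 1) lD (1 / 2) k := by
  have p1 : Pos (d + {a}) := pos_add.2 ⟨hd, by simp [Pos, ha]⟩
  have p2 : Pos (d + {a, a + 1}) := pos_add.2 ⟨hd, by simp [Pos, ha]⟩
  have p3 : Pos (d + {a + 1}) := pos_add.2 ⟨hd, by simp [Pos]⟩
  have e1 : d + {a, 1} = d + {a} + {1} := by rw [add_assoc]; rfl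
  have e2 : d + {a, 1, a + 1} = d + {a, a + 1} + {1} := by
    rw [add_assoc]; congr 1
    simp only [Multiset.insert_eq_cons, ← Multiset.singleton_add]; abel
  rw [hX, hY, hW, hZ, hD, sT_eq p3 (by simp [dm]; omega), sT_eq p1 (by simp [dm]; omega),
    sT_eq hd hn, sT_eq p2 (by simp [dm]; omega), sT_eq p1 (by simp [dm]; omega),
    sT_eq p1 (by simp [dm]; omega), st_add' hd ha le_rfl (by simp only [dm]; omega), e1, e2,
    st_one, st_one, st_one, st_one]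
  simp only [add_zero, sub_eq_add_neg]
  ring

theorem cases_num : ∃ l : Multiset ℝ,
    (∀ k : ℕ, (lX.map (· ^ k)).sum =
      (l.map (· ^ k)).sum + (lD.map fun x => (x - 1 / 2) ^ k + (x + 1 / 2) ^ k).sum) ∧
    ((lD = 0 ∧ (∀ x ∈ lY, x = 0) ∧ (∀ x ∈ lW, x = 0) ∧ (∀ x ∈ lZ, x = 0) ∧ ∀ x ∈ lX, x = 0) ∨
    ((∃ x ∈ l, x ≠ 0) ∧ ((Odd n ∧ ∀ x ∈ lX, x = 1 / 2 ∨ x = -1 / 2) ∨
      (5 ≤ lX.card ∧ ((∃ x ∈ l, lD.card * x ^ 2 ≠ (lD.map fun y => y ^ 2 + 1 / 4).sum) ∨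
        ∃ x ∈ l, ∃ y ∈ l, x ^ 2 ≠ y ^ 2)))) ∨
    (Odd n ∧ lD.card = 1 ∧ l = 0) ∨
    (Even n ∧ lD.card = 2 ∧ (∀ x ∈ lD, x = 1 / 2 ∨ x = -1 / 2) ∧ (∀ x ∈ l, x = 0) ∧
      5 ≤ lX.card)) := by
  have p1 : Pos (d + {a}) := pos_add.2 ⟨hd, by simp [Pos, ha]⟩
  rcases hN.eq_or_lt with h | h
  · have h0 : lD = 0 := by rw [hD, lP_eq _ _ p1, eig_of_dm_neg (by simp [dm]; omega)]
    exact ⟨lX, by simp [h0], .inl ⟨h0, hY ▸ zero_of_le p1 (by simp [dm]; omega),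
      hW ▸ zero_of_le hd (by simp only [dm]; omega),
      hZ ▸ zero_of_le (pos_add.2 ⟨hd, by simp [Pos, ha]⟩) (by simp [dm]; omega),
      hX ▸ zero_of_le (pos_add.2 ⟨hd, by simp [Pos]⟩) (by simp [dm]; omega)⟩⟩
  have e : lX = lY + lW + lZ + lD.map (· - 1 / 2) + lD.map (· + 1 / 2) := by
    rw [hX, hY, hW, hZ, hD, lP_rec N d hd a ha h]
  obtain rfl : n = (N - d.card : ℕ) := by omega
  simp only [Int.odd_coe_nat, Int.even_coe_nat]
  refine ⟨lY + lW + lZ, fun k => ?_, (lP_cases' N d hd a ha h lX _ lD hX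
    (by rw [hY, hW, hZ]) hD).imp_left fun k => ⟨k.1, ?_, ?_, ?_, k.2⟩⟩
  · rw [e, Multiset.map_add, Multiset.sum_add, Multiset.map_add, Multiset.sum_add,
      Multiset.map_map, Multiset.map_map, Multiset.sum_map_add, add_assoc]
    rfl
  all_goals exact fun x hx => k.2 x (by simp [e, hx])

set_option linter.unusedSectionVars false in
/-- when the grading of `X` does not vanish -/
theorem iso_num (h : ∃ x ∈ lX, x ≠ 0) :
    lD ≠ 0 ∨ (4 ≤ n ∧ a = 2 ∧ lP (N - 1) (d + {2} + {2}) ≠ 0) := by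
  have p1 : Pos (d + {a}) := pos_add.2 ⟨hd, by simp [Pos, ha]⟩
  have p3 : Pos (d + {a + 1}) := pos_add.2 ⟨hd, by simp [Pos]⟩
  have p4 : Pos (d + {2} + {2}) := pos_add.2 ⟨pos_add.2 ⟨hd, by simp [Pos]⟩, by simp [Pos]⟩
  obtain ⟨x, hx, x0⟩ := h
  have h1 : d.card + 1 ≤ N := by
    by_contra k
    exact x0 (zero_of_le p3 (by simp [dm]; omega) x (hX ▸ hx))
  refine or_iff_not_imp_left.2 fun h0 => ?_
  rw [not_not] at h0
  rcases lP_cases N d hd a ha h1 lX _ lD hX rfl hD with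
    ⟨-, k | ⟨⟨k, hk⟩, h4, h5, h6⟩⟩ | ⟨-, ⟨⟨k, hk⟩, -⟩ | ⟨-, y, -, k⟩⟩ | ⟨-, k, -⟩ | ⟨-, k, -⟩
  · exact (x0 (k x hx)).elim
  · refine ⟨by omega, h5, fun e => ?_⟩
    have := (mem_eig p4).2 ⟨_, hp_pos_odd (N := N - 1) (r := k - 2) p4 (by simp; omega)
      (by omega) (by simp [dm]; omega), rfl⟩
    rw [← lP_eq _ _ p4, e] at this
    exact Multiset.notMem_zero _ this
  · have hc := Pos.card_le hd
    have e : d.sum + a = d.card + 1 := by
      by_contra e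
      have := (mem_eig p1).2 ⟨_, hp_pos_even (N := N) (r := k) p1 (by simp; omega)
        (by omega) (by simp [dm]; omega), rfl⟩
      rw [← lP_eq _ _ p1, ← hD, h0] at this
      exact Multiset.notMem_zero _ this
    rw [hX, lP_eq _ _ p3] at hx
    exact (x0 (level_of_hp p3 (fun r hr => level_quad p3 (by simp; omega) hr) x hx)).elim
  all_goals simp [h0] at k

omit ha hN hn hX hY hW hZ hD in
theorem lP_ne (h : ∃ x ∈ lP N d, x ≠ 0) :
    d.card < N ∧ ∃ (d' : Multiset ℕ) (b : ℕ), 1 ≤ b ∧ d = d' + {b + 1} := by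
  obtain ⟨x, hx, x0⟩ := h
  refine ⟨not_le.1 fun k => x0 (zero_of_le hd (by simp only [dm]; omega) x hx), ?_⟩
  obtain ⟨o, b, h1, -, h2⟩ := Pos.split hd (not_le.1 fun k => x0 (level_of_hp (N := N) hd
    (fun r hr => level_quad hd (by omega) hr) x (lP_eq N d hd ▸ hx)))
  exact ⟨o, b, h1, h2⟩

end Vale.Agent.P269.Deg
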