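import Vale.Agent.P269.Coh.DPk0
import Vale.Agent.P269.Coh.Num

/-!
# P269, cohomological packages: the gradings of the double point degeneration
-/

set_option linter.unusedSectionVars false

namespace Vale.Agent.P269

open Set Function Topology Filter P291Z Holo Mono Coh Tq Fock MvPolynomial

namespace DPk

theorem map_elim {K : Type} [Fintype K] (a : ℕ) (d : K → ℕ) :
    (Finset.univ.val.map fun o : Option K => o.elim a d) = Finset.univ.val.map d + {a} := by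
  rw [univ_option, add_comm, Multiset.singleton_add]
  simp [Finset.insertNone]
  rfl

theorem str {Y : PS} {h : H Y.X} {l ν} (L : Lf Y h) (A : Ad Y h l ν) {n : ℤ} (hn : Y.n = n)
    (k : ℕ) : Y.coh.fr.str ((Y.mu0 + ν) ^ k) = Deg.sT n l 0 k := by
  have := L.str_pow_add A 0 k
  rwa [Complex.ofReal_zero, zero_smul, add_zero, hn] at this

theorem str' {Y : PS} {h : H Y.X} {l ν} (L : Lf Y h) (A : Ad Y h l ν) {n : ℤ} (hn : Y.n = n)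
    (k : ℕ) : Y.coh.fr.str ((Y.mu0 + ν - (1 / 2 : ℂ) • 1) ^ k) = Deg.sT n l (-(1 / 2)) k ∧
      Y.coh.fr.str ((Y.mu0 + ν + (1 / 2 : ℂ) • 1) ^ k) = Deg.sT n l (1 / 2) k := by
  have a := L.str_pow_add A (-(1 / 2)) k
  have b := L.str_pow_add A (1 / 2) k
  rw [hn] at a b
  rw [show ((-(1 / 2) : ℝ) : ℂ) = -(1 / 2) by simp, neg_smul, ← sub_eq_add_neg] at a
  rw [show ((1 / 2 : ℝ) : ℂ) = 1 / 2 by simp] at b
  exact ⟨a, b⟩

theorem cases {κ κ' : Type} [Fintype κ] [Fintype κ'] {l : κ → ℝ} {l' : κ' → ℝ} {lX lD lW : Multiset ℝ}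
    (e : Finset.univ.val.map l = lX) (e' : Finset.univ.val.map l' = lD) {n : ℕ} :
    ((∀ k : ℕ, (lX.map (· ^ k)).sum =
      (lW.map (· ^ k)).sum + (lD.map fun x => (x - 1 / 2) ^ k + (x + 1 / 2) ^ k).sum) →
      ∀ k : ℕ, ∑ b, l b ^ k =
      (lW.map (· ^ k)).sum + ∑ b, ((l' b - 1 / 2) ^ k + (l' b + 1 / 2) ^ k)) ∧
    (((∃ x ∈ lW, x ≠ 0) ∧ ((Odd (n : ℤ) ∧ ∀ x ∈ lX, x = 1 / 2 ∨ x = -1 / 2) ∨
      (5 ≤ lX.card ∧ ((∃ x ∈ lW, lD.card * x ^ 2 ≠ (lD.map fun y => y ^ 2 + 1 / 4).sum) ∨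
        ∃ x ∈ lW, ∃ y ∈ lW, x ^ 2 ≠ y ^ 2)))) ∨
    (Odd (n : ℤ) ∧ lD.card = 1 ∧ lW = 0) ∨
    (Even (n : ℤ) ∧ lD.card = 2 ∧ (∀ x ∈ lD, x = 1 / 2 ∨ x = -1 / 2) ∧ (∀ x ∈ lW, x = 0) ∧
      5 ≤ lX.card) →
    ((∃ x ∈ lW, x ≠ 0) ∧ (((-1 : ℂ) ^ n = -1 ∧ ∀ b, l b = 1 / 2 ∨ l b = -1 / 2) ∨
        (5 ≤ Fintype.card κ ∧
          ((∃ x ∈ lW, Fintype.card κ' * x ^ 2 ≠ ∑ b, (l' b ^ 2 + 1 / 4)) ∨
            ∃ x ∈ lW, ∃ y ∈ lW, x ^ 2 ≠ y ^ 2)))) ∨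
      ((-1 : ℂ) ^ n = -1 ∧ Fintype.card κ' = 1 ∧ lW = 0) ∨
      ((-1 : ℂ) ^ n = 1 ∧ Fintype.card κ' = 2 ∧ (∀ b, l' b = 1 / 2 ∨ l' b = -1 / 2) ∧
        (∀ x ∈ lW, x = 0) ∧ 5 ≤ Fintype.card κ)) := by
  subst e e'
  simp only [Multiset.map_map, Multiset.card_map, Multiset.forall_mem_map_iff, Int.odd_coe_nat,
    Int.even_coe_nat]
  refine ⟨id, Or.imp (And.imp_right (Or.imp_left fun a => ⟨a.1.neg_one_pow, fun b =>
    a.2 b (Finset.mem_univ b)⟩)) (Or.imp (And.imp_left Odd.neg_one_pow) fun a =>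
      ⟨a.1.neg_one_pow, a.2.1, fun b => a.2.2.1 b (Finset.mem_univ b), a.2.2.2⟩)⟩

end DPk

namespace Flag

variable {J K : Type} [Fintype J] [Fintype K] [Nonempty J] {f : Flag J K} (h : f.Ok) {Ω : Set ℂ}
  {θ : Option Unit → ℤ} {t : ℂ} {A : Set ℂ} (hP : (f.pD Ω).Ok)
include h hP

/-- conjugates of the grading of the divisor -/
theorem Ok.exists_conj {l νD} (a : Ad hP.qD.ps (f.hq Ω _) l νD) {d : VD hP.dv.fr}
    (hρ : d.ρ = ((h.grD hP a).vd ((f.pD Ω).κ true true)).ρ)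
    (hμ : ∃ g g', Inv.Isom hP.dv.fr.η (van (f.hq Ω _) hP.qD.ps.J) g ∧ g * g' = 1 ∧
      d.μ = g * ((h.grD hP a).vd ((f.pD Ω).κ true true)).μ * g') :
    ∃ ν, ∃ a' : Ad hP.qD.ps (f.hq Ω _) l ν, d = (h.grD hP a').vd ((f.pD Ω).κ true true) := by
  obtain ⟨g, g', h1, h2, h3⟩ := hμ
  obtain ⟨k1, k2⟩ := (h.lfD hP).ad_conj a (hP.qD.ps.η_bil ▸ h1) h2
  exact ⟨_, k1, PS.vd_ext (h3.trans k2) hρ⟩

variable (s : (f.pD Ω).Sks t A) (hc : Fintype.card K < Fintype.card J) {hE : (f.tE θ).Tg}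
  {νW νZ νE νB} (b : h.BG hE νW νZ νE νB) (aW : Ad h.W.tg.ps (hyp _ _) (eigs J f.d) νW)
  (aZ : Ad h.Z.tg.ps (hyp _ _) (eigs J f.dZ) νZ) {νD ν₁ ν₂ ν}
  (aD : Ad hP.qD.ps (f.hq Ω _) (eigs J f.dD) νD)
  (a₁ : Ad (hP.qL true).ps (f.hq Ω _) (eigs (Option J) f.dD) ν₁) (g₂ : Wt.Gr (hP.qR true) ν₂)
  (c₂ : Cg (h.mB hP).eR ν₂ νB)
  (a : Ad (hP.qX s.mem s.ne true true).ps (f.hq Ω _) (eigs (Option J) f.dX) ν)
include hc b aW aZ c₂ a₁ g₂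

/-- **The cohomological part of the input of the double point step.** -/
theorem Ok.exists_dp : ∃ (ε : ℂ)
    (prD : Deg.Prim hP.dv.toCoh ((h.grD hP aD).vd ((f.pD Ω).κ true true)) (-ε))
    (pr : Deg.Prim (s.sm hP true true).toCoh
      ((h.grX hP s.mem s.ne a).vd ((f.pD Ω).κ true true)) ε) (lW : Multiset ℝ),
    prD.V = van (f.hq Ω _) hP.qD.ps.J ∧
    pr.V = van (f.hq Ω _) (hP.qX s.mem s.ne true true).ps.J ∧
    Finset.univ.val.map pr.l = eigs (Option J) f.dX ∧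
    LinearMap.range (hP.pzL true).res = prD.A ∧ LinearMap.range (hP.pzR true).res ≤ prD.A ∧
    pr.A ≤ LinearMap.range (s.sm hP true true).sp ∧
    (s.sm hP true true).Rel (pr.A.comap (s.sm hP true true).sp) ((hP.qL true).ps.mu0 + ν₁)
      ((hP.qR true).ps.mu0 + ν₂) ((hP.qX s.mem s.ne true true).ps.mu0 + ν) ∧
    (∀ k : ℕ, (s.sm hP true true).fr.str (((hP.qX s.mem s.ne true true).ps.mu0 + ν) ^ k) =
      (hP.pzL true).fr.str (((hP.qL true).ps.mu0 + ν₁) ^ k) +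
      (hP.pzR true).fr.str (((hP.qR true).ps.mu0 + ν₂) ^ k) -
      hP.dv.fr.str ((hP.qD.ps.mu0 + νD - (1 / 2 : ℂ) • 1) ^ k) -
      hP.dv.fr.str ((hP.qD.ps.mu0 + νD + (1 / 2 : ℂ) • 1) ^ k)) ∧
    (∀ k : ℕ, ∑ b, pr.l b ^ k =
      (lW.map (· ^ k)).sum + ∑ b, ((prD.l b - 1 / 2) ^ k + (prD.l b + 1 / 2) ^ k)) ∧
    ((prD.V = ⊥ ∧ (s.sm hP true true).Rel ⊤ ((hP.qL true).ps.mu0 + ν₁)
        ((hP.qR true).ps.mu0 + ν₂) ((hP.qX s.mem s.ne true true).ps.mu0 + ν)) ∨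
      ((∃ x ∈ lW, x ≠ 0) ∧ ((ε = -1 ∧ ∀ b, pr.l b = 1 / 2 ∨ pr.l b = -1 / 2) ∨
        (5 ≤ Fintype.card pr.κ ∧
          ((∃ x ∈ lW, Fintype.card prD.κ * x ^ 2 ≠ ∑ b, (prD.l b ^ 2 + 1 / 4)) ∨
            ∃ x ∈ lW, ∃ y ∈ lW, x ^ 2 ≠ y ^ 2)))) ∨
      (ε = -1 ∧ Fintype.card prD.κ = 1 ∧ lW = 0) ∨
      (ε = 1 ∧ Fintype.card prD.κ = 2 ∧ (∀ b, prD.l b = 1 / 2 ∨ prD.l b = -1 / 2) ∧
        (∀ x ∈ lW, x = 0) ∧ 5 ≤ Fintype.card pr.κ)) := by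
  have h0 : ∃ n : ℕ, f.tW.dT = n := ⟨Fintype.card J - 1 - Fintype.card K, by
    rw [dT_ciF]; omega⟩
  refine h0.elim fun n hn => ?_
  have nD : (f.pD Ω).n = n - 1 := by rw [n_pD, hn]
  have nX : (f.pD Ω).n + 1 = n := by omega
  have hε : (-1 : ℂ) ^ n * (-1) ^ n = 1 := by rw [← mul_pow]; simp
  have LD := h.lfD hP
  have LX := h.lfX hP s.mem s.ne
  have LL := h.lfL hP
  refine (LD.exists_prim aD (hP.qD.lc_deg 0 ((f.pD Ω).κ true true))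
    ((h.grD hP aD).cm _) (h.lcD_mem hP _) (ε := -(-1) ^ n) (by rw [neg_mul_neg, hε]) fun m e => by
      rw [show n = m + 1 from by have : (m : ℤ) = (f.pD Ω).n := e; omega, pow_succ]; ring).elim
    fun prD d => ?_
  refine (LX.exists_prim a ((hP.qX s.mem s.ne true true).lc_deg 0 ((f.pD Ω).κ true true))
    ((h.grX hP s.mem s.ne a).cm _) (h.lcX_mem hP s.mem s.ne _) hε fun m e => by
      rw [show n = m from by have : (m : ℤ) = (f.pD Ω).n + 1 := e; omega]).elim fun pr x => ?_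
  have hd : ∀ x ∈ Finset.univ.val.map f.d, 1 ≤ x := Multiset.forall_mem_map_iff.2 fun k _ => h.W.pos k
  have hN : (Finset.univ.val.map f.d).card ≤ Fintype.card J - 1 := by
    rw [Multiset.card_map]; exact Nat.le_sub_one_of_lt hc
  have hn' : (n : ℤ) = (Fintype.card J - 1 : ℕ) - (Finset.univ.val.map f.d).card := by
    rw [← hn, dT_ciF, Multiset.card_map, Finset.card_val, Finset.card_univ]; omega
  have cO : Fintype.card (Option J) - 1 = Fintype.card J - 1 + 1 := by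
    rw [Fintype.card_option]; omega
  have eX : eigs (Option J) f.dX = Deg.lP _ (_ + {f.a + 1}) :=
    congrArg₂ Deg.lP cO (DPk.map_elim _ _)
  have eY : eigs (Option J) f.dD = Deg.lP _ (_ + {f.a}) := congrArg₂ Deg.lP cO (DPk.map_elim _ _)
  have eD : eigs J f.dD = Deg.lP _ (_ + {f.a}) := congrArg (Deg.lP _) (DPk.map_elim _ _)
  have eZ : eigs J f.dZ = Deg.lP _ (Finset.univ.val.map f.d + {f.a, f.a + 1}) :=
    congrArg (Deg.lP _) ((DPk.map_elim _ _).trans ((congrArg (· + _) (DPk.map_elim _ _)).trans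
      (add_assoc _ _ _)))
  refine (Deg.cases_num hd h.one_le hN hn' eX eY (lW := eigs J f.d) rfl eZ eD).elim fun lW c => ?_
  have c' := DPk.cases (lW := lW) (n := n) x.2.2 d.2.2
  have k := Pre.Sks.CapP.map_k s true true ((f.pD Ω).up (wv 1 0))
  refine ⟨_, prD, pr, lW, d.2.1, x.2.1, x.2.2, (h.range_jL hP).trans d.1.symm,
    fun _ ⟨u, e⟩ => d.1.ge (e ▸ h.jR_mem hP u), x.1.le.trans ((congrArg amb k).ge.trans (amb_le_range _ _)), ?_,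
    fun m => ?_, c'.1 c.1, c.2.imp (fun z => ⟨?_, ?_⟩) c'.2⟩
  · have := (s.sk true true).sk.rel_amb hP.nc_deg (h.grL hP a₁).nu g₂.nu
      (h.jL_nu hP (h.grL hP a₁)) (h.jR_nu hP g₂) (w := f.hq Ω _)
      ((Pre.Sks.CapP.map_k1 s true true _).symm ▸ (h.grL hP a₁).cm _)
      ((Pre.Sks.CapP.map_k2 s true true _).symm ▸ g₂.cm _) fun x hx =>
        LX.nu_amb a ((congrArg amb k).le hx)
    rw [k] at this
    exact x.1 ▸ this
  · have e := (h.isB hP).str_eq c₂ 0 m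
    rw [zero_smul, zero_smul, add_zero, add_zero, b.str, DPk.str h.W.lf aW hn,
      DPk.str h.Z.lf aZ (dT_Z.trans (congrArg (· - 2) hn))] at e
    have e' := DPk.str' LD aD nD m
    exact (DPk.str LX a nX m).trans ((Deg.hodge_num hd h.one_le hN hn' eX eY rfl eZ eD m).trans
      (congrArg₂ (· - ·) (congrArg₂ (· - ·) (congrArg₂ (· + ·) (DPk.str LL a₁ nX m).symm e)
        e'.1.symm) e'.2.symm))
  · have r := LD.card_eq aD
    have := hP.qD.ps.pd.fin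
    rw [z.1, Multiset.card_zero] at r
    exact d.2.1.trans (Submodule.finrank_eq_zero.1 r.symm)
  · have e : νB = 0 := Ok.BG.eq_zero h hE
      (h.W.lf.nu_eq_zero aW z.2.2.1 ▸ h.Z.lf.nu_eq_zero aZ z.2.2.2.1 ▸ b)
    rw [LL.nu_eq_zero a₁ z.2.1, LX.nu_eq_zero a z.2.2.2.2,
      c₂.unique' (ν₁ := 0) (by rw [e]; exact Cg.zero) (h.isB hP).bij.1, add_zero, add_zero, add_zero]
    exact (s.sk true true).sk.rel_mu0 hP.nc_deg

end Flag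

end Vale.Agent.P269
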