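import Vale.Agent.P269.Coh.Ml0

/-!
# P269, cohomological packages: small models of the general fibres
-/

set_option linter.unusedSectionVars false

namespace Vale.Agent.P269.Pre.Ml

open Set Function Topology Filter P291Z Holo Mono Coh Tq Fock MvPolynomial

variable {R J K R₀ J₀ K₀ : Type} [Fintype R] [Fintype J] [Fintype K] [Fintype R₀] [Fintype J₀]
  [Fintype K₀] [DecidableEq R] [DecidableEq R₀] {P : Pre R J K}

variable {A : Set (J → ℂ)} {T : Fam Empty Empty R₀ J₀ K₀} {M : R → R₀ → ℤ}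
  {σ : J → MvPolynomial J₀ ℂ} {B B₁ : Set ((Option Empty → ℂ) × (P.QJ → ℂ))} {t : ℂ}

namespace Ml1

variable {R₁ R₂ J₁ K₁ I I₁ : Type} [Fintype R₁] [Fintype R₂] [Fintype J₁] [Fintype K₁] [Fintype I]
  [Fintype I₁] {e e' : Bool}

theorem chM_comp (M' : R₂ → R₁ → ℤ) (N : R₁ → R₀ → ℤ) (χ : R₂ → ℤ) :
    chM (fun r₂ r => ∑ r₁, M' r₂ r₁ * N r₁ r) χ = chM N (chM M' χ) :=
  funext fun r => (Fam.sum_sum_mul χ M' fun r₁ => N r₁ r).symm

theorem chM_up (N : R → R₁ → ℤ) (x u : R₁ → ℤ) (c : R → ℤ) :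
    chM (P.mx N x u) (P.up c) = chM N c := funext fun r => up_mx c N r x u

theorem chM_y (N : R → R₁ → ℤ) (x u : R₁ → ℤ) : chM (P.mx N x u) (P.W.w P.y) = u :=
  funext fun r => by
    simp only [chM, mx_eq]
    exact P.qw_shr _ _ _ 2

theorem chM_y' (N : R → R₁ → ℤ) (x u : R₁ → ℤ) :
    chM (P.mx N x u) (P.W.w P.y') = N P.η - x + u :=
  funext fun r => by
    simp only [chM, mx_eq]
    exact P.qw_shr _ _ _ 3

theorem chM_id1 (c : R → ℤ) : chM id1 c = c := funext fun r => by simp [chM, id1]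

theorem θ₀_eq (h : P.Ok) : P.θ₀ = P.up P.θ + P.W.w P.y + P.W.w P.y' :=
  funext fun r => by
    rcases r with r | _ | _ <;> simp [θ₀, y, y', qw, up, h.θη]
    ring

theorem chM_κ (N : R → R₁ → ℤ) (x u : R₁ → ℤ) : chM (P.mx N x u) (P.κ e e') =
    chM N P.κ₀ + cond e 0 u + cond e' 0 (N P.η - x + u) := by
  rw [κ, chM_add, chM_add, chM_up]
  refine congrArg₂ (· + ·) (congrArg (_ + ·) ?_) ?_
  · cases e
    exacts [chM_y N x u, chM_zero _]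
  · cases e'
    exacts [chM_y' N x u, chM_zero _]

theorem chM_θ (h : P.Ok) (N : R → R₁ → ℤ) (x u : R₁ → ℤ) : chM (P.mx N x u) P.θ₀ =
    chM N P.θ + u + (N P.η - x + u) := by
  rw [θ₀_eq h, chM_add, chM_add, chM_up, chM_y, chM_y']

theorem lnk {s : I → P.QJ} {i : I} (hi : s i = P.b) : (P.pX e e' t).Lnk s := by
  classical
  have a : ∀ n : ℤ, ∑ j, (Pi.single i n : I → ℤ) j • (P.pX e e' t).w (s j) = n • P.W.w P.b :=
    fun n => by
      rw [Finset.sum_eq_single i (fun j _ k => by rw [Pi.single_eq_of_ne k, zero_smul]) (by simp),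
        Pi.single_eq_same, hi]
  have c : ∀ n : ℤ, ∀ j, s j ∈ (P.pX e e' t).mov → (Pi.single i n : I → ℤ) j = 0 := fun n j k =>
    Pi.single_eq_of_ne (fun d => k ⟨.inr 0, fun g => g (.inl rfl), (d ▸ hi).symm⟩) _
  intro j k _
  obtain ⟨j, g, rfl⟩ := not_not.1 k
  rcases not_not.1 g with rfl | rfl
  · exact ⟨_, c 1, ((a 1).trans (one_smul _ _)).symm⟩
  · exact ⟨_, c (-1), ((a (-1)).trans (by rw [w_b, neg_smul, one_smul, neg_neg])).symm⟩

theorem md (h : P.Ok) (ht : t ∈ P.Ω) (h0 : t ≠ 0) (hT : T.Tg) {F : Fam Empty Empty R₁ J₁ K₁}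
    (hF : F.Pl) {φ : J₀ → J₁} {s : I → J₁} {N τ} (p : T.Pres F φ s N τ) {φ' : J₁ → P.QJ}
    {s' : I₁ → P.QJ} {N' τ'} (p' : (F.par (lt t)).Pres (P.pX e e' t) φ' s' N' τ') {i : I₁}
    (hi : s' i = P.b) : T.Md (P.pX e e' t) (fun r₂ r => ∑ r₁, N' r₂ r₁ * N r₁ r)
      fun z => evσ τ' (lt t, (evσ τ z).2) :=
  ⟨hT, by classical exact h.niceX e e' ht h0, lt t, I ⊕ I₁, inferInstance, _, _, _,
    (p.par hT.pl hF (lt t)).trans p' hF.mov, lnk (i := .inr i) hi, fun ⟨u, z⟩ => by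
      obtain rfl : u = Empty.elim := Subsingleton.elim _ _
      rw [Fam.evσ_aeval]
      exact congrArg (fun v => evσ τ' (lt t, v))
        (funext fun j => congrArg (MvPolynomial.eval z) (Fam.map_eval_par _ _).symm)⟩

theorem nm_ext {ι : J → J₁} {q} (l : Option Empty → ℂ) (v : J₁ → ℂ) :
    P.nm (evσ (P.ext (X ∘ ι) q) (l, v)) = P.sc (v ∘ ι) :=
  congrArg P.sc (funext fun j => by simp [evσ, evz, ext])

theorem nm_emb {q} (l : Option Empty → ℂ) (z : (Empty → ℂ) × (J₀ → ℂ)) :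
    P.nm (evσ (P.ext X q) (l, (evσ (fun j => MvPolynomial.map C (σ j)) z).2)) = P.emb σ z := by
  rw [evσ_C]
  exact nm_ext (ι := id) _ _

end Ml1

variable (ht : t ∈ P.Ω) (h0 : t ≠ 0)
include ht h0

theorem exists_mdL (m : P.Ml P.lft T M σ) : ∃ M' f, ∃ k : T.Md (P.pX false true t) M' f,
    (∀ x, m.ok.πL _ _ _ (k.q x) = m.eL x) ∧
    chM M' (P.κ false true) = chM M (P.κ₀ - Pi.single P.η 1) ∧
    chM M' P.θ₀ = chM M (P.θ - Pi.single P.η 1) := by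
  obtain ⟨I, _, φ, s, p⟩ := m.ex
  refine ⟨_, _, Ml1.md m.ok ht h0 m.tg (Fam.lev_pl _ _) p (m.ok.pres_X2 h0) (i := 0) rfl,
    fun x => ?_, ?_, ?_⟩
  · obtain ⟨x, rfl⟩ := mk_surj x
    exact congrArg (Quo.mk _) (Subtype.ext (Ml1.nm_emb _ _))
  · rw [Ml1.chM_comp, Ml1.chM_κ, Ml1.chM_id1, id1_eq]
    exact congrArg _ (by simp [sub_eq_add_neg])
  · rw [Ml1.chM_comp, Ml1.chM_θ m.ok, Ml1.chM_id1, id1_eq]
    exact congrArg _ (by simp [sub_eq_add_neg])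

theorem exists_mdR (m : P.Ml (P.mem false 0) T M σ) : ∃ M' f, ∃ k : T.Md (P.pX true false t) M' f,
    (∀ x, m.ok.πR _ _ _ (k.q x) = m.eR x) ∧
    chM M' (P.κ true false) = chM M (P.κ₀ + Pi.single P.η 1) ∧
    chM M' P.θ₀ = chM M (P.θ + Pi.single P.η 1) := by
  obtain ⟨I, _, φ, s, p⟩ := m.ex
  refine ⟨_, _, Ml1.md m.ok ht h0 m.tg (Fam.lev_pl _ _) p (m.ok.pres_X1 h0 false) (i := 0) rfl,
    fun x => ?_, ?_, ?_⟩
  · obtain ⟨x, rfl⟩ := mk_surj x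
    exact congrArg (Quo.mk _) (Subtype.ext (Ml1.nm_emb _ _))
  · rw [Ml1.chM_comp, Ml1.chM_κ, Ml1.chM_id1, id1_eq]
    exact congrArg _ (by simp)
  · rw [Ml1.chM_comp, Ml1.chM_θ m.ok, Ml1.chM_id1, id1_eq]
    exact congrArg _ (by simp)

theorem exists_mdX (m : P.Ml (P.mem true t) T M σ) : ∃ M' f, ∃ k : T.Md (P.pX true true t) M' f,
    (∀ x, k.q x = m.eX x) ∧ chM M' (P.κ true true) = chM M P.κ₀ ∧
    chM M' P.θ₀ = chM M (P.θ + Pi.single P.η 1) := by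
  obtain ⟨I, _, φ, s, p⟩ := m.ex
  have k := Ml1.md m.ok ht h0 m.tg (Fam.lev_pl _ _) p (m.ok.pres_X1 h0 true) (i := 0) rfl
  refine ⟨_, _, k, fun x => ?_, ?_, ?_⟩
  · obtain ⟨x, rfl⟩ := mk_surj x
    obtain ⟨τ, a, -, b⟩ := m.ok.nm_eq (k.hol.maps x.2)
    exact Quot.sound ⟨τ, a, (Ml1.nm_emb _ _).symm.trans b⟩
  · rw [Ml1.chM_comp, Ml1.chM_κ, Ml1.chM_id1]
    exact congrArg _ (by simp)
  · rw [Ml1.chM_comp, Ml1.chM_θ m.ok, Ml1.chM_id1, id1_eq]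
    exact congrArg _ (by simp)

theorem exists_mdC (m : P.Ml P.dvs T M σ) : ∃ (a : Fin 2 → R₀ → ℤ) (θ : _) (M' : _) (f : _),
    ∃ k : (T.proj a θ).Md (P.pX false false t) M' f,
    (∀ x, m.ok.πD _ _ (k.q x) = m.eD (m.tg.pj a θ x)) ∧
    (chM M P.κ₀ = T.κ₁ → chM M' (P.κ false false) = (T.proj a θ).κ₁) := by
  obtain ⟨I, _, φ, s, p⟩ := m.ex
  let a : Fin 2 → R₀ → ℤ := fun l r => |M P.η r| + chM M (![0, Pi.single P.η 1] l) r
  have a0 : a 0 = fun r => |M P.η r| := funext fun r => by simp [a, chM_zero]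
  have a1 : a 1 = fun r => |M P.η r| + M P.η r := funext fun r => by simp [a, chM_single]
  obtain ⟨θ, k⟩ := m.tg.exists_proj (a := a) (Fin.forall_fin_two.2
    ⟨a0 ▸ fun r => abs_nonneg _, a1 ▸ fun r => neg_le_iff_add_nonneg.1 (neg_le_abs _)⟩)
  refine ⟨a, θ, _, _, Ml1.md m.ok ht h0 k (Fam.proj_pl _ _ _)
    (p.proj m.tg.pl (Fam.lev_pl _ _) (fun r => |M P.η r|) (fun _ _ => rfl) θ 0)
    (m.ok.pres_X3 h0 0) (i := 0) rfl, fun x => ?_, fun e => ?_⟩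
  · obtain ⟨x, rfl⟩ := mk_surj x
    refine congrArg (Quo.mk _) (Subtype.ext ((Ml1.nm_ext _ _).trans ?_))
    refine congrArg P.sc (a₂ := fun j => eval (x.1.2 ∘ .inl) (σ j)) (funext fun j => ?_)
    simp only [evσ, evz, comp_apply, Sum.elim_inl, map_rename, eval_rename, map_eval_map_C]
  · rw [Ml1.chM_comp, Ml1.chM_κ, κ_proj, ← e, Fin.sum_univ_two, a0, a1]
    funext o
    cases o <;> simp [chM, id2, Pi.single_apply, add_mul, Finset.sum_add_distrib]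
    ring

end Vale.Agent.P269.Pre.Ml
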