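import Vale.Agent.P269.Coh.Lf
import Vale.Agent.P269.Mono.Conj

/-!
# P269, cohomological packages: real isotropic primitive classes
-/

set_option linter.unusedSectionVars false

namespace Vale.Agent.P269.Coh

open P291Z Set Function Fock Mono PS

variable {D : PS} {c : H D.X} {Y1 : Pc D c 1} {Y2 : Pc D c (-1)}

/-- The total space retracts to the central fibre. -/
structure Sk.Top (X : Sk Y1 Y2) : Prop where
  d : ∃ d : H D.X →ₗ[ℂ] H X.W, (∀ k x, H.IsDeg k x → H.IsDeg (k + 1) (d x)) ∧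
    (∀ x, H.map X.k1 (d x) = 0 ∧ H.map X.k2 (d x) = 0) ∧
    ∀ x, d x = 0 → ∃ t1 t2, x = H.map Y1.j t1 - H.map Y2.j t2
  α : ∃ α : H D.X →ₗ[ℂ] H X.W, (∀ k x, H.IsDeg k x → H.IsDeg (k + 2) (α x)) ∧
    ∀ w, H.map X.k w = 0 → ∃ a, α a = w

/-- There is a real isotropic primitive class. -/
def Iso (Y : PS) (h : H Y.X) : Prop := ∃ x ∈ van h Y.J, x ≠ 0 ∧ Y.J (x * x) = 0 ∧ cj x = x

theorem IsoA.comp_shift {X Y : Type} [TopologicalSpace X] [TopologicalSpace Y] {f : H X →ₗ[ℂ] H Y}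
    {s : ℤ} (h : ∀ k x, H.IsDeg k x → H.IsDeg (k + s) (f x)) (k : ℤ) (x : H X) :
    H.comp (k + s) (f x) = f (H.comp k x) :=
  LinearMap.congr_fun (ext_deg (f := H.comp (k + s) ∘ₗ f) (g := f ∘ₗ H.comp k) fun l x hx => by
    show H.comp (k + s) (f x) = f (H.comp k x)
    rcases eq_or_ne k l with rfl | e
    · rw [(h k x hx).comp_eq, hx.comp_eq]
    · rw [(h l x hx).comp_ne (by omega), hx.comp_ne e, map_zero]) x

namespace Sk

variable (X : Sk Y1 Y2) {w : H X.W} {hD : H D.X}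

theorem iso_of {u : H X.W} (hr : cj u = u) (h0 : H.map X.k u ≠ 0) (h1 : H.map X.k1 u = 0)
    (h2 : Y2.J (H.map X.k2 u * H.map X.k2 u) = 0)
    (h3 : ∀ m : ℕ, Y2.J (H.map X.k2 w ^ m * H.map X.k2 u) = 0) : Iso X.toPS (H.map X.k w) := by
  refine ⟨H.map X.k u, mem_van.2 fun m => ?_, h0, ?_, by rw [cj_map, hr]⟩
  · rw [← map_pow, ← map_mul, X.int, map_mul, h1, mul_zero, map_zero, map_mul, map_pow, h3,
      add_zero]
  · rw [← map_mul, X.int, map_mul, h1, mul_zero, map_zero, map_mul, h2, add_zero]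

theorem iso_of_ker {u : H X.W} (h0 : H.map X.k u ≠ 0) (h1 : H.map X.k1 u = 0)
    (h2 : H.map X.k2 u = 0) : Iso X.toPS (H.map X.k w) := by
  have c1 : H.map X.k1 (cj u) = 0 := by rw [← cj_map, h1, map_zero]
  have c2 : H.map X.k2 (cj u) = 0 := by rw [← cj_map, h2, map_zero]
  have key : ∀ v : H X.W, cj v = v → H.map X.k v ≠ 0 → H.map X.k1 v = 0 → H.map X.k2 v = 0 →
      Iso X.toPS (H.map X.k w) := fun v a b c d => X.iso_of a b c (by rw [d, mul_zero, map_zero])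
    fun m => by rw [d, mul_zero, map_zero]
  by_cases e : H.map X.k (u + cj u) = 0
  · refine key (Complex.I • (u - cj u)) ?_ (fun e' => h0 ?_) ?_ ?_
    · rw [map_smulₛₗ, map_sub, Mono.cj_cj, Complex.conj_I, neg_smul, ← smul_neg, neg_sub]
    · rw [H.map_smulC, smul_eq_zero, or_iff_right Complex.I_ne_zero] at e'
      have : (2 : ℂ) • H.map X.k u = 0 := by
        rw [two_smul, ← map_add, ← add_add_sub_cancel u u (cj u), map_add, e, e', add_zero]
      exact (smul_eq_zero.1 this).resolve_left two_ne_zero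
    · rw [H.map_smulC, map_sub, h1, c1, sub_zero, smul_zero]
    · rw [H.map_smulC, map_sub, h2, c2, sub_zero, smul_zero]
  · exact key _ (by rw [map_add, Mono.cj_cj, add_comm]) e (by rw [map_add, h1, c1, add_zero])
      (by rw [map_add, h2, c2, add_zero])

/-- **tubes over primitive classes of the divisor** -/
theorem Top.iso {X : Sk Y1 Y2} (T : X.Top) (w : H X.W) (LD : Lf D hD) (he : Even X.n) (hV : van hD D.J ≠ ⊥)
    (r1 : ∀ t, H.map Y1.j t ∈ amb hD) (r2 : ∀ t, H.map Y2.j t ∈ amb hD) :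
    Iso X.toPS (H.map X.k w) := by
  obtain ⟨d, d1, d2, d3⟩ := T.d
  obtain ⟨α, α1, α2⟩ := T.α
  by_contra hn
  have F := LD.isForm (ε := -1) (by simp) fun m hm => by
    rw [Odd.neg_one_pow]
    rw [X.dim, ← hm, Int.even_add_one, Int.not_even_iff_odd] at he
    exact_mod_cast he
  have inj : ∀ v ∈ van hD D.J, d v = 0 → v = 0 := fun v hv e => by
    obtain ⟨t1, t2, e'⟩ := d3 v e
    exact Submodule.disjoint_def.1 LD.isCompl.disjoint v (e' ▸ sub_mem (r1 t1) (r2 t2)) hv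
  obtain ⟨z, hz⟩ := finrank_le_one_iff.1 (LD.finrank_deg_le (k := D.n - 1) (by omega))
  have h1 : ∀ v ∈ van hD D.J, ∃ s : ℂ, d v = s • α z := fun v hv => by
    obtain ⟨a, ha⟩ := α2 (d v) (by_contra fun h => hn (X.iso_of_ker h (d2 v).1 (d2 v).2))
    obtain ⟨s, hs⟩ := hz ⟨H.comp (D.n - 1) a, H.isDeg_comp _ _⟩
    refine ⟨s, ?_⟩
    rw [← map_smul, show s • (z : H D.X) = H.comp (D.n - 1) a from congrArg Subtype.val hs,
      ← IsoA.comp_shift α1, ha, show D.n - 1 + 2 = D.n + 1 by ring,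
      (d1 _ _ (LD.van_deg hv)).comp_eq]
  obtain ⟨u, hu, u0⟩ := (Submodule.ne_bot_iff _).1 hV
  refine u0 (F.nondeg u hu fun v hv => ?_)
  obtain ⟨s, hs⟩ := h1 u hu
  obtain ⟨t, ht⟩ := h1 v hv
  have e := inj _ (sub_mem (Submodule.smul_mem _ t hu) (Submodule.smul_mem _ s hv)) (by
    rw [map_sub, map_smul, map_smul, hs, ht, smul_comm, sub_self])
  have h2 : bil D.J u u = 0 := by
    have := F.symm u hu u hu
    linear_combination (1 / 2 : ℂ) * this
  have h3 := congrArg (fun x => bil D.J x u) e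
  simp only [map_sub, map_smul, LinearMap.sub_apply, LinearMap.smul_apply, h2, smul_zero, zero_sub,
    map_zero, LinearMap.zero_apply, neg_eq_zero, smul_eq_zero] at h3
  exact h3.resolve_left fun s0 => u0 (inj u hu (by rw [hs, s0, zero_smul]))

/-- **classes which come from the right piece** -/
theorem iso_of_right {x y : H Y2.X} (hx : H.map Y2.j x = 0) (hy : H.map Y2.j y = 0) (hr : cj x = x)
    (h0 : Y2.J (x * x) = 0) (h1 : Y2.J (x * y) ≠ 0)
    (ho : ∀ m : ℕ, Y2.J (H.map X.k2 w ^ m * x) = 0) : Iso X.toPS (H.map X.k w) := by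
  obtain ⟨u, u1, u2⟩ := X.mv 0 x (by rw [map_zero, hx])
  obtain ⟨v, -, v2⟩ := X.mv 0 y (by rw [map_zero, hy])
  have c1 : H.map X.k1 (u + cj u) = 0 := by rw [map_add, ← cj_map, u1, map_zero, add_zero]
  have c2 : H.map X.k2 (u + cj u) = (2 : ℂ) • x := by rw [map_add, ← cj_map, u2, hr, two_smul]
  refine X.iso_of (u := u + cj u) (by rw [map_add, Mono.cj_cj, add_comm]) (fun e => h1 ?_) c1 ?_
    fun m => ?_
  · have := X.int ((u + cj u) * v)
    rw [map_mul (H.map X.k), map_mul (H.map X.k1), map_mul (H.map X.k2), e, c1, c2, v2,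
      zero_mul, zero_mul, map_zero, map_zero, zero_add,
      smul_mul_assoc, map_smul] at this
    exact (smul_eq_zero.1 this.symm).resolve_left two_ne_zero
  · rw [c2, smul_mul_smul_comm, map_smul, h0, smul_zero]
  · rw [c2, mul_smul_comm, map_smul, ho, smul_zero]

end Sk

theorem Iso.map {Y Y' : PS} {h : H Y.X} (hi : Iso Y h) {g : H Y.X ≃ₐ[ℂ] H Y'.X} {a : ℂ}
    (hJ : ∀ x, Y'.J (g x) = a * Y.J x) (hc : ∀ x, g (cj x) = cj (g x)) : Iso Y' (g h) := by
  obtain ⟨x, h1, h2, h3, h4⟩ := hi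
  refine ⟨g x, mem_van.2 fun m => ?_, fun e => h2 (g.injective (e.trans (map_zero g).symm)), ?_,
    by rw [← hc, h4]⟩
  · rw [← map_pow, ← map_mul, hJ, mem_van.1 h1, mul_zero]
  · rw [← map_mul, hJ, h3, mul_zero]

theorem Iso.map_iff {Y Y' : PS} {h : H Y.X} {f : C(Y'.X, Y.X)} (hb : Bijective (H.map f))
    (hJ : ∀ x, Y'.J (H.map f x) = Y.J x) : Iso Y' (H.map f h) ↔ Iso Y h := by
  let g := AlgEquiv.ofBijective (H.mapA f) hb
  have hc : ∀ x, g (cj x) = cj (g x) := fun x => (cj_map f x).symm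
  refine ⟨fun hi => g.symm_apply_apply h ▸ hi.map (g := g.symm) (a := 1) (fun x => ?_) fun x => ?_,
    fun hi => hi.map (g := g) (a := 1) (fun x => (hJ x).trans (one_mul _).symm) hc⟩
  · rw [one_mul, ← hJ]
    exact congrArg _ (g.apply_symm_apply x)
  · rw [g.symm_apply_eq, hc, g.apply_symm_apply]

end Vale.Agent.P269.Coh
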