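import Vale.Agent.P269.Coh.TrB

/-!
# P269, cohomological packages: parallel transport and monodromy, for fixed variables
-/

set_option linter.unusedSectionVars false
set_option linter.style.haveILetI false

namespace Vale.Agent.P269.TrC

open Set Function Topology Filter P291Z P291Z.Fl Holo Mono Mono.CI Coh Tq Fock MvPolynomial

theorem exists_ofFn {α β : Type} {f : α → β} (hf : Surjective f) (l : List (ℕ × β)) :
    ∃ (r : ℕ) (m : Fin r → ℕ) (x : Fin r → α), l = List.ofFn fun i => (m i, f (x i)) := by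
  choose x hx using fun i => hf (l.get i).2
  exact ⟨_, fun i => (l.get i).1, x, by simp only [hx, Prod.mk.eta, List.ofFn_get]⟩

/-- The monomials as multilinear maps. -/
noncomputable def monM {V : Type} [AddCommGroup V] [Module ℂ V] (p : Par ℂ V) {r : ℕ}
    (m : Fin r → ℕ) (l₂ : List (ℕ × ℕ)) :
    MultilinearMap ℂ (fun _ : Fin r => V) (Fock.S (Deg.pT p)) :=
  (LinearMap.mulRight ℂ (monT p [] l₂)).compMultilinearMap
    ((MultilinearMap.mkPiAlgebraFin ℂ r _).compLinearMap fun i =>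
      ι _ ∘ₗ LinearMap.inl ℂ _ _ ∘ₗ Finsupp.lsingle (m i))

theorem monM_apply {V : Type} [AddCommGroup V] [Module ℂ V] (p : Par ℂ V) {r : ℕ}
    (m : Fin r → ℕ) (l₂ : List (ℕ × ℕ)) (x : Fin r → V) :
    monM p m l₂ x = monT p (List.ofFn fun i => (m i, x i)) l₂ := by
  simp [monM, monT, List.map_ofFn, comp_def]

variable {J K : Type} [Fintype J] [Fintype K] [Nonempty J] {F F' : K → MvPolynomial J ℂ} {d : K → ℕ}

theorem big_iff {k : ℕ} : (ciF F d).Big k ↔ 30 ≤ k :=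
  ⟨fun ⟨_, _, h, e⟩ => by have := h.2.1; omega, ciF_big⟩

variable (F d) in
/-- The integral. -/
noncomputable abbrev ig : H ((ciF F d).X (ciF F d).cone) →ₗ[ℂ] ℂ :=
  Loc.intg (fnd (ciF F d).actT (ciF F d).cone)

variable (F d) in
/-- The correlators. -/
noncomputable abbrev co (k : ℕ) (β : Unit → ℤ) (j : ℤ) (l₂ : List (ℕ × ℕ))
    (l₁ : List (ℕ × H ((ciF F d).X (ciF F d).cone))) : ℂ :=
  (ciF F d).cor k (ciF F d).ex0 0 (ciF F d).cone (ciF F d).cone β j l₁ l₂ []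

variable (hK : St.Kit) (hD : St.Def) (h : SmCI F d)
include hK hD h

/-- **parallel transport** -/
theorem exists_same (h' : SmCI F' d) :
    ∃ g : H ((ciF F d).X (ciF F d).cone) ≃ₐ[ℂ] H ((ciF F' d).X (ciF F' d).cone),
      g ((ciF F d).lc _ 0 1) = (ciF F' d).lc _ 0 1 ∧ (∀ k x, g (H.comp k x) = H.comp k (g x)) ∧
      (∀ x, g (cj x) = cj (g x)) ∧ (∀ x, ig F' d (g x) = ig F d x) ∧
      ∀ k, 30 ≤ k → ∀ β j l₂ l₁, co F' d k β j l₂ (l₁.map (Prod.map id g)) = co F d k β j l₂ l₁ := by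
  obtain ⟨n, S, rfl⟩ := exists_fin J h.pos
  obtain ⟨u, rfl⟩ := S.surj F h.hom
  obtain ⟨v, rfl⟩ := S.surj F' h'.hom
  obtain ⟨g, g1, g2, g3, -, g4⟩ := S.exists_iso (mem_U h) (mem_U h')
  obtain ⟨c, hc⟩ := exists_hyp' (S := S)
  let E := AlgEquiv.ofBijective (H.mapA (S.pc u)) (bij_pc h)
  let E' := AlgEquiv.ofBijective (H.mapA (S.pc v)) (bij_pc h')
  have e : ∀ x, (E.symm.trans (g.trans E')) (H.map (S.pc u) x) = H.map (S.pc v) (g x) := fun x =>
    congrArg (fun y => E' (g y)) (E.symm_apply_apply x)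
  refine ⟨E.symm.trans (g.trans E'), ?_, fun k => (bij_pc h).2.forall.2 fun x => ?_,
    (bij_pc h).2.forall.2 fun x => ?_, (bij_pc h).2.forall.2 fun x => ?_,
    fun k hk β j l₂ l₁ => ?_⟩
  · rw [hc u h, hc v h', map_smul, e, g1]
  · rw [H.comp_map, e, e, g2, H.comp_map]
  · rw [cj_map, e, e, g3, cj_map]
  · rw [e, J_pc h, J_pc h']
    exact g4 _ _ _ defInv_J fun _ => x
  · obtain ⟨r, m, x, rfl⟩ := exists_ofFn (bij_pc h).2 l₁
    simp only [List.map_ofFn, comp_def, Prod.map_apply, id, e]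
    exact (cor_pc h' hK hk β j l₂ m _).trans ((congrArg (_ * ·)
      (g4 _ _ _ (defInv_cor hK hD hk β j l₂ m) x)).trans (cor_pc h hK hk β j l₂ m x).symm)

/-- **monodromy** -/
theorem inv_co {n : ℕ} (hn : Fintype.card J = n + Fintype.card K + 1) (h1 : 1 ≤ n)
    (hx : Even n → ∃ x ∈ van ((ciF F d).lc _ 0 1) (ig F d), x ≠ 0 ∧ ig F d (x * x) = 0 ∧ cj x = x)
    {g : Module.End ℂ (H ((ciF F d).X (ciF F d).cone))}
    (hg : Inv.Isom (bil (ig F d)) (van ((ciF F d).lc _ 0 1) (ig F d)) g) {k : ℕ} (hk : 30 ≤ k)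
    (β j l₂ l₁) : co F d k β j l₂ (l₁.map (Prod.map id g)) = co F d k β j l₂ l₁ := by
  obtain ⟨N, S, rfl⟩ := exists_fin J h.pos
  obtain ⟨u, rfl⟩ := S.surj F h.hom
  obtain ⟨a, ha⟩ := exists_hyp' (S := S)
  replace ha := ha u h
  have q := qm_ci h
  rw [show (Fintype.card J - Fintype.card K - Fintype.card Unit : ℤ) = n by
    rw [Fintype.card_unit]; omega] at q
  haveI := q.fp
  haveI := q.cpt
  haveI : Nice (S.X u) := ⟨inferInstance, inferInstance, inferInstance⟩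
  have hβ := q.ori.push (homeo_pc h)
  obtain ⟨ι, c, L, c0, hc⟩ := S.exists_lef hn h1 hβ
  let E := AlgEquiv.ofBijective (H.mapA (S.pc u)) (bij_pc h)
  have hJ : ∀ x, ig _ _ (E x) = c * ι x := toH_bijective.2.forall.2 fun x =>
    (Loc.intg_push _ _ _).symm.trans ((Br.HgB.intg_toH _ _).trans (hc x))
  have a0 : a ≠ 0 := fun e => Br.HgB.intX_pow h hn.symm (by
    rw [ha, e, zero_smul, zero_pow (by omega), Wt.intX_eq, map_zero])
  have hV : ∀ x, E x ∈ van ((ciF (S.F u) S.d).lc _ 0 1) (ig _ _) ↔ x ∈ van (S.h u) ι := fun x => by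
    simp only [mem_van, show (ciF (S.F u) S.d).lc _ 0 1 = a • E (S.h u) from ha, smul_pow,
      smul_mul_assoc, ← map_pow, ← map_mul, map_smul, hJ, smul_eq_mul, mul_eq_zero, c0,
      pow_eq_zero_iff', a0, false_and, false_or]
  let g' : Module.End ℂ (H (S.X u)) := E.symm.toLinearMap ∘ₗ g ∘ₗ E.toLinearMap
  have e : ∀ x, E (g' x) = g (E x) := fun x => E.apply_symm_apply _
  have hg' : Inv.Isom (bil ι) (van (S.h u) ι) g' :=
    ⟨fun x => (hV _).1 (by rw [map_sub, e]; exact hg.mem _), fun x v hv => mul_left_cancel₀ c0 (by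
      rw [bil_apply, bil_apply, ← hJ, ← hJ, map_mul E, map_mul E, e, e]
      exact hg.isom _ _ ((hV v).2 hv))⟩
  obtain ⟨r, m, x, rfl⟩ := exists_ofFn (bij_pc h).2 l₁
  let T : ∀ w, Inv.MF (Fin r) (H (S.X w)) := fun w =>
    ((S.uf {w}).serA k (uw _ J).ex0 (parH _) (pl (S.pu w)) β j).compMultilinearMap (monM _ m l₂)
  have hT : ∀ w ∈ S.U, ∀ y, T w y = (S.uf {w}).cor k (uw _ J).ex0 0 (S.uf {w}).cone (S.uf {w}).cone
      β j (List.ofFn fun i => (m i, H.map (S.pu w) (y i))) l₂ [] := fun w hw y => by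
    have n := nice_pt hw
    refine (congrArg _ (monM_apply _ m l₂ y)).trans (((hK.spec _ 0 k _ (A' := (S.uf {w}).cone) _ _ n
      cp_pt (uf_big hk) (Fam.exOk0 hK.selC n.toGood (uf_big hk)) subset_rfl (isEv_pl _)).1 rfl
        β j _ l₂).trans ?_)
    rw [List.map_ofFn]
    rfl
  have := L.fin
  have key := (S.isInv hn h1 (mem_U h) hβ (F := T) (fun W w1 w2 w3 s t hs ht y =>
    (hT s (w3 hs) _).trans ((defInv_cor hK hD hk β j l₂ m W w1 w2 w3 s t hs ht y).trans
      (hT t (w3 ht) _).symm)) (mem_U h) L fun he => ?_).fixes L.isForm hg' x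
  · rw [hT u (mem_U h), hT u (mem_U h)] at key
    simp only [List.map_ofFn, comp_def, Prod.map_apply, id,
      fun y => show g (H.map (S.pc u) y) = H.map (S.pc u) (g' y) from (e y).symm]
    exact (cor_pc h hK hk β j l₂ m _).trans ((congrArg (_ * ·) key).trans
      (cor_pc h hK hk β j l₂ m x).symm)
  · obtain ⟨y, y1, y2, y3, y4⟩ := hx he
    obtain ⟨y, rfl⟩ := E.surjective y
    exact ⟨y, (hV y).1 y1, fun e => y2 (by rw [e, map_zero]), (mul_eq_zero.1
      ((hJ _).symm.trans ((congrArg _ (map_mul E y y)).trans y3))).resolve_left c0,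
      E.injective ((cj_map (S.pc u) y).symm.trans y4)⟩

end Vale.Agent.P269.TrC
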