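import Vale.Agent.P269.Coh.CiL
import Vale.Agent.P269.Coh.Iso
import Vale.Agent.P269.Coh.TrC

/-!
# P269, cohomological packages: monodromy and parallel transport for complete intersections
-/

set_option linter.unusedSectionVars false
set_option linter.style.haveILetI false

namespace Vale.Agent.P269

open Set Function Topology Filter P291Z Holo Mono Coh Tq Fock MvPolynomial

variable {J K J' K' : Type} [Fintype J] [Fintype K] [Fintype J'] [Fintype K'] [Nonempty J]
  [Nonempty J'] {F : K → MvPolynomial J ℂ} {d : K → ℕ} {F' : K' → MvPolynomial J' ℂ} {d' : K' → ℕ}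

namespace TrD

theorem exists_equiv (e : Finset.univ.val.map d = Finset.univ.val.map d') :
    ∃ b : K ≃ K', d' ∘ b = d := by
  refine ⟨Equiv.ofFiberEquiv (f := d) (g := d') fun n => Fintype.equivOfCardEq ?_,
    funext (Equiv.ofFiberEquiv_map _)⟩
  have := congrArg (Multiset.count n) e
  simp only [Multiset.count_map, eq_comm (a := n)] at this
  rwa [Fintype.card_subtype, Fintype.card_subtype]

theorem ser0_nat (hK : St.Kit) (h : SmCI F d) {k : ℕ} (hk : (ciF F d).Big k) {V : Type}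
    [AddCommGroup V] [Module ℂ V] {p : Par ℂ V} {f : V →ₗ[ℂ] H ((ciF F d).X (ciF F d).cone)}
    (hf : IsEv p (parH _) f) (β j) : (ciF F d).ser0 k (ciF F d).ex0 p f β j =
      (ciF F d).ser0 k (ciF F d).ex0 (parH _) .id β j ∘ₗ
        (Fock.map _ (Deg.isEv_vv hf)).toLinearMap := by
  have := Fam.serA_nat hK.spec h.tg.nice (Fam.cp_empty _) hk (Fam.exOk0 hK.selC h.good hk)
    subset_rfl (i := .id) (fun _ => rfl) hf β j
  rw [LinearMap.id_comp] at this
  rw [Fam.ser0, Fam.ser0, this]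
  exact LinearMap.ext fun x => congrArg (fun y => (ciF F d).serA k _ (parH _) .id β j y)
    (Deg.InB.map_map' (Deg.isEv_vv hf) (Deg.isEv_inl _ _) (Deg.isEv_inl _ _) (Deg.isEv_lp hf)
      (fun v => by simp) x).symm

theorem map_lid {α : Type} [AddCommGroup α] [Module ℂ α] (l : List (ℕ × α)) :
    l.map (Prod.map id (LinearMap.id : α →ₗ[ℂ] α)) = l := List.map_id'' (fun _ => rfl) l

end TrD

namespace SmCI

open TrC TrD

/-- An isomorphism of cohomology rings which preserves everything. -/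
structure Tr (h : SmCI F d) (h' : SmCI F' d')
    (g : H ((ciF F d).X (ciF F d).cone) ≃ₐ[ℂ] H ((ciF F' d').X (ciF F' d').cone)) : Prop where
  hyp : g (hyp F d) = hyp F' d'
  deg : ∀ k x, H.IsDeg k (g x) ↔ H.IsDeg k x
  cj : ∀ x, g (cj x) = cj (g x)
  J : ∀ x, h'.tg.ps.J (g x) = h.tg.ps.J x
  ser : ∀ k k', (ciF F d).Big k → (ciF F' d').Big k' →
    (ciF F' d').ser0 k' (ciF F' d').ex0 (parH _) g.toLinearMap =
      (ciF F d).ser0 k (ciF F d).ex0 (parH _) .id

variable (hK : St.Kit) (hD : St.Def) (h : SmCI F d)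
include hK hD h

/-- **parallel transport** -/
theorem exists_tr (h' : SmCI F' d') (eJ : Fintype.card J = Fintype.card J')
    (ed : Finset.univ.val.map d = Finset.univ.val.map d') : ∃ g, h.Tr h' g := by
  obtain ⟨b, rfl⟩ := exists_equiv ed
  let a := Fintype.equivOfCardEq eJ.symm
  have h₁ := h'.rename a b
  have P := h'.pres_rename a b
  obtain ⟨g, g1, g2, g3, g4, g5⟩ := exists_same hK hD h h₁
  obtain ⟨f, f1, f2, f3, f4⟩ := P.prs.iso h'.tg.qm h₁.tg.qm
  refine ⟨g.trans f, ((congrArg f g1).trans (f4 _ _)).trans (congrArg _ (funext fun _ => by simp)),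
    fun k x => (f3 k (g x)).trans ⟨fun e => g.injective ((g2 k x).trans e.comp_eq) ▸
      H.isDeg_comp k x, fun e => (congrArg g e.comp_eq).symm.trans (g2 k x) ▸ H.isDeg_comp k _⟩,
    fun x => ?_, fun x => ?_, fun k k' hk hk' => funext₂ fun β j => ?_⟩
  · rw [AlgEquiv.trans_apply, AlgEquiv.trans_apply, g3, f1, f1, P.prs.pb_eq, P.prs.pb_eq, cj_map]
  · exact ((h'.tg.qm.J_eq _).trans ((f2 _).trans (h₁.tg.qm.J_eq _).symm)).trans (g4 x)
  · have e := (P.serA0 (p := parH _) hK.pres hK.selC (by simp [h'.tg.pl.mov])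
      (.of_abs (by simp [h₁.tg.pl.mov]) _) h'.tg.nice h₁.tg.nice (Fam.cp_empty _) hk'
      (big_iff.2 (big_iff.1 hk)) subset_rfl (i' := g.toLinearMap) (i := (g.trans f).toLinearMap)
      fun v => f1 (g v)).1 β
    rw [show (fun _ => ∑ r, 1 * β r) = β from funext fun _ => by simp] at e
    refine congrArg (· ∘ₗ _) ((congrFun e j).symm.trans (Fam.serA_eq fun l₁ l₂ => ?_))
    rw [map_lid]
    exact g5 k (big_iff.1 hk) β j l₂ l₁

/-- **one member suffices** -/
theorem vci {N : ℕ} {ds : Multiset ℕ} (hN : Fintype.card J = N + 1)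
    (hd : Finset.univ.val.map d = ds)
    (hV : ∀ ν, Ad h.tg.ps (hyp F d) (eigs J d) ν → h.tg.VG ν) : VCI N ds := by
  intro J' K' _ _ F' d' hN' hd' h' C i vd s a
  haveI : Nonempty J' := Fintype.card_pos_iff.1 (by omega)
  refine h'.vir_of_vg hK (fun ν' A' => ⟨h'.gr A', fun k hk β => ?_⟩) s a
  have ed := hd.trans hd'.symm
  obtain ⟨g, t⟩ := h.exists_tr hK hD h' (hN.trans hN'.symm) ed
  let ν := g.symm.toLinearMap ∘ₗ ν' ∘ₗ g.toLinearMap
  have e : ∀ b, g (ν b) = ν' (g b) := fun b => g.apply_symm_apply _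
  have A := GrA.ad_equiv (X := h.tg.ps) (ν' := ν) g.symm
    (fun x => (t.J _).symm.trans (congrArg _ (g.apply_symm_apply x)))
    (fun x => g.symm_apply_eq.2 (by rw [e, g.apply_symm_apply])) A'
  rw [← t.hyp, g.symm_apply_apply, eigs, ← ed, hN', ← hN] at A
  obtain ⟨G, V⟩ := hV ν A
  have I : h.tg.ps.coh.Iso h'.tg.ps.coh g.toLinearEquiv :=
    ⟨isEv_parH fun m c => (t.deg m c).2, fun v w => by
      rw [PS.η_eq, PS.η_eq, ← t.J]
      exact congrArg _ (map_mul g _ _).symm, by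
      rw [PS.one_eq, PS.one_eq]
      exact map_one g⟩
  have hn : (ciF F' d').dT = (ciF F d).dT := by
    have := congrArg Multiset.card ed
    simp only [Multiset.card_map, Finset.card_val, Finset.card_univ] at this
    rw [dT_ciF, dT_ciF, hN, hN', this]
  have hs : ∑ k, d k = ∑ k, d' k := congrArg Multiset.sum ed
  have V' := V k (big_iff.2 (big_iff.1 hk)) β
  rw [show (ciF F d).ser0 k _ h.tg.ps.coh.p .id β = _ from
    (congrFun (t.ser k k (big_iff.2 (big_iff.1 hk)) hk) β).symm.trans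
      (funext (ser0_nat hK h' hk I.ev β))] at V'
  refine (I.virC (fun v => ?_) (fun v => ?_) _).1 V'
  · have m := PS.mu0_shift (X := h.tg.ps) (Y := h'.tg.ps) (f := g.toLinearMap) (s := 0)
      (fun k x hx => (add_zero k).symm ▸ (t.deg k x).2 hx) v
    rw [show (h'.tg.ps.n : ℂ) = h.tg.ps.n from congrArg _ hn, add_sub_cancel_right, Int.cast_zero,
      zero_div, zero_smul, add_zero] at m
    exact (map_add g _ _).trans (congrArg₂ (· + ·) m.symm (e v))
  · change g ((ciF F d).lc _ 0 _ * v) = (ciF F' d').lc _ 0 _ * g v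
    rw [h.lc_eq, h'.lc_eq, map_mul, map_smul, t.hyp, κ_ciF, κ_ciF, hN, hN', hs]

theorem iso_of (h' : SmCI F' d') (eJ : Fintype.card J = Fintype.card J')
    (ed : Finset.univ.val.map d = Finset.univ.val.map d') (i : Iso h.tg.ps (hyp F d)) :
    Iso h'.tg.ps (hyp F' d') :=
  let ⟨_, t⟩ := h.exists_tr hK hD h' eJ ed
  t.hyp ▸ i.map (Y' := h'.tg.ps) (a := 1) (fun x => (t.J x).trans (one_mul _).symm) t.cj

/-- **monodromy invariance** -/
theorem inv (hn : 1 ≤ (ciF F d).dT) (hi : Even (ciF F d).dT → Iso h.tg.ps (hyp F d)) {k : ℕ}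
    (hk : (ciF F d).Big k) {g : Module.End ℂ (H ((ciF F d).X (ciF F d).cone))}
    (hg : Inv.Isom (bil h.tg.ps.J) (van (hyp F d) h.tg.ps.J) g) (he : IsEv (parH _) (parH _) g)
    (β : Unit → ℤ) (j : ℤ) (x) :
    (ciF F d).ser0 k (ciF F d).ex0 (parH _) .id β j (Fock.map _ (Deg.isEv_vv he) x) =
      (ciF F d).ser0 k (ciF F d).ex0 (parH _) .id β j x := by
  obtain ⟨n, e⟩ := Int.eq_ofNat_of_zero_le (zero_le_one.trans hn)
  have e' := dT_ciF (F := F) (d := d)
  refine (LinearMap.congr_fun (ser0_nat hK h hk he β j) x).symm.trans ?_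
  rw [Fam.ser0, Fam.ser0, Fam.serA_eq fun l₁ l₂ => (inv_co hK hD h (n := n) (by omega) (by omega)
    (fun a => hi (e ▸ (Int.even_coe_nat n).2 a)) hg (big_iff.1 hk) β j l₂ l₁).trans
      (congrArg _ (map_lid l₁).symm)]

end SmCI

end Vale.Agent.P269
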