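import Vale.Agent.P269.Coh.DIso
import Vale.Agent.P269.Coh.Ml1
import Vale.Agent.P269.Coh.Num
import Vale.Agent.P269.Coh.Tr
import Vale.Agent.P269.Asm.Flg

/-!
# P269, cohomological packages: isotropic classes and monodromy invariance
-/

set_option linter.unusedSectionVars false

namespace Vale.Agent.P269.IsoC

open Set Function Topology Filter P291Z Holo Mono Coh Tq Fock MvPolynomial

theorem map_elim {K : Type} [Fintype K] (a : ℕ) (d : K → ℕ) :
    Finset.univ.val.map (fun o : Option K => o.elim a d) = Finset.univ.val.map d + {a} := by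
  rw [univ_option, add_comm, Multiset.singleton_add]
  simp [Finset.insertNone]
  rfl

/-- double point degenerations with given degrees -/
theorem exists_flag (N : ℕ) {ds : Multiset ℕ} (hd : ∀ a ∈ ds, 1 ≤ a) {a : ℕ} (ha : 1 ≤ a) :
    ∃ (m : ℕ) (f : Flag (Fin (N + 1)) (Fin m)) (_ : f.Ok) (Ω : Set ℂ) (_ : (f.pD Ω).Ok) (t : ℂ)
      (A : Set ℂ) (s : (f.pD Ω).Sks t A), (s.sk true true).sk.Top ∧
      Finset.univ.val.map f.d = ds ∧ f.a = a := by
  obtain ⟨l, rfl⟩ := Quot.exists_rep ds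
  obtain ⟨f, e, e', h⟩ := Flag.exists_ok (Fin (N + 1)) (Fin l.length) l.get
    (fun k => hd _ (List.get_mem l k)) ha
  obtain ⟨r, -, hP⟩ := h.exists_pD
  obtain ⟨t, s, T⟩ := hP.sks_top.exists
  exact ⟨_, f, h, _, hP, _, _, s, T _ _, by rw [e, Fin.univ_val_map, List.ofFn_get]; rfl, e'⟩

variable {J K : Type} [Fintype J] [Fintype K] [Nonempty J] {F : K → MvPolynomial J ℂ} {d : K → ℕ}

theorem card_eq : (Finset.univ.val.map d).card = Fintype.card K := Multiset.card_map _ _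

/-- the step by tubes -/
theorem tube (hK : St.Kit) (hD : St.Def) (h : SmCI F d) {N : ℕ} {ds : Multiset ℕ} {a : ℕ}
    (ha : 1 ≤ a) (hJ : Fintype.card J = N + 2) (e : Finset.univ.val.map d = ds + {a + 1})
    (he : Even (N - ds.card : ℤ)) (hl : Deg.lP N (ds + {a}) ≠ 0) : Iso h.tg.ps (hyp F d) := by
  obtain ⟨m, f, k, Ω, hP, t, A, s, T, rfl, rfl⟩ := exists_flag N (ds := ds) (fun b hb => by
    obtain ⟨c, -, rfl⟩ := Multiset.mem_map.1 (e ▸ Multiset.mem_add.2 (.inl hb))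
    exact h.pos c) ha
  refine (k.smX hP s.mem s.ne).iso_of hK hD h (by simp [hJ]) ((map_elim _ _).trans e.symm)
    (k.iso_tube hP s T ?_ ?_)
  · rw [dT_ciF, ← card_eq (d := f.d)]
    simpa using he
  · rwa [eigs, Fintype.card_fin, show Finset.univ.val.map f.dD = _ from map_elim _ _]

variable {Λ R R' J' K' : Type} [Fintype Λ] [Fintype R] [Fintype R'] [Fintype J'] [Fintype K']
  [DecidableEq R] [DecidableEq R'] {T : Fam Empty Empty R J K} {F' : Fam Empty Λ R' J' K'}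
  {M : R' → R → ℤ} {φ : (Empty → ℂ) × (J → ℂ) → (Λ → ℂ) × (J' → ℂ)}

/-- invariance passes from the small model to the large one -/
theorem inv_md (h : T.Md F' M φ) (hK : St.Kit) {k' : ℕ} (hk' : F'.Big k')
    {g' : Module.End ℂ (H (F'.X F'.cone))} (he' : IsEv (parH _) (parH _) g')
    {g : Module.End ℂ (H (T.X T.cone))} (he : IsEv (parH _) (parH _) g) (e : Cg h.q g' g)
    (hT : ∀ k, T.Big k → ∀ β j x, T.ser0 k T.ex0 (parH _) .id β j
      (Fock.map _ (Deg.isEv_vv he) x) = T.ser0 k T.ex0 (parH _) .id β j x) (β j x) :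
    F'.ser0 k' F'.ex0 (parH _) .id β j (Fock.map _ (Deg.isEv_vv he') x) =
      F'.ser0 k' F'.ex0 (parH _) .id β j x := by
  obtain ⟨k, hk⟩ := h.tg.exists_big
  obtain ⟨Z, a, b, ⟨c, u⟩, -⟩ := h.ser hK subset_rfl (p := parH _) (i' := .id) (i := pl h.q)
    (fun _ => rfl) (fun v => (h.pb_eq v).symm) hk hk'
  by_cases q : ∃ d : R → ℤ, β = fun r' => ∑ r, M r' r * d r
  · obtain ⟨d, rfl⟩ := q
    have w : ∀ y, F'.ser0 k' F'.ex0 (parH _) .id (fun r' => ∑ r, M r' r * d r) j y =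
        c • T.ser0 k T.ex0 (parH _) .id d j (Fock.map _ (Deg.isEv_vv (isEv_pl h.q)) y) := fun y => by
      rw [Fam.ser0, Fam.ser0, a, u, show T.serA k T.ex0 _ (pl h.q) d j = _ from
        Fam.serA_nat hK.spec h.tg.nice T.cp_empty hk (Fam.exOk0 hK.selC h.tg.toGood hk) subset_rfl
          (p' := parH _) (i := .id) (fun _ => rfl) (isEv_pl h.q) d j]
      simp only [LinearMap.comp_apply, LinearMap.smul_apply, AlgHom.toLinearMap_apply]
      rw [Deg.InB.map_map' (Deg.isEv_inl _ _) (Deg.isEv_lp (isEv_pl h.q))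
        (Deg.isEv_vv (isEv_pl h.q)) (Deg.isEv_inl _ _) fun v => by simp]
    rw [w, w, ← hT k hk d j (Fock.map _ _ x), Deg.InB.map_map' (Deg.isEv_vv he')
      (Deg.isEv_vv (isEv_pl h.q)) (Deg.isEv_vv (isEv_pl h.q)) (Deg.isEv_vv he)
      fun v => Finsupp.ext fun m => e (v m)]
  · rw [Fam.ser0, b β (not_exists.1 q)]
    rfl

/-- conjugating isometries -/
theorem isom {X Y : PS} {q : C(X.X, Y.X)} (i : PS.Is X Y q) {x : H Y.X} {g' : Module.End ℂ (H Y.X)}
    {g : Module.End ℂ (H X.X)} (e : Cg q g' g) (hg : Inv.Isom (bil Y.J) (van x Y.J) g') :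
    Inv.Isom (bil X.J) (van (H.map q x) X.J) g := by
  refine ⟨fun a => ?_, fun a v hv => ?_⟩
  · obtain ⟨a, rfl⟩ := i.bij.2 a
    rw [← e, ← map_sub]
    exact i.mem_van.2 (hg.mem a)
  · obtain ⟨a, rfl⟩ := i.bij.2 a
    obtain ⟨v, rfl⟩ := i.bij.2 v
    rw [← e, ← e, bil_apply, bil_apply, ← map_mul (H.map q), ← map_mul (H.map q), i.J, i.J]
    exact hg.isom a v (i.mem_van.1 hv)

theorem isEv {X Y : Type} [TopologicalSpace X] [TopologicalSpace Y] {q : C(X, Y)}
    (hs : Surjective (H.map q)) {g' : Module.End ℂ (H Y)} {g : Module.End ℂ (H X)} (e : Cg q g' g)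
    (he : IsEv (parH _) (parH _) g') : IsEv (parH _) (parH _) g := fun a => by
  obtain ⟨a, rfl⟩ := hs a
  have u : ∀ b, (parH X).σ (H.map q b) = H.map q ((parH Y).σ b) := isEv_pl q
  rw [← e, u, u, ← e, he]

end Vale.Agent.P269.IsoC

namespace Vale.Agent.P269.SmCI

open Set Function Topology Filter P291Z Holo Mono Coh Tq Fock MvPolynomial IsoC

variable {J K : Type} [Fintype J] [Fintype K] [Nonempty J] {F : K → MvPolynomial J ℂ} {d : K → ℕ}
  (hK : St.Kit) (hD : St.Def) (h : SmCI F d) (hx : ∃ x ∈ eigs J d, x ≠ 0)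
include hK hD h hx

theorem iso (he : Even (ciF F d).dT) : Iso h.tg.ps (hyp F d) := by
  have hd : ∀ a ∈ Finset.univ.val.map d, 1 ≤ a := fun a ha => by
    obtain ⟨c, -, rfl⟩ := Multiset.mem_map.1 ha
    exact h.pos c
  obtain ⟨hc, ds, a, ha, e⟩ := Deg.lP_ne hd hx
  have hd' : ∀ b ∈ ds, 1 ≤ b := fun b hb => hd b (e ▸ Multiset.mem_add.2 (.inl hb))
  have c : Fintype.card K = ds.card + 1 := by rw [← card_eq (d := d), e]; simp
  rw [card_eq] at hc
  obtain ⟨N, hN⟩ : ∃ N, Fintype.card J = N + 2 := ⟨Fintype.card J - 2, by omega⟩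
  replace he : Even (N - ds.card : ℤ) := by
    rw [dT_ciF, hN, c] at he
    convert he using 1
    push_cast
    ring
  rw [eigs, hN, e] at hx
  rcases Deg.iso_num hd' ha (N := N) (by omega) rfl rfl rfl rfl rfl rfl hx with hl | ⟨h4, rfl, hl⟩
  · exact tube hK hD h ha hN e he hl
  · obtain ⟨m, f, k, Ω, hP, t, A, s, -, rfl, e'⟩ := exists_flag N hd' ha
    refine (k.smX hP s.mem s.ne).iso_of hK hD h (by simp [hN])
      ((map_elim _ _).trans (e' ▸ e.symm)) (k.iso_exc hP s (tube hK hD k.Z ha (N := N - 1)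
        (by rw [Fintype.card_fin]; omega) ((map_elim _ _).trans ?_) ?_ hl))
    · rw [show Finset.univ.val.map f.dD = _ from map_elim _ _, e']
    · rw [Multiset.card_add, Multiset.card_singleton, Int.even_iff] at *
      omega

/-- **monodromy invariance** -/
theorem inv' {k : ℕ} (hk : (ciF F d).Big k) {g : Module.End ℂ (H ((ciF F d).X (ciF F d).cone))}
    (hg : Inv.Isom (bil h.tg.ps.J) (van (hyp F d) h.tg.ps.J) g) (he : IsEv (parH _) (parH _) g)
    (β : Unit → ℤ) (j : ℤ) (x) :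
    (ciF F d).ser0 k (ciF F d).ex0 (parH _) .id β j (Fock.map _ (Deg.isEv_vv he) x) =
      (ciF F d).ser0 k (ciF F d).ex0 (parH _) .id β j x := by
  refine h.inv hK hD ?_ (h.iso hK hD hx) hk hg he β j x
  have := (Deg.lP_ne (fun a ha => by
    obtain ⟨c, -, rfl⟩ := Multiset.mem_map.1 ha
    exact h.pos c) hx).1
  rw [card_eq] at this
  rw [dT_ciF]
  omega

end Vale.Agent.P269.SmCI

namespace Vale.Agent.P269.Flag

open Set Function Topology Filter P291Z Holo Mono Coh Tq Fock MvPolynomial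

variable {J K : Type} [Fintype J] [Fintype K] [Nonempty J] {f : Flag J K} (h : f.Ok) {Ω : Set ℂ}
  (hP : (f.pD Ω).Ok) [DecidableEq (f.pD Ω).QJ] {t : ℂ} (ht : t ∈ Ω) (h0 : t ≠ 0)

include h in
/-- **the field `inv` of `DPIn`** -/
theorem Ok.invX (hK : St.Kit) (hD : St.Def) (hx : ∃ x ∈ eigs (Option J) f.dX, x ≠ 0) (g)
    (hg : Inv.Isom (hP.qX ht h0 true true).ps.coh.fr.η
      (van (f.hq Ω _) (hP.qX ht h0 true true).ps.J) g) (he : IsEv (parH _) (parH _) g) (β j x) :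
    (f.pD Ω).sX true true t (parH _) .id β j
        (Fock.map _ (Deg.isEv_inl _ _) (Fock.map _ (Deg.isEv_vv he) x)) =
      (f.pD Ω).sX true true t (parH _) .id β j (Fock.map _ (Deg.isEv_inl _ _) x) := by
  obtain ⟨M, φ, k, e, -⟩ := (h.mX hP ht h0).exists_mdX ht h0
  have i := h.isX hP ht h0
  obtain ⟨g₀, c⟩ := i.exists_map g
  have he₀ := IsoC.isEv i.bij.2 c he
  have hg₀ := IsoC.isom i c (PS.η_bil _ ▸ hg)
  rw [h.eX_hq hP ht h0] at hg₀
  exact IsoC.inv_md k hK (hP.bigX true true ht) he he₀ (c.congr fun x => (e x).symm)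
    (fun _ hk => (h.smX hP ht h0).inv' hK hD hx hk hg₀ he₀) β j x

end Vale.Agent.P269.Flag
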