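import Vale.Agent.P269.Coh.PA1
import Vale.Agent.P269.Mono.Conj
import Vale.Agent.P269.Mono.MV
import Vale.Agent.P269.Orb.Ori

/-!
# P269, cohomological packages: oriented compact spaces
-/

set_option linter.unusedSectionVars false

namespace Vale.Agent.P269.Coh

open P291Z P291Z.Fl Set Function Topology Fock Mono Mono.MVA
open scoped ComplexConjugate

theorem pd_of_ori {X : Type} [TopologicalSpace X] [Nice X] [CompactSpace X] {n : ℤ} {β : BM X}
    (h : Orb.Ori (2 * n) β) : PD X n (β ∘ₗ ofH X) := by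
  refine ⟨fun k hk x hx => BM.isDeg_iff.1 h.deg k hk _ (ofH_deg hx),
    fun x hx => h.pd_bijective.1 ?_, ?_⟩
  · rw [map_zero]
    refine LinearMap.ext fun a => ?_
    rw [pd_apply, ← ofH_toH (Hc.act x a), toH_act]
    exact hx _
  · exact Basis.linearEquiv_dual_iff_finiteDimensional.1
      ⟨(LinearEquiv.ofBijective _ h.pd_bijective).trans
        (LinearEquiv.ofBijective (toH : Hc X →ₗ[ℂ] H X) toH_bijective).symm.dualMap⟩

namespace PS

/-- The space is a compact oriented homology manifold and `J` is the integral. -/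
structure Geo (Y : PS) : Prop where
  nice : Nice Y.X
  cpt : CompactSpace Y.X
  ori : ∃ β : BM Y.X, Orb.Ori (2 * Y.n) β ∧ ∀ a, β a = Y.J (toH a)

variable {X Y X' Y' : PS}

/-- the push-forward along an embedding is the product with a cocycle supported on the image -/
theorem Geo.exists_thom (hX : X.Geo) (hY : Y.Geo) {i : C(X.X, Y.X)} (hi : Injective i) :
    ∃ t, supp (δ t) = ∅ ∧ supp t ⊆ range i ∧ IsDeg (2 * Y.n - 2 * X.n) t ∧
      ∀ a ∈ Near i, push i (hcls (pull i a)) = hcls (a * t) := by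
  have := hX.cpt
  have := hY.cpt
  have := hY.nice
  have he := i.continuous.isClosedEmbedding hi
  have hp := IsPr.of_isClosedEmbedding he
  obtain ⟨α, h1, h2⟩ := hX.ori
  obtain ⟨β, h3, h4⟩ := hY.ori
  obtain ⟨t, ht, hs, hd, e⟩ := h3.exists_gys he h1.deg
  refine ⟨t, ht, hs, hd, fun a ha => Y.ext_right fun b => ?_⟩
  obtain ⟨s, h5, rfl⟩ := hcls_surj b
  have h6 : s * a ∈ Near i := Near.mul' ha fun z => supp_eq_empty.1 h5 _
  rw [J_mul_push, H.map_hcls i h5,
    ← hcls_mul (cocycle_pull i.continuous h5) (Near.pull_Zc hp ha).2, ← map_mul,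
    ← toH_cls (Near.pull_Zc hp h6), ← h2, ← e, ← ev_eq, Orb.ev_gys he ht hs β h6, ev_eq, h4,
    toH_cls (Near.mul_Zc h6 ht hs), mul_assoc, hcls_mul h5 (Near.mul_Zc ha ht hs).2]

/-- **the self-intersection formula** -/
theorem Geo.map_push (hX : X.Geo) (hY : Y.Geo) {i : C(X.X, Y.X)} (hi : Injective i) (x : H X.X) :
    H.map i (push i x) = H.map i (push i 1) * x := by
  have := hX.cpt
  have := hY.cpt
  have := hY.nice
  have he := i.continuous.isClosedEmbedding hi
  obtain ⟨t, ht, hs, hd, e⟩ := hX.exists_thom hY hi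
  have h1 : ∀ x, H.map i (push i x) = x * hcls (pull i t) := fun x => by
    obtain ⟨c, rfl⟩ := toH_bijective.2 x
    obtain ⟨a, ha, rfl⟩ := cls_surj_near' he c
    have h2 := Near.pull_Zc (IsPr.of_isClosedEmbedding he) ha
    rw [toH_cls h2, e a ha, H.map_hcls i (Near.mul_Zc ha ht hs).2, map_mul,
      hcls_mul h2.2 (cocycle_pull i.continuous ht)]
  rw [h1, h1, one_mul]
  exact ((hcls_isDeg (hd.pull i)).commute ⟨Y.n - X.n, by ring⟩ x).symm

/-- a class whose restriction to `i' Z'` comes from `Z` comes from `Y` -/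
theorem Geo.exists_map (hY' : Y'.Geo) (hY : Y.Geo) {Z Z' : Type} [TopologicalSpace Z]
    [TopologicalSpace Z'] [CompactSpace Z] [CompactSpace Z'] {i : C(Z, Y.X)} {i' : C(Z', Y'.X)}
    (hi : Injective i) (hi' : Injective i') {π : C(Y'.X, Y.X)} {p : C(Z', Z)}
    (sq : ∀ z, π (i' z) = i (p z)) (pre : π ⁻¹' range i = range i')
    (inj : InjOn π (range i')ᶜ) (surj : (range i)ᶜ ⊆ range π) {x : H Y'.X} {u : H Z}
    (hx : H.map i' x = H.map p u) : ∃ y, H.map π y = x ∧ H.map i y = u := by
  have := hY.cpt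
  have := hY.nice
  have := hY'.cpt
  have := hY'.nice
  have he := i.continuous.isClosedEmbedding hi
  have he' := i'.continuous.isClosedEmbedding hi'
  have := he.isEmbedding.t2Space
  have hc' : range (Subtype.val : (π ⁻¹' (range i)ᶜ) → Y'.X) = (range i')ᶜ := by
    rw [Subtype.range_coe, preimage_compl, pre]
  have hj' := PL.oemb he' IsEmbedding.subtypeVal hc'
  have hc : range (fun z : π ⁻¹' (range i)ᶜ => π z) = (range i)ᶜ := by
    refine Subset.antisymm (range_subset_iff.2 fun z => z.2) fun y hy => ?_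
    obtain ⟨z, rfl⟩ := surj hy
    exact ⟨⟨z, hy⟩, rfl⟩
  have hj : IsOpenEmbedding fun z : π ⁻¹' (range i)ᶜ => π z := PL.oemb he
    (IsEmbedding.subtypeVal.comp (IsClosedEmbedding.of_continuous_injective_isClosedMap
      π.continuous.restrictPreimage
      (fun z w h => Subtype.ext (inj (hc' ▸ mem_range_self z) (hc' ▸ mem_range_self w)
        (congrArg Subtype.val h)))
      (π.continuous.isClosedMap.restrictPreimage _)).isEmbedding) hc
  have n1 : Hc.conn he' hj' hc' (ofH Z' (H.map p u)) = Hc.conn he hj hc (ofH Z u) := by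
    obtain ⟨u, rfl⟩ := toH_bijective.2 u
    have h1 := Hc.pull_conn he hj hc he' hj' hc' (IsPr.of_compact π.continuous)
      (IsPr.of_compact p.continuous) IsPr.id sq (fun _ => rfl) u
    rw [Hc.pull_id _ fun _ => rfl] at h1
    rw [← toH_pull (IsPr.of_compact p.continuous), ofH_toH, ofH_toH, h1]
  obtain ⟨y, rfl⟩ := (exact_map he hj hc u).1 (by
    rw [← n1, ← hx]; exact (exact_map he' hj' hc' _).2 ⟨x, rfl⟩)
  obtain ⟨c, h2⟩ := (exact_push he' hj' hc' (x - H.map π y)).1 (by
    rw [map_sub, hx, PL.map_map' (k := i.comp p) sq, H.map_map, sub_self])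
  refine ⟨y + toH (Hc.push hj c), ?_, ?_⟩
  · rw [map_add, ← toH_pull (IsPr.of_compact π.continuous), Hc.pull_push hj hj' _ IsPr.id
      (fun _ => rfl) (by rw [hc, Subtype.range_coe]), Hc.pull_id _ fun _ => rfl, h2, add_sub_cancel]
  · rw [map_add, (exact_push he hj hc _).2 ⟨c, rfl⟩, add_zero]

/-- The integral is real. -/
def Re (Y : PS) : Prop := ∀ x, Y.J (cj x) = conj (Y.J x)

theorem Re.push (hX : X.Re) (hY : Y.Re) (f : C(X.X, Y.X)) (x : H X.X) :
    cj (push f x) = push f (cj x) := Y.ext_left fun b => by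
  rw [J_push_mul, ← cj_cj b, ← cj_mul, hY, J_push_mul, ← hX, cj_mul, cj_map]

end PS

end Vale.Agent.P269.Coh
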