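import Vale.Agent.P269.Coh.PBA
import Vale.Agent.P269.Coh.Geo

/-!
# P269, cohomological packages: blow-ups
-/

set_option linter.unusedSectionVars false

namespace Vale.Agent.P269.Coh

open P291Z Set Function Fock Mono PS

/-- `π : B → Z` is the blow-up along `ι : S → Z` (codimension two) with exceptional divisor
`j : E → B`. -/
structure Bl (Z S B E : PS) (ι : C(S.X, Z.X)) (π : C(B.X, Z.X)) (j : C(E.X, B.X)) (p : C(E.X, S.X))
    (c : Fin 2 → H S.X) (ξ : H E.X) : Prop where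
  pb : PB S E c p ξ
  dimB : B.n = Z.n
  dimE : B.n = E.n + 1
  sq : ∀ x, π (j x) = ι (p x)
  int : ∀ a, B.J (H.map π a) = Z.J a
  si : ∀ x, H.map j (push j x) = -(ξ * x)
  bij : Bijective fun x : H Z.X × H S.X => H.map π x.1 + push j (H.map p x.2)

namespace BlA

variable {X Y : Type} [TopologicalSpace X] [TopologicalSpace Y]

theorem comp_shift {f : H X →ₗ[ℂ] H Y} {s : ℤ} (h : ∀ k x, H.IsDeg k x → H.IsDeg (k + s) (f x))
    (k : ℤ) (x : H X) : H.comp (k + s) (f x) = f (H.comp k x) :=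
  LinearMap.congr_fun (ext_deg (f := H.comp (k + s) ∘ₗ f) (g := f ∘ₗ H.comp k) fun l y hy => by
    show H.comp (k + s) (f y) = f (H.comp k y)
    rcases eq_or_ne k l with rfl | e
    · rw [(h k y hy).comp_eq, hy.comp_eq]
    · rw [(h l y hy).comp_ne (by omega), hy.comp_ne e, map_zero]) x

theorem mul_mem_amb {h x y : H X} (hx : x ∈ amb h) (hy : y ∈ amb h) : x * y ∈ amb h :=
  Submodule.mul_le.1 (by
    rw [amb, Submodule.span_mul_span, Submodule.span_le]
    rintro _ ⟨_, ⟨i, rfl⟩, _, ⟨j, rfl⟩, rfl⟩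
    exact Submodule.subset_span ⟨i + j, pow_add h i j⟩) x hx y hy

theorem exists_amb (f : C(X, Y)) {h : H Y} {x : H X} (hx : x ∈ amb (H.map f h)) :
    ∃ y ∈ amb h, H.map f y = x := by
  have : amb (H.map f h) ≤ (amb h).map (pl f) := by
    rw [amb, Submodule.span_le]
    rintro _ ⟨j, rfl⟩
    exact ⟨h ^ j, pow_mem_amb h j, map_pow (H.map f) h j⟩
  exact this hx

theorem pow_comm {V W : Type} [AddCommGroup V] [Module ℂ V] [AddCommGroup W] [Module ℂ W]
    {f : V →ₗ[ℂ] W} {T : Module.End ℂ V} {T' : Module.End ℂ W} (e : ∀ a, f (T a) = T' (f a))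
    (k : ℕ) (a : V) : f ((T ^ k) a) = (T' ^ k) (f a) := by
  induction k with
  | zero => rfl
  | succ k ih => rw [pow_succ', pow_succ', Module.End.mul_apply, e, ih, Module.End.mul_apply]

variable {Z S B E : PS} {ι : C(S.X, Z.X)} {π : C(B.X, Z.X)} {j : C(E.X, B.X)} {p : C(E.X, S.X)}
  {c : Fin 2 → H S.X} {ξ : H E.X}

theorem map_sq (sq : ∀ x, π (j x) = ι (p x)) (a : H Z.X) :
    H.map j (H.map π a) = H.map p (H.map ι a) := by
  rw [H.map_map, H.map_map, show π.comp j = ι.comp p from ContinuousMap.ext sq]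

variable (pb : PB S E c p ξ)
include pb

theorem int0 (a : H S.X) : E.J (H.map p a) = 0 := by
  simpa using pb.int_lt (k := 0) Nat.one_pos a

theorem int1 (a : H S.X) : E.J (ξ * H.map p a) = S.J a := by
  rw [pb.deg.commute even_two, ← pb.int a, pow_one]

theorem mul_inj {s s' : H S.X} (e : -(ξ * H.map p s) = -(ξ * H.map p s')) : s = s' :=
  S.ext_left fun b => by
    rw [← int1 pb, ← int1 pb, (H.map p).map_mul, (H.map p).map_mul, ← mul_assoc, ← mul_assoc,
      neg_injective e]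

theorem push_exc (sq : ∀ x, π (j x) = ι (p x)) (s : H S.X) : push π (push j (H.map p s)) = 0 :=
  Z.ext_left fun b => by
    rw [J_push_mul, J_push_mul, map_sq sq, ← map_mul, int0 pb, zero_mul, map_zero]

end BlA

namespace Bl

variable {Z S B E : PS} {ι : C(S.X, Z.X)} {π : C(B.X, Z.X)} {j : C(E.X, B.X)} {p : C(E.X, S.X)}
  {c : Fin 2 → H S.X} {ξ : H E.X}

theorem of_geo (gZ : Z.Geo) (gS : S.Geo) (gB : B.Geo) (gE : E.Geo) (pb : PB S E c p ξ)
    (dimB : B.n = Z.n) (dimE : B.n = E.n + 1) (sq : ∀ x, π (j x) = ι (p x))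
    (int : ∀ a, B.J (H.map π a) = Z.J a) (hι : Injective ι) (hj : Injective j)
    (e : H.map j (push j 1) = -ξ) (pre : π ⁻¹' range ι = range j) (inj : InjOn π (range j)ᶜ)
    (surj : (range ι)ᶜ ⊆ range π) : Bl Z S B E ι π j p c ξ := by
  have si : ∀ x, H.map j (push j x) = -(ξ * x) := fun x => by
    rw [gE.map_push gB hj, e, neg_mul]
  refine ⟨pb, dimB, dimE, sq, int, si, fun x y (h : _ + _ = _ + _) => ?_, fun x => ?_⟩
  · have h1 := congrArg (PS.push π) h
    rw [map_add, map_add, BlA.push_exc pb sq, BlA.push_exc pb sq, push_map_of_J int,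
      push_map_of_J int, add_zero, add_zero] at h1
    rw [h1] at h
    have h2 := congrArg (H.map j) (add_left_cancel h)
    rw [si, si] at h2
    exact Prod.ext h1 (BlA.mul_inj pb h2)
  · have := gS.cpt
    have := gE.cpt
    obtain ⟨v, hv⟩ := pb.lh.2 (H.map j x)
    obtain ⟨y, hy, -⟩ := gB.exists_map gZ hι hj sq pre inj surj (x := x + push j (H.map p (v 1)))
      (u := v 0) (by
        rw [map_add, si, ← hv, pb.deg.commute even_two]
        simp)
    exact ⟨(y, -v 1), by simp only [hy, map_neg, add_neg_cancel_right]⟩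

variable (h : Bl Z S B E ι π j p c ξ)
include h

theorem orth (a : H Z.X) (s : H S.X) : B.J (H.map π a * push j (H.map p s)) = 0 := by
  rw [J_mul_push, BlA.map_sq h.sq, ← map_mul, BlA.int0 h.pb]

theorem orth' (a : H Z.X) (s : H S.X) : B.J (push j (H.map p s) * H.map π a) = 0 := by
  rw [J_push_mul, BlA.map_sq h.sq, ← map_mul, BlA.int0 h.pb]

theorem J_exc (s s' : H S.X) : B.J (push j (H.map p s) * push j (H.map p s')) = -S.J (s * s') := by
  rw [J_push_mul, h.si, mul_neg, map_neg, ← mul_assoc, ← h.pb.deg.commute even_two, mul_assoc,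
    ← map_mul, BlA.int1 h.pb]

theorem J_mul (a b : H Z.X) (s t : H S.X) :
    B.J ((H.map π a + push j (H.map p s)) * (H.map π b + push j (H.map p t))) =
      Z.J (a * b) - S.J (s * t) := by
  rw [add_mul, mul_add, mul_add, map_add, map_add, map_add, h.orth, h.orth', h.J_exc, ← map_mul,
    h.int, add_zero, zero_add, sub_eq_add_neg]

theorem exists_eq (x : H B.X) : ∃ a s, H.map π a + push j (H.map p s) = x :=
  let ⟨y, hy⟩ := h.bij.2 x
  ⟨y.1, y.2, hy⟩

theorem deg_exc (k : ℤ) (s : H S.X) (hs : H.IsDeg k s) : H.IsDeg (k + 2) (push j (H.map p s)) := by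
  have := push_deg j (hs.map p)
  rwa [h.dimE, add_sub_cancel_left, mul_one] at this

theorem exists_deg {k : ℤ} {x : H B.X} (hx : H.IsDeg k x) : ∃ a s, H.IsDeg k a ∧
    H.IsDeg (k - 2) s ∧ H.map π a + push j (H.map p s) = x := by
  obtain ⟨a, s, rfl⟩ := h.exists_eq x
  refine ⟨_, _, H.isDeg_comp k a, H.isDeg_comp (k - 2) s, Eq.trans ?_ hx.comp_eq⟩
  have := BlA.comp_shift (f := push j ∘ₗ pl p) h.deg_exc (k - 2) s
  rw [sub_add_cancel] at this
  rw [map_add, H.comp_map]
  exact congrArg _ this.symm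

theorem ext {x y : H B.X} (e : push π x = push π y) (e' : H.map j x = H.map j y) : x = y := by
  obtain ⟨a, s, rfl⟩ := h.exists_eq x
  obtain ⟨b, t, rfl⟩ := h.exists_eq y
  rw [map_add, map_add, BlA.push_exc h.pb h.sq, BlA.push_exc h.pb h.sq, push_map_of_J h.int,
    push_map_of_J h.int, add_zero, add_zero] at e
  rw [e, map_add, map_add, h.si, h.si] at e'
  rw [e, BlA.mul_inj h.pb (add_left_cancel e')]

variable {νZ : Module.End ℂ (H Z.X)} {νS : Module.End ℂ (H S.X)} {νE : Module.End ℂ (H E.X)}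

/-- **the grading of the blow-up** -/
theorem exists_nu (hZ : Z.Nu νZ) (hS : S.Nu νS) (hE : E.Nu νE)
    (e : ∀ a, H.map ι (νZ a) = νS (H.map ι a)) (ep : ∀ a, H.map p (νS a) = νE (H.map p a))
    (hξ : Cm νE ξ) : ∃ ν : Module.End ℂ (H B.X), B.Nu ν ∧
      (∀ a, H.map π (νZ a) = ν (H.map π a)) ∧ (∀ x, H.map j (ν x) = νE (H.map j x)) ∧
      Cm ν (push j 1) ∧
      (∀ x, H.IsDeg 2 x → Cm νZ x → Cm νE (H.map j (H.map π x)) → Cm ν (H.map π x)) ∧
      ∀ k : ℕ, B.coh.fr.str ((B.mu0 + ν) ^ k) =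
        Z.coh.fr.str ((Z.mu0 + νZ) ^ k) + S.coh.fr.str ((S.mu0 + νS) ^ k) := by
  have hb : Bijective ((pl π).coprod (push j ∘ₗ pl p)) := h.bij
  let Φ := LinearEquiv.ofBijective _ hb
  obtain ⟨ν, h0⟩ : ∃ ν : Module.End ℂ (H B.X), ∀ a s, ν (H.map π a + push j (H.map p s)) =
      H.map π (νZ a) + push j (H.map p (νS s)) :=
    ⟨Φ.toLinearMap ∘ₗ νZ.prodMap νS ∘ₗ Φ.symm.toLinearMap, fun a s =>
      congrArg (fun y => Φ (νZ.prodMap νS y)) (Φ.symm_apply_apply (a, s))⟩
  have h1 : ∀ a, H.map π (νZ a) = ν (H.map π a) := fun a => by simpa using (h0 a 0).symm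
  have h2 : ∀ s, push j (H.map p (νS s)) = ν (push j (H.map p s)) := fun s => by
    simpa using (h0 0 s).symm
  have h3 : B.Nu ν := by
    refine ⟨fun k x hx => ?_, fun x y => ?_, ?_⟩
    · obtain ⟨a, s, ha, hs, rfl⟩ := h.exists_deg hx
      have := h.deg_exc _ _ (hS.deg _ _ hs)
      rw [sub_add_cancel] at this
      rw [h0]
      exact (H.deg B.X k).add_mem ((hZ.deg _ _ ha).map π) this
    · obtain ⟨a, s, rfl⟩ := h.exists_eq x
      obtain ⟨b, t, rfl⟩ := h.exists_eq y
      rw [h0, h0, h.J_mul, h.J_mul, hZ.skew, hS.skew, neg_sub']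
    · rw [← map_one (H.map π), ← h1, hZ.one, map_zero]
  have h4 : ∀ x, H.map j (ν x) = νE (H.map j x) := fun x => by
    obtain ⟨a, s, rfl⟩ := h.exists_eq x
    rw [h0, map_add, map_add, map_add, h.si, h.si, BlA.map_sq h.sq, BlA.map_sq h.sq, e, ep, ep,
      map_neg, hξ]
  have h5 := h3.push hE h4
  refine ⟨ν, h3, h1, h4, fun x => ?_, fun x _ hx hx' y => ?_, fun k => ?_⟩
  · rw [← push_mul, ← push_mul, ← h5, one_mul, one_mul, h4]
  · obtain ⟨a, s, rfl⟩ := h.exists_eq y
    rw [mul_add, map_add, map_add, mul_add, ← map_mul, ← h1, ← h1, hx, map_mul, ← mul_push, ← h5,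
      hx', mul_push, h5]
  · refine str_add (C := B.coh) (C₁ := Z.coh) (C₂ := S.coh) (isEv_pl π)
      (isEv_of_deg (f := push j ∘ₗ pl p) (s := 1) h.deg_exc) hb (BlA.pow_comm (fun a => ?_) k)
      (BlA.pow_comm (fun a => ?_) k)
    · have := mu0_shift (f := pl π) (s := 0) (fun k x hx => (add_zero k).symm ▸ hx.map π) a
      rw [LinearMap.add_apply, LinearMap.add_apply, map_add, this, h.dimB, Int.cast_zero, zero_add,
        sub_self, zero_div, zero_smul, add_zero]
      exact congrArg _ (h1 a)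
    · have := mu0_shift (f := push j ∘ₗ pl p) h.deg_exc a
      rw [LinearMap.add_apply, LinearMap.add_apply, map_add, this, h.dimE, h.pb.dim,
        show ((2 : ℤ) + S.n - (S.n + (1 : ℕ) + 1 : ℤ) : ℂ) = 0 by push_cast; ring, zero_div,
        zero_smul, add_zero]
      exact congrArg _ (h2 a)

/-- restrictions to a divisor `f : D → B` are polynomials in `x` -/
theorem map_mem_amb {D : PS} (f : C(D.X, B.X)) (hn : B.n = D.n + 1) {x : H Z.X}
    (hD : ∀ k, k ≠ D.n → ∀ y, H.IsDeg k y → y ∈ amb (H.map f (H.map π x)))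
    (hZ : ∀ k, k ≠ Z.n → ∀ y, H.IsDeg k y → y ∈ amb x)
    (hS : ∀ k, k ≠ S.n → ∀ y, H.IsDeg k y → y ∈ amb (H.map ι x))
    (he : H.map f (push j 1) ∈ amb (H.map f (H.map π x))) (t : H B.X) :
    H.map f t ∈ amb (H.map f (H.map π x)) := by
  induction t using PA0.induction with
  | h0 => exact (map_zero (H.map f)).symm ▸ zero_mem _
  | hadd a b ha hb => exact (map_add (H.map f) a b).symm ▸ add_mem ha hb
  | h k t ht =>
    rcases ne_or_eq k D.n with hk | rfl
    · exact hD k hk _ (ht.map f)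
    obtain ⟨a, s, ha, hs, rfl⟩ := h.exists_deg ht
    have h1 := h.dimB
    have h2 := h.dimE
    have h3 := h.pb.dim
    obtain ⟨P, hP, rfl⟩ := BlA.exists_amb ι (hS _ (by omega) s hs)
    rw [← BlA.map_sq h.sq, push_map, map_add, map_mul]
    exact add_mem (map_amb f (map_amb π (hZ _ (by omega) a ha)))
      (BlA.mul_mem_amb (map_amb f (map_amb π hP)) he)

/-- classes from the exceptional divisor which die on a divisor `f : D → B` -/
theorem map_exc {D : PS} (f : C(D.X, B.X)) {x : H Z.X} {c' : H S.X} (hc : H.IsDeg 2 c')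
    (he : H.map j (push f 1) = ξ + H.map p c') {s : H S.X}
    (hs : ∀ m : ℕ, S.J (H.map ι x ^ m * s) = 0) (hx : H.IsDeg 2 x) (m : ℕ) :
    D.J (H.map f (H.map π x) ^ m * H.map f (push j (H.map p s))) = 0 := by
  have _ := hx
  have _ := hc
  rw [← map_pow, ← map_mul, ← mul_one (H.map f _), ← J_mul_push, ← mul_push j, J_push_mul, he,
    ← map_pow, BlA.map_sq h.sq, ← map_mul, mul_add, map_add, ← map_mul, BlA.int0 h.pb,
    ← h.pb.deg.commute even_two, BlA.int1 h.pb, map_pow, hs, add_zero]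

end Bl

end Vale.Agent.P269.Coh
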