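import Vale.Agent.P269.Coh.CiL
import Vale.Agent.P269.Coh.Bl
import Vale.Agent.P269.Asm.EPre

/-!
# P269, cohomological packages: the blow-up of a complete intersection
-/

set_option linter.unusedSectionVars false

namespace Vale.Agent.P269.Flag

open Set Function Topology Filter P291Z Holo Mono Coh Tq Fock MvPolynomial

namespace BlG

variable {R R' J J' K : Type} [Fintype R] [Fintype R'] [Fintype J] [Fintype J'] [Fintype K]

theorem hm_pair (M : R' → R → ℤ) :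
    Hm fun t : (Empty → ℂ) × (R → ℂ) => ((1, trM M t.2) : (Empty → ℂ) × (R' → ℂ)) :=
  ⟨congrArg (Prod.mk 1) (hm_trM M).one, fun _ _ ha hb => Prod.ext (mul_one _).symm
    ((hm_trM M).mul _ _ (Prod.isUnit_iff.1 ha).2 (Prod.isUnit_iff.1 hb).2), fun _ ha =>
      continuousAt_const.prodMk (((hm_trM M).cont _ (Prod.isUnit_iff.1 ha).2).comp continuousAt_snd)⟩

theorem chT_trM {M : R' → R → ℤ} {χ' : R' → ℤ} {χ : R → ℤ} (e : chM M χ' = χ) (ψ ψ' : Empty → ℤ)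
    (t : (Empty → ℂ) × (R → ℂ)) (ht : IsUnit t) : chT ψ' χ' (1, trM M t.2) = chT ψ χ t := by
  simp only [chT, prod_trM M χ' (Prod.isUnit_iff.1 ht).2, e, Finset.univ_eq_empty, Finset.prod_empty]

theorem chT_wv (ψ : Empty → ℤ) (p q : ℤ) (t : (Empty → ℂ) × (Option Unit → ℂ)) :
    chT ψ (wv p q) t = t.2 none ^ q * t.2 (some ()) ^ p := by
  simp [chT, wv]

theorem chM_B (p q : ℤ) : chM mB' (wv p q) = wv p (p - q) :=
  funext fun o => by rcases o with _ | _ <;> simp [chM, mB', wv, sub_eq_neg_add]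

/-- maps whose components are coordinates or zero -/
theorem hol_of {T : Wt Empty Empty R J} {T' : Wt Empty Empty R' J'} {A A' θ} (hθ : Hm θ)
    {g : (J → ℂ) → J' → ℂ} (maps : MapsTo (fun z => (z.1, g z.2)) A A')
    (hg : ∀ j', (∀ y, g y j' = 0) ∨ ∃ j, (∀ y, g y j' = y j) ∧
      ∀ t, IsUnit t → chT (T'.wt j') (T'.w j') (θ t) = chT (T.wt j) (T.w j) t) :
    Hol T.actT T'.actT A A' θ fun z => (z.1, g z.2) := by
  refine .of_an hθ maps (fun x _ => analyticAt_fst.prod (analyticAt_pi_iff.2 fun j' => ?_))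
    fun a ha x _ => Prod.ext (Subsingleton.elim _ _) (funext fun j' => ?_)
  · rcases hg j' with e | ⟨j, e, -⟩ <;> simp only [e]
    exacts [analyticAt_const, analyticAt_pi_iff.1 analyticAt_snd j]
  · rw [Wt.actT_snd]
    rcases hg j' with e | ⟨j, e, e'⟩
    · simp only [e, mul_zero]
    · simp only [e, e' a ha, Wt.actT_snd]

theorem fderiv_line {B : Type} [NormedAddCommGroup B] [NormedSpace ℂ B]
    {s : (Empty → ℂ) × (J → ℂ) → B} {x : (Empty → ℂ) × (J → ℂ)} (hs : AnalyticAt ℂ s x) {η : J → ℂ}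
    {w : B} (h : HasDerivAt (fun ε : ℂ => s (x.1, fun j => x.2 j + ε * η j)) w 0) :
    fderiv ℂ s x (0, η) = w :=
  HasDerivAt.unique (HasFDerivAt.comp_hasDerivAt_of_eq 0 hs.differentiableAt.hasFDerivAt
    ((hasDerivAt_const 0 x.1).prodMk (hasDerivAt_pi.2 fun j =>
      (((hasDerivAt_id' (0 : ℂ)).mul_const (η j)).const_add (x.2 j)).congr_deriv (one_mul _)))
    (by simp)) h

/-- the tangent space of the cone -/
theorem mem_tan [DecidableEq R] {T : Fam Empty Empty R J K} (h : T.Tg) {z} (hz : z ∈ T.cone)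
    {η : J → ℂ} (hη : ∀ k, ∑ j, T.jac z k j * η j = 0) :
    (0, η) ∈ tan (Subtype.val : T.cone → _) ⟨z, hz⟩ := by
  have h1 : AnalyticAt ℂ T.eqn z := analyticAt_pi_iff.2 fun k => Fam.an_eqn k z
  have h2 : ∀ η : J → ℂ, fderiv ℂ T.eqn z (0, η) = fun k => ∑ j, T.jac z k j * η j := fun η =>
    fderiv_line h1 (hasDerivAt_pi.2 fun k => Vir.hasDerivAt_eval ((T.fib z.1).F k) z.2 η)
  have h3 : Surjective (fderiv ℂ T.eqn z) := fun c =>
    let ⟨η, _, e⟩ := h.reg.ind z hz c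
    ⟨_, (h2 η).trans (funext fun k => e k trivial)⟩
  obtain ⟨m, hm⟩ := Nat.exists_eq_add_of_le' (LinearMap.finrank_le_finrank_of_surjective
    (f := (fderiv ℂ T.eqn z : (Empty → ℂ) × (J → ℂ) →ₗ[ℂ] K → ℂ)) h3)
  rw [(IsMfd.zeroSet (IsEmbedding.subtypeVal (p := (· ∈ T.cone))) (z := ⟨z, hz⟩) h1 h3 (by
    filter_upwards [h.openU.mem_nhds (T.mem_cone.1 hz).2.1] with y e
    rw [Subtype.range_val, T.mem_cone, h.bs_eq, funext_iff]
    exact ⟨fun a => a.2.2, fun a => ⟨trivial, e, a⟩⟩) hm.symm).2]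
  exact (h2 η).trans (funext hη)

end BlG

open BlG EP

variable {J K : Type} [Fintype J] [Fintype K] [Nonempty J] {f : Flag J K} (h : f.Ok)
  {θ θ' : Option Unit → ℤ}

theorem dT_D : f.tD.dT = f.tW.dT - 1 := by
  simp only [Fam.dT, Fintype.card_option]
  omega

theorem dT_Z : f.tZ.dT = f.tW.dT - 2 := by
  simp only [Fam.dT, Fintype.card_option]
  omega

theorem dT_Y : f.tY.dT = f.tW.dT := by
  simp only [Fam.dT, Fintype.card_option]
  omega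

theorem dT_X (t : ℂ) : (f.tX t).dT = f.tW.dT := by
  simp only [Fam.dT, Fintype.card_option]
  omega

theorem dT_B : f.tB.dT = f.tW.dT := by
  simp only [Fam.dT, Fintype.card_option, Fintype.card_sum, Fintype.card_fin, Fintype.card_bool]
  omega

theorem dT_E : (f.tE θ).dT = f.tW.dT - 1 := by
  simp only [Fam.dT, Fintype.card_option, Fintype.card_sum, Fintype.card_fin]
  omega

theorem dT_Q : (f.tQ θ).dT = f.tW.dT := by
  simp only [Fam.dT, Fintype.card_option, Fintype.card_sum, Fintype.card_fin]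
  omega

theorem BlG.mem_Z' {z} : z ∈ f.tZ.cone ↔ z ∈ f.tW.cone ∧ eval z.2 f.F = 0 ∧ eval z.2 f.G = 0 :=
  (mem_ciF.trans mem_Z).trans (and_assoc.symm.trans (and_congr_left' mem_ciF.symm))

theorem BlG.sub_Z : f.tZ.cone ⊆ f.tW.cone := fun _ hz => (mem_Z'.1 hz).1

theorem hol_ι : Hol f.tZ.actT f.tW.actT f.tZ.cone f.tW.cone (fun t => t) id := Hol.incl sub_Z

theorem hol_π : Hol f.tB.actT f.tW.actT f.tB.cone f.tW.cone
    (fun t => (1, trM (fun _ => wv 1 1) t.2)) fun z => (z.1, z.2 ∘ .inl) :=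
  hol_of (g := fun y : J ⊕ Fin 3 → ℂ => y ∘ .inl) (hm_pair _)
    (fun _ hz => mem_ciF.2 ⟨(mem_tB.1 hz).1.1, (mem_tB.1 hz).2.1⟩)
    fun j => .inr ⟨.inl j, fun _ => rfl, chT_trM (chM_single _ ()) _ _⟩

theorem BlG.ne_uv {y : J ⊕ Fin 2 → ℂ} (e : y ∘ .inr ≠ 0) : y (.inr 0) ≠ 0 ∨ y (.inr 1) ≠ 0 :=
  Fin.exists_fin_two.1 (Function.ne_iff.1 e)

theorem hol_j (θ) : Hol (f.tE θ).actT f.tB.actT (f.tE θ).cone f.tB.cone
    (fun t => (1, trM mB' t.2))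
    fun z => (z.1, Sum.elim (z.2 ∘ .inl) ![z.2 (.inr 0), z.2 (.inr 1), 0]) := by
  refine hol_of (g := fun y : J ⊕ Fin 2 → ℂ => Sum.elim (y ∘ .inl) ![y (.inr 0), y (.inr 1), 0])
    (hm_pair _) (fun z hz => ?_) ?_
  · obtain ⟨⟨a, b, c, d⟩, e⟩ := mem_pj.1 hz
    exact mem_tB.2 ⟨⟨a, ne_uv e⟩, b, c.trans (mul_zero _).symm, d.trans (mul_zero _).symm⟩
  · rintro (j | l)
    · exact .inr ⟨.inl j, fun _ => rfl, chT_trM (chM_B 1 1) _ _⟩
    · fin_cases l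
      · exact .inr ⟨.inr 0, fun _ => rfl, chT_trM ((chM_B _ _).trans
          (congrArg (wv _) (add_sub_cancel_left _ _))) _ _⟩
      · exact .inr ⟨.inr 1, fun _ => rfl, chT_trM ((chM_B _ _).trans
          (congrArg (wv _) (sub_sub_cancel _ _))) _ _⟩
      · exact .inl fun _ => rfl

theorem hol_jQ (θ θ') : Hol (f.tE θ).actT (f.tQ θ').actT (f.tE θ).cone (f.tQ θ').cone (fun t => t)
    fun z => (z.1, Sum.elim (z.2 ∘ .inl) ![z.2 (.inr 0), z.2 (.inr 1), 0]) := by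
  refine hol_of (g := fun y : J ⊕ Fin 2 → ℂ => Sum.elim (y ∘ .inl) ![y (.inr 0), y (.inr 1), 0])
    Hm.id (fun z hz => ?_) ?_
  · obtain ⟨a, e⟩ := mem_pj.1 hz
    exact mem_pj.2 ⟨a, Function.ne_iff.2 ((ne_uv e).elim (fun b => ⟨0, b⟩) fun b => ⟨1, b⟩)⟩
  · rintro (j | l)
    · exact .inr ⟨.inl j, fun _ => rfl, fun _ _ => rfl⟩
    · fin_cases l
      exacts [.inr ⟨.inr 0, fun _ => rfl, fun _ _ => rfl⟩,
        .inr ⟨.inr 1, fun _ => rfl, fun _ _ => rfl⟩, .inl fun _ => rfl]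

variable (f) in
/-- The inclusion of the centre. -/
noncomputable abbrev ιZ : C(f.tZ.X f.tZ.cone, f.tW.X f.tW.cone) := (hol_ι (f := f)).q

variable (f) in
/-- The blow-down. -/
noncomputable abbrev πB : C(f.tB.X f.tB.cone, f.tW.X f.tW.cone) := (hol_π (f := f)).q

variable (f) in
/-- The inclusion of the exceptional divisor. -/
noncomputable abbrev jE (θ) : C((f.tE θ).X (f.tE θ).cone, f.tB.X f.tB.cone) := (hol_j (f := f) θ).q

variable (f) in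
/-- The divisor at infinity. -/
noncomputable abbrev jQ (θ θ') : C((f.tE θ).X (f.tE θ).cone, (f.tQ θ').X (f.tQ θ').cone) :=
  (hol_jQ (f := f) θ θ').q

/-- points of the exceptional divisor with equivalent images are equivalent -/
theorem BlG.inj_j (x) (hx : x ∈ (f.tE θ).cone) (y) (_ : y ∈ (f.tE θ).cone) (b) (hb : IsUnit b)
    (e : (y.1, Sum.elim (y.2 ∘ .inl) ![y.2 (.inr 0), y.2 (.inr 1), 0]) =
      f.tB.actT b (x.1, Sum.elim (x.2 ∘ .inl) ![x.2 (.inr 0), x.2 (.inr 1), 0])) :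
    ∃ a, IsUnit a ∧ y = (f.tE θ).actT a x := by
  have h1 := (isUnit_T.1 hb).2
  let a : (Empty → ℂ) × (Option Unit → ℂ) :=
    (1, fun o => o.elim (b.2 none)⁻¹ fun _ => b.2 (some ()) * b.2 none)
  have ha : IsUnit a := isUnit_T.2 ⟨fun i => i.elim, by
    rintro (_ | _)
    exacts [inv_ne_zero (h1 _), mul_ne_zero (h1 _) (h1 _)]⟩
  have h2 : (1, trM mB' a.2) = b := Prod.ext (Subsingleton.elim _ _) (funext fun o => by
    rcases o with _ | _ <;> simp [a, trM, mB', wv, mul_comm (b.2 (some ())), h1])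
  have h3 := congrFun (congrArg Prod.snd (e.trans (h2 ▸ (hol_j θ).eqv a ha x hx).symm))
  refine ⟨a, ha, Prod.ext (Subsingleton.elim _ _) (funext ?_)⟩
  rintro (j | l)
  · exact h3 (.inl j)
  · fin_cases l
    exacts [h3 (.inr 0), h3 (.inr 1)]

/-- points of the blow-up with `e = 0` come from the exceptional divisor -/
theorem BlG.surj_j (θ) {y} (hy : y ∈ f.tB.cone) (e : y.2 (.inr 2) = 0) : ∃ x ∈ (f.tE θ).cone,
    y = (x.1, Sum.elim (x.2 ∘ .inl) ![x.2 (.inr 0), x.2 (.inr 1), 0]) := by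
  obtain ⟨a, b, c, d⟩ := mem_tB.1 hy
  rw [e, mul_zero] at c d
  refine ⟨(y.1, Sum.elim (y.2 ∘ .inl) ![y.2 (.inr 0), y.2 (.inr 1)]), mem_pj.2 ⟨⟨a.1, b, c, d⟩,
    Function.ne_iff.2 (a.2.elim (fun k => ⟨0, k⟩) fun k => ⟨1, k⟩)⟩, Prod.ext rfl (funext ?_)⟩
  rintro (j | l)
  · rfl
  · fin_cases l
    exacts [rfl, rfl, e]

theorem BlG.range_j {y : f.tB.cone} :
    Quo.mk f.tB.actT y ∈ range (f.jE θ) ↔ y.1.2 (.inr 2) = 0 := by
  refine ⟨fun ⟨x, e⟩ => ?_, fun e => ?_⟩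
  · obtain ⟨x, rfl⟩ := mk_surj x
    obtain ⟨a, -, k⟩ := QMA.mk_eq (x := ⟨_, (hol_j θ).maps x.2⟩) e
    rw [k]
    exact mul_zero _
  · obtain ⟨x, hx, k⟩ := surj_j θ y.2 e
    exact ⟨Quo.mk _ ⟨x, hx⟩, congrArg (Quo.mk _) (Subtype.ext k.symm)⟩

include h

theorem Ok.one_le : 1 ≤ f.a := h.D.pos none

theorem Ok.exists_tE : ∃ θ, (f.tE θ).Tg :=
  h.Z.tg.exists_proj fun l _ => by
    fin_cases l <;> simp
    positivity

theorem Ok.exists_tQ : ∃ θ, (f.tQ θ).Tg :=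
  h.Z.tg.exists_proj fun l _ => by
    fin_cases l <;> simp
    positivity

/-- The projection of the exceptional divisor. -/
noncomputable abbrev Ok.qE (θ) : C((f.tE θ).X (f.tE θ).cone, f.tZ.X f.tZ.cone) := h.Z.tg.pj _ θ

/-- The projection of `Q`. -/
noncomputable abbrev Ok.qQ (θ) : C((f.tQ θ).X (f.tQ θ).cone, f.tZ.X f.tZ.cone) := h.Z.tg.pj _ θ

theorem Ok.qQ_jQ (x) : h.qQ θ' (f.jQ θ θ' x) = h.qE θ x := by
  obtain ⟨x, rfl⟩ := mk_surj x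
  rfl

theorem Ok.ιZ_hyp : H.map f.ιZ (hyp _ _) = hyp _ _ :=
  haveI := h.Z.tg.toGood.fp
  haveI := h.W.tg.toGood.fp
  Wt.map_lc hol_ι.toEqh fun _ _ => rfl

theorem Ok.πB_lc (χ : Unit → ℤ) :
    H.map f.πB (f.tW.lc _ 0 χ) = f.tB.lc _ 0 (wv (χ ()) (χ ())) :=
  haveI := h.tB.toGood.fp
  haveI := h.W.tg.toGood.fp
  Wt.map_lc hol_π.toEqh (chT_trM (funext fun o => by rcases o with _ | _ <;> simp [chM, wv]) _ _)

theorem Ok.push_ιZ : PS.push (X := h.Z.tg.ps) (Y := h.W.tg.ps) f.ιZ 1 ∈ amb (hyp f.H f.d) := by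
  have := h.W.tg.toGood.fp
  have hs : Sec f.tW.actT f.tW.cone _ _ := (ciF_inv h.Z.hom).sec_eqn _ ![none, some none]
  have ha := fun x => analyticAt_pi_iff.2 fun i : Fin 2 =>
    Fam.an_eqn (F := f.tZ) (![none, some none] i) x
  have h1 : ∀ ψ χ, lcq f.tW.actT f.tW.cone (chT ψ χ) ∈ amb (hyp f.H f.d) := fun ψ χ =>
    Subsingleton.elim 0 ψ ▸ h.W.lc_mem χ
  refine mem_of_eq_of_mem (h.W.tg.qm.push_one hs (fun x => mem_Z'.trans (and_congr_right fun _ => ?_))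
    (fun x _ => ha x) (fun x hx hz w => ?_) h.Z.tg.qm sub_Z) ?_
  · simp only [funext_iff, Fin.forall_fin_two, Fam.eqn, ciF_fib]
    rfl
  · obtain ⟨η, -, e⟩ := h.Z.tg.reg.ind x hz fun o => o.elim (w 0) fun o => o.elim (w 1) 0
    refine ⟨_, mem_tan h.W.tg hx fun k => e (some (some k)) trivial, fderiv_line (ha x)
      (hasDerivAt_pi.2 fun i => (Vir.hasDerivAt_eval ((f.tZ.fib x.1).F (![none, some none] i)) x.2
        η).congr_deriv ((e (![none, some none] i) trivial).trans ?_))⟩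
    fin_cases i <;> rfl
  · rw [Fin.prod_univ_two, MulMemClass.coe_mul, lce_val, lce_val]
    exact BlA.mul_mem_amb (h1 (f.tZ.wk none) (f.tZ.χ none))
      (h1 (f.tZ.wk (some none)) (f.tZ.χ (some none)))

/-- admissible gradings are compatible with the restriction to the centre -/
theorem Ok.cp_ιZ {l l' νW νZ} (a : Ad h.W.tg.ps (hyp _ _) l νW) (a' : Ad h.Z.tg.ps (hyp _ _) l' νZ) :
    Cg f.ιZ νW νZ := fun b => by
  have h1 : ∀ x ∈ van (hyp f.H f.d) h.W.tg.ps.J, H.map f.ιZ x = 0 := fun x =>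
    h.W.lf.map_van (D := h.Z.tg.ps) f.ιZ (show f.tZ.dT < f.tW.dT by rw [dT_Z]; omega)
      (h.ιZ_hyp.symm ▸ h.Z.lf) h.push_ιZ
  obtain ⟨u, hu, v, hv, rfl⟩ := h.W.lf.exists_add b
  rw [h1 _ (a.skew.mem _), map_add, h1 v hv, add_zero,
    h.Z.lf.nu_amb a' (h.ιZ_hyp ▸ map_amb f.ιZ hu)]

theorem BlG.range_ι {y : f.tW.cone} : Quo.mk f.tW.actT y ∈ range f.ιZ ↔ y.1 ∈ f.tZ.cone := by
  refine ⟨fun ⟨x, e⟩ => ?_, fun e => ⟨Quo.mk _ ⟨y, e⟩, rfl⟩⟩
  obtain ⟨x, rfl⟩ := mk_surj x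
  obtain ⟨a, ha, k⟩ := QMA.mk_eq (x := ⟨_, sub_Z x.2⟩) e
  exact k ▸ h.Z.tg.cone_act ha x.2

theorem BlG.pre : f.πB ⁻¹' range f.ιZ = range (f.jE θ) :=
  Set.ext (mk_surj.forall.2 fun y => by
    obtain ⟨a, -, c, d⟩ := mem_tB.1 y.2
    refine ((range_ι h (y := ⟨_, hol_π.maps y.2⟩)).trans mem_Z').trans
      (Iff.trans ⟨fun k => ?_, fun k => ⟨hol_π.maps y.2, ?_, ?_⟩⟩ range_j.symm)
    · exact a.2.elim (mul_eq_zero.1 (c.symm.trans k.2.1)).resolve_left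
        (mul_eq_zero.1 (d.symm.trans k.2.2)).resolve_left
    · rw [← mul_zero (y.1.2 (.inr 0)), ← k]
      exact c
    · rw [← mul_zero (y.1.2 (.inr 1)), ← k]
      exact d)

theorem BlG.inj : InjOn f.πB (range (f.jE θ))ᶜ :=
  mk_surj.forall.2 fun x hx => mk_surj.forall.2 fun y hy e => by
    have h1 := mt range_j.2 hx
    have h2 := mt range_j.2 hy
    obtain ⟨b, hb, k⟩ := QMA.mk_eq (x := ⟨_, hol_π.maps x.2⟩) (y := ⟨_, hol_π.maps y.2⟩) e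
    have h3 := (isUnit_T.1 hb).2 ()
    let a : (Empty → ℂ) × (Option Unit → ℂ) := (1, fun o => o.elim
      (y.1.2 (.inr 2) / x.1.2 (.inr 2)) fun _ => b.2 () * (x.1.2 (.inr 2) / y.1.2 (.inr 2)))
    have ha : IsUnit a := isUnit_T.2 ⟨fun i => i.elim, by
      rintro (_ | _)
      exacts [div_ne_zero h2 h1, mul_ne_zero h3 (div_ne_zero h1 h2)]⟩
    have h4 : (1, trM (fun _ => wv 1 1) a.2) = b := Prod.ext (Subsingleton.elim _ _)
      (funext fun o => by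
        simp only [a, trM, wv, Fintype.prod_option, Fintype.prod_unique, Option.elim, zpow_one]
        field_simp)
    have h5 : y.1.2 ∘ .inl = (f.tB.actT a x.1).2 ∘ .inl :=
      congrArg Prod.snd (k.trans (h4 ▸ hol_π.eqv a ha x.1 x.2).symm)
    have h6 : y.1.2 (.inr 2) = (f.tB.actT a x.1).2 (.inr 2) := by
      refine Eq.trans ?_ (congrArg (· * _) (chT_wv _ 0 1 a)).symm
      simp [a, h1]
    obtain ⟨-, -, c, d⟩ := mem_tB.1 y.2
    obtain ⟨-, -, c', d'⟩ := mem_tB.1 (h.tB.cone_act ha x.2)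
    rw [← h5, ← h6] at c' d'
    refine Quot.sound ⟨a, ha, Prod.ext (Subsingleton.elim _ _) (funext ?_)⟩
    rintro (j | l)
    · exact congrFun h5 j
    · fin_cases l
      exacts [mul_right_cancel₀ h2 (c.symm.trans c'), mul_right_cancel₀ h2 (d.symm.trans d'), h6]

theorem BlG.surj : (range f.ιZ)ᶜ ⊆ range f.πB :=
  mk_surj.forall.2 fun x hx => by
    have h1 := mem_ciF.1 x.2
    exact ⟨Quo.mk _ ⟨(x.1.1, Sum.elim x.1.2 ![eval x.1.2 f.F, eval x.1.2 f.G, 1]),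
      mem_tB.2 ⟨⟨h1.1, not_and_or.1 fun k => hx ((range_ι h).2 (mem_Z'.2 ⟨x.2, k⟩))⟩, h1.2,
        (mul_one _).symm, (mul_one _).symm⟩⟩, rfl⟩

variable (hE : (f.tE θ).Tg)
include hE

theorem Ok.jE_lc (χ : Option Unit → ℤ) :
    H.map (f.jE θ) (f.tB.lc _ 0 χ) = (f.tE θ).lc _ 0 (chM mB' χ) :=
  haveI := h.tB.toGood.fp
  haveI := hE.toGood.fp
  Wt.map_lc (hol_j θ).toEqh (chT_trM rfl _ _)

theorem Ok.jQ_lc (hQ : (f.tQ θ').Tg) (χ : Option Unit → ℤ) :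
    H.map (f.jQ θ θ') ((f.tQ θ').lc _ 0 χ) = (f.tE θ).lc _ 0 χ :=
  haveI := h
  haveI := hQ.toGood.fp
  haveI := hE.toGood.fp
  Wt.map_lc (hol_jQ θ θ').toEqh fun _ _ => rfl

theorem Ok.push_jE :
    PS.push (X := hE.ps) (Y := h.tB.ps) (f.jE θ) 1 = f.tB.lc _ 0 (wv 0 1) := by
  have := h.tB.toGood.fp
  let E := {z ∈ f.tB.cone | (fun _ : Unit => z.2 (.inr 2)) = 0}
  have hs := Wt.sec_fld (F := f.tB.toWt) (A := f.tB.cone) fun _ : Unit => .inr 2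
  have ha : ∀ x, AnalyticAt ℂ
      (fun (z : (Empty → ℂ) × (J ⊕ Fin 3 → ℂ)) (_ : Unit) => z.2 (.inr 2)) x := fun x =>
    analyticAt_pi_iff.2 fun _ => analyticAt_pi_iff.1 analyticAt_snd _
  have ht : ∀ x (hx : x ∈ f.tB.cone), x ∈ E → ∀ w, ∃ v ∈ tan (Subtype.val : f.tB.cone → _) ⟨x, hx⟩,
      fderiv ℂ (fun z (_ : Unit) => z.2 (.inr 2)) x v = w := fun x hx hz w => by
    obtain ⟨a, b, c, d⟩ := mem_tB.1 hx
    have e : x.2 (.inr 2) = 0 := congrFun hz.2 ()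
    rw [e, mul_zero] at c d
    obtain ⟨η, p, q, h1, h2, h3⟩ := lin h a.1 b (e := 0) (fun _ => ⟨c, d⟩)
      (Sum.elim 0 fun o => cond o (x.2 (.inr 1) * w ()) (x.2 (.inr 0) * w ()))
    refine ⟨(0, Sum.elim η ![0, 0, w ()]), mem_tan h.tB hx fun k => ?_, fderiv_line (ha x)
      (hasDerivAt_pi.2 fun _ => (((hasDerivAt_id' (0 : ℂ)).mul_const _).const_add _).congr_deriv
        (one_mul _))⟩
    simp only [Fam.jac, show (f.tB.fib x.1).F k = f.blT.F k from map_eval_map_C _ _]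
    rcases k with k | _ | _
    · exact (sum_pderiv_rename _ _ _).trans (h1 k)
    · exact (sum_pderiv_eq _ _ _ _ _).trans (by simpa [sub_eq_zero] using h2)
    · exact (sum_pderiv_eq _ _ _ _ _).trans (by simpa [sub_eq_zero] using h3)
  have k := h.tB.qm.zero hs (Z := E) (fun _ => Iff.rfl) (fun x _ => ha x) ht
  have φ := (hol_j (f := f) θ).mono Subset.rfl (Z' := E) fun z hz => ⟨(hol_j θ).maps hz, rfl⟩
  have i := hE.qm.is k (by rw [dT_E, dT_B]; rfl) φ ⟨φ.q_injective inj_j, φ.q_surjective fun y hy =>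
    let ⟨x, hx, e⟩ := surj_j θ hy.1 (congrFun hy.2 ())
    ⟨x, hx, 1, isUnit_one, e.trans (Wt.actT_one _ _).symm⟩⟩
  have e : f.jE θ = (qinc f.tB.actT (sep_subset _ _)).comp φ.q :=
    ContinuousMap.ext (mk_surj.forall.2 fun _ => rfl)
  rw [e, PS.push_comp (X := hE.ps) (Y := k.ps) (Z := h.tB.ps), ← map_one (H.map φ.q), i.push_map,
    h.tB.qm.push_one hs (fun _ => Iff.rfl) (fun x _ => ha x) ht k, Fintype.prod_unique, lce_val]
  exact congrArg (f.tB.lc _ · _) (Subsingleton.elim _ _)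

/-- **The blow-up.** -/
theorem Ok.bl : Bl h.W.tg.ps h.Z.tg.ps h.tB.ps hE.ps f.ιZ f.πB (f.jE θ) (h.qE θ)
    (fun l => f.tZ.lc _ 0 (![fun _ => (f.a + 1 : ℤ), fun _ => (f.a : ℤ)] l))
    ((f.tE θ).lc _ 0 (Pi.single none 1)) := by
  refine .of_geo h.W.tg.qm.geo h.Z.tg.qm.geo h.tB.qm.geo hE.qm.geo
    (h.Z.tg.pb h.Z.tg.qm hE.qm (Fam.dT_proj _ _ _)) (dT_B (f := f))
    (show f.tB.dT = (f.tE θ).dT + 1 by rw [dT_B, dT_E, sub_add_cancel])
    (mk_surj.forall.2 fun _ => rfl)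
    (h.tB.qm.J_map_bir (dT_B (f := f) ▸ h.W.tg.qm) hol_π h.Z.tg.qm (by rw [dT_B, dT_Z]; omega) sub_Z
      ((pre h (θ := θ)).symm ▸ inj h) (surj h))
    (h.W.tg.qm.qinc_injective sub_Z) ((hol_j θ).q_injective inj_j) ?_ (pre h) (inj h) (surj h)
  rw [h.push_jE hE, h.jE_lc hE, chM_B, ← hE.qm.lc_neg]
  exact congrArg _ (funext fun o => by rcases o with _ | _ <;> rfl)

/-- Compatible gradings on `W`, `Z`, the exceptional divisor and the blow-up. -/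
structure Ok.BG (νW : Module.End ℂ (P291Z.H (f.tW.X f.tW.cone))) (νZ : Module.End ℂ (P291Z.H (f.tZ.X f.tZ.cone)))
    (νE : Module.End ℂ (P291Z.H ((f.tE θ).X (f.tE θ).cone)))
    (νB : Module.End ℂ (P291Z.H (f.tB.X f.tB.cone))) : Prop where
  gW : Wt.Gr h.W.tg.qm νW
  gZ : Wt.Gr h.Z.tg.qm νZ
  gE : Wt.Gr hE.qm νE
  gB : Wt.Gr h.tB.qm νB
  ι : Cg f.ιZ νW νZ
  p : Cg (h.qE θ) νZ νE
  π : Cg f.πB νW νB
  j : Cg (f.jE θ) νB νE
  str : ∀ k : ℕ, h.tB.ps.coh.fr.str ((h.tB.ps.mu0 + νB) ^ k) =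
    h.W.tg.ps.coh.fr.str ((h.W.tg.ps.mu0 + νW) ^ k) + h.Z.tg.ps.coh.fr.str ((h.Z.tg.ps.mu0 + νZ) ^ k)

theorem Ok.exists_bg {νW νZ} (gW : Wt.Gr h.W.tg.qm νW) (gZ : Wt.Gr h.Z.tg.qm νZ)
    (c : Cg f.ιZ νW νZ) : ∃ νE νB, h.BG hE νW νZ νE νB := by
  obtain ⟨νE, gE, p⟩ := h.Z.tg.exists_gr hE.qm (Fam.dT_proj _ _ _) gZ
  obtain ⟨νB, h1, h2, h3, h4, h5, h6⟩ := (h.bl hE).exists_nu gW.nu gZ.nu gE.nu c p (gE.cm _)
  refine ⟨νE, νB, gW, gZ, gE, ⟨h1, fun χ => ?_⟩, c, p, h2, h3, h6⟩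
  have e : χ = wv (χ (some ())) (χ (some ())) + (χ none - χ (some ())) • wv 0 1 :=
    funext fun o => by rcases o with _ | _ <;> simp [wv]
  rw [e, h.tB.qm.lc_add, h.tB.qm.lc_zsmul, ← h.push_jE hE, ← h.πB_lc fun _ => χ (some ())]
  refine (h5 _ (h.W.tg.qm.lc_deg _ _) (gW.cm _) ?_).add (h4.zsmul _)
  rw [h.πB_lc, h.jE_lc hE]
  exact gE.cm _

theorem Ok.BG.eq_zero {νE νB} (b : h.BG hE 0 0 νE νB) : νB = 0 := by
  obtain rfl : νE = 0 := (h.bl hE).pb.nu_unique b.p Cg.zero (b.gE.cm _) fun _ => (mul_zero _).symm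
  refine LinearMap.ext fun x => ?_
  obtain ⟨a, s, rfl⟩ := (h.bl hE).exists_eq x
  rw [map_add, ← b.π, ← b.gB.nu.push b.gE.nu b.j]
  simp

end Vale.Agent.P269.Flag
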