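import Vale.Agent.P269.Coh.Cap1
import Vale.Agent.P269.Kit.Smo

/-!
# P269, cohomological packages: gradings on the four degenerations
-/

set_option linter.unusedSectionVars false

namespace Vale.Agent.P269

open Set Function Topology Filter P291Z Holo Mono Coh Tq Fock MvPolynomial

namespace Wt

variable {S Λ R J : Type} [Fintype S] [Fintype Λ] [Fintype R] [Fintype J] {W : Wt S Λ R J}
  {A A₁ A₂ D X T : Set ((Λ → ℂ) × (J → ℂ))} {n : ℤ} {c : H (W.X D)}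

theorem QM.isCoh (h : W.QM A n) : W.IsCoh A h.ps.coh .id :=
  ⟨bijective_id, fun _ => rfl, fun a b => (h.ps.η_eq a b).trans (h.J_eq _), h.ps.one_eq⟩

theorem IsSk.isSm (s : W.IsSk A₁ A₂ D X T n c) (hc : H.IsDeg 2 c) :
    W.IsSm (s.sk.sm hc) .id .id .id .id :=
  ⟨s.s1, s.s2, s.sX, fun _ => rfl, fun _ => rfl, fun _ => rfl, fun _ => rfl⟩

end Wt

namespace Pre

variable {R J K : Type} [Fintype R] [Fintype J] [Fintype K] [DecidableEq R] {P : Pre R J K}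
  {h : P.Ok} {t : ℂ} {A : Set ℂ} {e e' : Bool}

/-- a grading which commutes with the old line bundles, `w c` and `w y` -/
theorem gr_of {B n} {q : P.W.QM B n} {ν} (hν : q.ps.Nu ν) (h₁ : ∀ χ, Cm ν (P.W.lc B 0 (P.up χ)))
    (h₂ : Cm ν (P.W.lc B 0 (P.W.w P.c))) (h₃ : Cm ν (P.W.lc B 0 (P.W.w P.y))) : Wt.Gr q ν :=
  ⟨hν, fun χ => by
    obtain ⟨χ₀, p, r, rfl⟩ := exists_up (P := P) χ
    rw [q.lc_add, q.lc_add, q.lc_zsmul, q.lc_zsmul]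
    exact ((h₁ _).add (h₂.zsmul _)).add (h₃.zsmul _)⟩

namespace CapP

variable {B B₁ : Set ((Option Empty → ℂ) × (P.QJ → ℂ))} {n : ℤ}

theorem nq_up (h : P.Ok) (hB : MapsTo P.nm B B₁) (h₁ : FP P.W.actT B) (h₂ : FP P.W.actT B₁)
    (χ : R → ℤ) : H.map (h.nq hB) (P.W.lc B₁ 0 (P.up χ)) = P.W.lc B 0 (P.up χ) := by
  rw [h.nq_lc hB h₁ h₂, dχ_up]

/-- the relation between the classes of `y`, `y'` and `c` -/
theorem lc_y' (h : P.Ok) (q : P.W.QM B n) : P.W.lc B 0 (P.W.w P.y') =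
    P.W.lc B 0 (P.W.w P.y) + P.W.lc B 0 (P.W.w P.c) + P.W.lc B 0 (P.up (P.w P.z)) := by
  rw [h.w_y', q.lc_add, q.lc_add]
  rfl

theorem lc_y'_zero {C Z} (q : FP P.W.actT ((P.fam e true).sub C Z).cone) :
    P.W.lc ((P.fam e true).sub C Z).cone 0 (P.W.w P.y') = 0 :=
  (congrArg (P.W.lc _ · _) (Subsingleton.elim _ _)).trans (Wt.lc_eq_zero (j := P.y') fun _ hz =>
    (fam_mem.1 hz).2.1.y'.resolve_right fun a => Bool.noConfusion a.1)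

theorem lc_y_zero {C Z} (q : FP P.W.actT ((P.fam true e').sub C Z).cone) :
    P.W.lc ((P.fam true e').sub C Z).cone 0 (P.W.w P.y) = 0 :=
  (congrArg (P.W.lc _ · _) (Subsingleton.elim _ _)).trans (Wt.lc_eq_zero (j := P.y) fun _ hz =>
    (fam_mem.1 hz).2.1.y.resolve_right fun a => Bool.noConfusion a.1)

theorem lc_κ (q : P.W.QM B n) (e e' : Bool) : P.W.lc B 0 (P.κ e e') =
    P.W.lc B 0 (P.up (P.lev univ).κ₁) + cond e 0 (P.W.lc B 0 (P.W.w P.y)) +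
      cond e' 0 (P.W.lc B 0 (P.W.w P.y')) := by
  have := q.fp
  have z : P.W.lc B 0 0 = 0 := Wt.lc_zero
  rw [κ, q.lc_add, q.lc_add]
  cases e <;> cases e' <;> simp only [cond_true, cond_false, z]

theorem κ_L (q : P.W.QM B n) (z : P.W.lc B 0 (P.W.w P.y) = 0) (e e' : Bool) :
    P.W.lc B 0 (P.κ e e') = P.W.lc B 0 (P.κ true e') := by
  rw [lc_κ q, lc_κ q, z]
  cases e <;> rfl

theorem κ_R (q : P.W.QM B n) (z : P.W.lc B 0 (P.W.w P.y') = 0) (e e' : Bool) :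
    P.W.lc B 0 (P.κ e e') = P.W.lc B 0 (P.κ e true) := by
  rw [lc_κ q, lc_κ q, z]
  cases e' <;> rfl

theorem pb_two {X Y : PS} {c : Fin 2 → H X.X} {π : C(Y.X, X.X)} {ξ : H Y.X} (p : PB X Y c π ξ)
    (x : H Y.X) : ∃ a b, H.map π a + ξ * H.map π b = x := by
  obtain ⟨v, rfl⟩ := p.lh.2 x
  refine ⟨v 0, v 1, ?_⟩
  rw [← (PBA.comm2 p.deg (H.map π (v 1))).eq]
  refine Eq.symm ((Fin.sum_univ_two _).trans ?_)
  rw [Fin.val_zero, Fin.val_one, pow_zero, pow_one, mul_one]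

end CapP

open CapP

variable {νD : Module.End ℂ (H (P.W.X P.AD))} (gD : Wt.Gr h.qD νD)

section lift
include gD

theorem exists_grL : ∃ ν, Wt.Gr (h.qL false) ν ∧ Cg (h.πD _ _) νD ν := by
  obtain ⟨ν, a, b, c, d⟩ := h.pbL.exists_nu gD.nu
    (Fin.forall_fin_two.2 ⟨(gD.cm _).neg, Cm.zero⟩)
  refine ⟨ν, gr_of a (fun χ => ?_) c ?_, b⟩
  · exact nq_up h (toD _ _) (h.qL false).fp h.qD.fp χ ▸ d _ (h.qD.lc_deg _ _) (gD.cm _)
  · exact h.lc_y_L false ▸ Cm.zero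

theorem exists_grR : ∃ ν, Wt.Gr (h.qR false) ν ∧ Cg (h.πD _ _) νD ν := by
  obtain ⟨ν, a, b, c, d⟩ := h.pbR.exists_nu gD.nu
    (Fin.forall_fin_two.2 ⟨Cm.zero, (gD.cm _).neg⟩)
  have k : ∀ χ, Cm ν (P.W.lc (P.AR false) 0 (P.up χ)) := fun χ =>
    nq_up h (toD _ _) (h.qR false).fp h.qD.fp χ ▸ d _ (h.qD.lc_deg _ _) (gD.cm _)
  refine ⟨ν, gr_of a k ?_ c, b⟩
  have := lc_y' h (h.qR false)
  rw [h.lc_y'_R, add_right_comm, eq_comm, add_eq_zero_iff_neg_eq] at this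
  exact this ▸ (c.add (k _)).neg

theorem exists_grX (ht : t ∈ P.Ω) (h0 : t ≠ 0) :
    ∃ ν, Wt.Gr (h.qX ht h0 false false) ν ∧ Cg (h.πD _ _) νD ν := by
  obtain ⟨ν, a, b, c, d⟩ := (h.pbX ht h0).exists_nu gD.nu
    (Fin.forall_fin_two.2 ⟨Cm.zero, (gD.cm _).neg⟩)
  refine ⟨ν, gr_of a (fun χ => ?_) ?_ c, b⟩
  · exact nq_up h (toD _ _) (h.qX ht h0 false false).fp h.qD.fp χ ▸
      d _ (h.qD.lc_deg _ _) (gD.cm _)
  · exact h.lc_c_X ht h0 false false ▸ Cm.zero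

theorem cp_jL {ν} (g : Wt.Gr (h.qL false) ν) (p : Cg (h.πD _ _) νD ν) : Cg (h.jL false) ν νD :=
  have k : ∀ a, H.map (h.jL false) (H.map (h.πD _ _) a) = a := h.secL
  h.pbL.map_nu p (g.cm _) (h.jL false) (fun a => (k _).trans (congrArg νD (k a).symm))
    (Wt.map_qinc_lc h.qD.fp (h.qL false).fp _ _ _ ▸ gD.cm _)

theorem cp_jR {ν} (g : Wt.Gr (h.qR false) ν) (p : Cg (h.πD _ _) νD ν) : Cg (h.jR false) ν νD :=
  have k : ∀ a, H.map (h.jR false) (H.map (h.πD _ _) a) = a := h.secR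
  h.pbR.map_nu p (g.cm _) (h.jR false) (fun a => (k _).trans (congrArg νD (k a).symm))
    (Wt.map_qinc_lc h.qD.fp (h.qR false).fp _ _ _ ▸ gD.cm _)

theorem cmpL {ν} (g : Wt.Gr (h.qL e') ν) (p : Cg (h.jL e') ν νD) :
    (h.pzL e').Cmp (g.vd (P.κ true e')) (gD.vd (P.κ true true)) :=
  (h.pcL e').pc.cmp h.nc_deg g.nu _ _ gD.nu _ _ p
    ((Wt.map_qinc_lc h.qD.fp (h.qL e').fp _ _ _).trans (κ_R h.qD h.lc_y'_D true e'))

theorem cmpR {ν} (g : Wt.Gr (h.qR e) ν) (p : Cg (h.jR e) ν νD) :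
    (h.pzR e).Cmp (g.vd (P.κ e true)) (gD.vd (P.κ true true)) :=
  (h.pcR e).pc.cmp h.nc_deg g.nu _ _ gD.nu _ _ p
    ((Wt.map_qinc_lc h.qD.fp (h.qR e).fp _ _ _).trans (κ_L h.qD h.lc_y_D e true))

end lift

theorem exists_grXL (ht : t ∈ P.Ω) (h0 : t ≠ 0) {ν} (g : Wt.Gr (h.qL true) ν) :
    ∃ ν', Wt.Gr (h.qX ht h0 false true) ν' ∧ Cg (h.πL _ _ _) ν ν' := by
  have q := h.qX ht h0 false true
  have i := h.isL ht h0
  obtain ⟨ν', p⟩ := i.exists_map ν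
  have k : ∀ χ, Cm ν' (P.W.lc (P.AX false true t) 0 (P.up χ)) := fun χ =>
    nq_up h (toL _ _ _) q.fp (h.qL true).fp χ ▸ p.cm i.bij.2 (g.cm _)
  have c := h.lc_c_X ht h0 false true
  refine ⟨ν', gr_of ((i.nu_iff p).2 g.nu) k (c ▸ Cm.zero) ?_, p⟩
  have := lc_y' h q
  rw [lc_y'_zero q.fp, c, add_zero, eq_comm, add_eq_zero_iff_eq_neg] at this
  exact this ▸ (k _).neg

theorem exists_grXR (ht : t ∈ P.Ω) (h0 : t ≠ 0) {ν} (g : Wt.Gr (h.qR true) ν) :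
    ∃ ν', Wt.Gr (h.qX ht h0 true false) ν' ∧ Cg (h.πR _ _ _) ν ν' := by
  have q := h.qX ht h0 true false
  have i := h.isR ht h0
  obtain ⟨ν', p⟩ := i.exists_map ν
  exact ⟨ν', gr_of ((i.nu_iff p).2 g.nu) (fun χ =>
    nq_up h (toR _ _ _) q.fp (h.qR true).fp χ ▸ p.cm i.bij.2 (g.cm _))
    (h.lc_c_X ht h0 true false ▸ Cm.zero) (lc_y_zero q.fp ▸ Cm.zero), p⟩

theorem c1_X (ht : t ∈ P.Ω) (h0 : t ≠ 0) (h : P.Ok) :
    (P.pX e e' t).c1 (P.AX e e' t) = P.W.lc _ 0 (P.κ e e') :=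
  haveI := (h.qX ht h0 e e').fp
  h.c1 e e' _ _ _

theorem std_X (ht : t ∈ P.Ω) (h0 : t ≠ 0) {ν} (g : Wt.Gr (h.qX ht h0 e e') ν) :
    (P.pX e e' t).Std (h.qX ht h0 e e').ps.coh .id (g.vd (P.κ e e')) :=
  Fam.std (F := P.pX e e' t) (h.qX ht h0 e e') g.nu g.cm _ _ (c1_X ht h0 h).symm

namespace Sks

variable (h) (s : P.Sks t A)

/-- **The four smoothings in the form of the interface.** -/
@[reducible] noncomputable def sm (e e' : Bool) : Deg.Sm (h.pzL e') (h.pzR e) :=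
  (s.sk e e').sk.sm h.nc_deg

theorem isSm (e e' : Bool) : P.W.IsSm (s.sm h e e') .id .id .id .id := (s.sk e e').isSm _

theorem CapP.map_k (e e' : Bool) (χ : R ⊕ Bool → ℤ) :
    H.map (s.sk e e').sk.k (P.W.lc _ 0 χ) = P.W.lc (P.AX e e' t) 0 χ :=
  Wt.map_qinc_lc (s.sk e e').qX.fp (s.sk e e').fp _ _ _

theorem CapP.map_k1 (e e' : Bool) (χ : R ⊕ Bool → ℤ) :
    H.map (s.sk e e').sk.k1 (P.W.lc _ 0 χ) = P.W.lc (P.AL e') 0 χ :=
  Wt.map_qinc_lc (s.sk e e').l.qA.fp (s.sk e e').fp _ _ _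

theorem CapP.map_k2 (e e' : Bool) (χ : R ⊕ Bool → ℤ) :
    H.map (s.sk e e').sk.k2 (P.W.lc _ 0 χ) = P.W.lc (P.AR e) 0 χ :=
  Wt.map_qinc_lc (s.sk e e').r.qA.fp (s.sk e e').fp _ _ _

theorem CapP.πD_k : (h.πD (dsc A) ∅).comp (s.sk false false).sk.k = h.πD _ _ :=
  ContinuousMap.ext (h.nq_qinc (toD _ _) _)

theorem CapP.πL_k : (h.πL true (dsc A) ∅).comp (s.sk false true).sk.k = h.πL _ _ _ :=
  ContinuousMap.ext (h.nq_qinc (toL _ _ _) _)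

theorem CapP.πR_k : (h.πR true (dsc A) ∅).comp (s.sk true false).sk.k = h.πR _ _ _ :=
  ContinuousMap.ext (h.nq_qinc (toR _ _ _) _)

theorem surj : Surjective (s.sm h false false).sp := fun x => by
  obtain ⟨a, b, rfl⟩ := pb_two (h.pbX s.mem s.ne) x
  refine ⟨H.map (h.πD (dsc A) ∅) a + P.W.lc _ 0 (P.W.w P.y) * H.map (h.πD (dsc A) ∅) b, ?_⟩
  change H.map (s.sk false false).sk.k _ = _
  rw [map_add, map_mul, CapP.map_k s, H.map_map, H.map_map, CapP.πD_k h s]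

theorem surjL : Surjective (s.sm h false true).sp := fun x => by
  obtain ⟨a, rfl⟩ := (h.isL s.mem s.ne).bij.2 x
  refine ⟨H.map (h.πL true (dsc A) ∅) a, ?_⟩
  change H.map (s.sk false true).sk.k _ = _
  rw [H.map_map, CapP.πL_k h s]

theorem surjR : Surjective (s.sm h true false).sp := fun x => by
  obtain ⟨a, rfl⟩ := (h.isR s.mem s.ne).bij.2 x
  refine ⟨H.map (h.πR true (dsc A) ∅) a, ?_⟩
  change H.map (s.sk true false).sk.k _ = _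
  rw [H.map_map, CapP.πR_k h s]

theorem relρ (e e' : Bool) : (s.sm h e e').Rel ⊤ (ml (P.W.lc _ 0 (P.κ true e')))
    (ml (P.W.lc _ 0 (P.κ e true))) (ml (P.W.lc _ 0 (P.κ e e'))) :=
  (s.sk e e').sk.rel_ml h.nc_deg (P.W.lc _ 0 (P.κ e e'))
    ((CapP.map_k1 s e e' _).trans (κ_L (h.qL e') (h.lc_y_L e') e e'))
    ((CapP.map_k2 s e e' _).trans (κ_R (h.qR e) (h.lc_y'_R e) e e')) (CapP.map_k s e e' _)

variable {h} {ν₁ : Module.End ℂ (H (P.W.X (P.AL e')))} {ν₂ : Module.End ℂ (H (P.W.X (P.AR e)))}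
  {ν : Module.End ℂ (H (P.W.X (P.AX e e' t)))}

/-- **the general criterion**: all classes of the general fibre come from a space `Z` -/
theorem relD_of (gD : Wt.Gr h.qD νD) (g₁ : Wt.Gr (h.qL e') ν₁) (g₂ : Wt.Gr (h.qR e) ν₂)
    (g : Wt.Gr (h.qX s.mem s.ne e e') ν) (p₁ : Cg (h.jL e') ν₁ νD) (p₂ : Cg (h.jR e) ν₂ νD)
    {Z : Type} [TopologicalSpace Z] {νZ : Module.End ℂ (H Z)} (f : C(P.W.X (P.AT e e' A), Z))
    (χ : R ⊕ Bool → ℤ)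
    (surj : ∀ x, ∃ a b, H.map (f.comp (s.sk e e').sk.k) a +
      P.W.lc _ 0 χ * H.map (f.comp (s.sk e e').sk.k) b = x)
    (c₁ : Cg (f.comp (s.sk e e').sk.k1) νZ ν₁) (c₂ : Cg (f.comp (s.sk e e').sk.k2) νZ ν₂)
    (c : Cg (f.comp (s.sk e e').sk.k) νZ ν) :
    (s.sm h e e').RelD (g₁.vd (P.κ true e')) (g₂.vd (P.κ e true)) (g.vd (P.κ e e')) := by
  have key : ∀ {Y : Type} [TopologicalSpace Y] (k : C(Y, P.W.X (P.AT e e' A))) (z : H Z × H Z),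
      H.map k (H.map f z.1 + P.W.lc _ 0 χ * H.map f z.2) =
        H.map (f.comp k) z.1 + H.map k (P.W.lc _ 0 χ) * H.map (f.comp k) z.2 := fun k z => by
    rw [map_add, map_mul, H.map_map, H.map_map]
  have key' : ∀ {Y : Type} [TopologicalSpace Y] (k : C(Y, P.W.X (P.AT e e' A)))
      {μ : Module.End ℂ (H Y)}, Cg (f.comp k) νZ μ → Cm μ (H.map k (P.W.lc _ 0 χ)) →
      ∀ z : H Z × H Z, H.map k (H.map f (νZ z.1) + P.W.lc _ 0 χ * H.map f (νZ z.2)) =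
        μ (H.map k (H.map f z.1 + P.W.lc _ 0 χ * H.map f z.2)) := fun k μ a b z => by
    rw [key k (νZ z.1, νZ z.2), key k z, map_add μ, b, a, a]
  refine ⟨(s.sk e e').sk.rel_of_lift h.nc_deg g₁.nu g₂.nu gD.nu p₁ p₂
    (fun z : H Z × H Z => H.map f z.1 + P.W.lc _ 0 χ * H.map f z.2) (fun z => (νZ z.1, νZ z.2))
    (fun x => ?_) (key' _ c₁ (CapP.map_k1 s e e' χ ▸ g₁.cm χ))
    (key' _ c₂ (CapP.map_k2 s e e' χ ▸ g₂.cm χ)) (key' _ c (CapP.map_k s e e' χ ▸ g.cm χ)),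
    s.relρ h e e'⟩
  obtain ⟨a, b, k⟩ := surj x
  exact ⟨(a, b), (key _ (a, b)).trans (CapP.map_k s e e' χ ▸ k)⟩

/-- the two caps -/
theorem relD_cap {ν₁ ν₂ ν} (gD : Wt.Gr h.qD νD) (g₁ : Wt.Gr (h.qL false) ν₁)
    (g₂ : Wt.Gr (h.qR false) ν₂) (g : Wt.Gr (h.qX s.mem s.ne false false) ν)
    (p₁ : Cg (h.πD _ _) νD ν₁) (p₂ : Cg (h.πD _ _) νD ν₂) (p : Cg (h.πD _ _) νD ν) :
    (s.sm h false false).RelD (g₁.vd (P.κ true false)) (g₂.vd (P.κ false true))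
      (g.vd (P.κ false false)) :=
  s.relD_of gD g₁ g₂ g (cp_jL gD g₁ p₁) (cp_jR gD g₂ p₂) (h.πD (dsc A) ∅) (P.W.w P.y)
    (CapP.πD_k h s ▸ pb_two (h.pbX s.mem s.ne)) (p₁.congr fun x => (h.nq_qinc (toD _ _) _ x).symm)
    (p₂.congr fun x => (h.nq_qinc (toD _ _) _ x).symm)
    (p.congr fun x => (h.nq_qinc (toD _ _) _ x).symm)

/-- the left component with the right cap -/
theorem relD_L {ν₁ ν₂ ν} (gD : Wt.Gr h.qD νD) (g₁ : Wt.Gr (h.qL true) ν₁)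
    (g₂ : Wt.Gr (h.qR false) ν₂) (g : Wt.Gr (h.qX s.mem s.ne false true) ν)
    (p₁ : Cg (h.jL true) ν₁ νD) (p₂ : Cg (h.πD _ _) νD ν₂) (p : Cg (h.πL _ _ _) ν₁ ν) :
    (s.sm h false true).RelD (g₁.vd (P.κ true true)) (g₂.vd (P.κ false true))
      (g.vd (P.κ false true)) :=
  s.relD_of gD g₁ g₂ g p₁ (cp_jR gD g₂ p₂) (h.πL true (dsc A) ∅) 0
    (fun x => let ⟨a, k⟩ := (h.isL s.mem s.ne).bij.2 x
      ⟨a, 0, by rw [map_zero, mul_zero, add_zero, CapP.πL_k h s]; exact k⟩)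
    (Cg.of_id fun x => (h.nq_qinc (toL _ _ _) _ x).trans (h.nq_L x))
    (p₁.comp p₂ fun x => (h.qinc_nq (toD _ _) _ x).trans (h.nq_qinc (toL _ _ _) _ x).symm)
    (p.congr fun x => (h.nq_qinc (toL _ _ _) _ x).symm)

/-- the left cap with the right component -/
theorem relD_R {ν₁ ν₂ ν} (gD : Wt.Gr h.qD νD) (g₁ : Wt.Gr (h.qL false) ν₁)
    (g₂ : Wt.Gr (h.qR true) ν₂) (g : Wt.Gr (h.qX s.mem s.ne true false) ν)
    (p₁ : Cg (h.πD _ _) νD ν₁) (p₂ : Cg (h.jR true) ν₂ νD) (p : Cg (h.πR _ _ _) ν₂ ν) :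
    (s.sm h true false).RelD (g₁.vd (P.κ true false)) (g₂.vd (P.κ true true))
      (g.vd (P.κ true false)) :=
  s.relD_of gD g₁ g₂ g (cp_jL gD g₁ p₁) p₂ (h.πR true (dsc A) ∅) 0
    (fun x => let ⟨a, k⟩ := (h.isR s.mem s.ne).bij.2 x
      ⟨a, 0, by rw [map_zero, mul_zero, add_zero, CapP.πR_k h s]; exact k⟩)
    (p₂.comp p₁ fun x => (h.qinc_nq (toD _ _) _ x).trans (h.nq_qinc (toR _ _ _) _ x).symm)
    (Cg.of_id fun x => (h.nq_qinc (toR _ _ _) _ x).trans (h.nq_R x))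
    (p.congr fun x => (h.nq_qinc (toR _ _ _) _ x).symm)

end Sks

end Pre

end Vale.Agent.P269
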