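import Vale.Agent.P269.Coh.Ml0
import Vale.Agent.P269.Coh.Cap
import Vale.Agent.P269.Coh.BlG

/-!
# P269, cohomological packages: the degeneration to the normal cone
-/

set_option linter.unusedSectionVars false

namespace Vale.Agent.P269.Flag

open Set Function Topology Filter P291Z Holo Mono Coh Tq Fock MvPolynomial

variable {J K : Type} [Fintype J] [Fintype K] [Nonempty J] {f : Flag J K} (h : f.Ok)
  {θ θ' : Option Unit → ℤ} {t : ℂ} {A : Set ℂ}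

theorem n_pE : f.pE.n = f.tW.dT - 1 := by
  simp [Pre.n, Fam.dT]
  ring

theorem κE_E : chM (fun r r' => if r = r' then 1 else 0) f.pE.κ₀ = (f.tE θ).κ₁ := by
  rw [Pre.κ₀, κ_pE, κ_proj, κ_ciF]
  funext o
  rcases o with _ | _ <;> simp [chM, wv, dZ, dD]
  ring

theorem κE_B : chM mB' (f.pE.κ₀ - Pi.single f.pE.η 1) = f.tB.κ₁ := by
  rw [Pre.κ₀, κ_pE, κ_tB]
  funext o
  rcases o with _ | _ <;> simp [chM, wv, mB', pE]
  ring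

theorem κE_Q : chM (fun r r' => if r = r' then 1 else 0) (f.pE.κ₀ + Pi.single f.pE.η 1) =
    (f.tQ θ).κ₁ := by
  rw [Pre.κ₀, κ_pE, κ_proj, κ_ciF]
  funext o
  rcases o with _ | _ <;> simp [chM, wv, dZ, dD, pE, Fin.sum_univ_three]
  ring

theorem κE_W : chM (fun r (_ : Unit) => wv 1 0 r) f.pE.κ₀ = f.tW.κ₁ := by
  rw [Pre.κ₀, κ_pE, κ_ciF]
  funext o
  simp [chM, wv]

theorem θE_B (d) : f.gB.deg d = ∑ r, chM mB' (f.pE.θ - Pi.single f.pE.η 1) r * d r := by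
  change ∑ r, f.θB r * d r = _
  refine Finset.sum_congr rfl fun r _ => congrArg (· * d r) ?_
  rcases r with _ | _ <;> simp [chM, wv, mB', pE, θB]
  ring

theorem EPk.ret_emb {I : Type} {σ : J ⊕ Fin 4 → MvPolynomial (J ⊕ I) ℂ} (e : ∀ j, σ (.inl j) = X (.inl j))
    (z : (Empty → ℂ) × (J ⊕ I → ℂ)) : f.pE.ret (X ∘ .inl) (f.pE.emb σ z) = (z.1, z.2 ∘ .inl) :=
  Prod.ext (Subsingleton.elim _ _) (_root_.funext fun j =>
    (eval_X _).trans ((congrArg (MvPolynomial.eval z.2) (e j)).trans (eval_X _)))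

theorem EPk.emb_B (z : (Empty → ℂ) × (J ⊕ Fin 2 → ℂ)) : f.pE.emb σE z =
    f.pE.emb σB (z.1, Sum.elim (z.2 ∘ .inl) ![z.2 (.inr 0), z.2 (.inr 1), 0]) :=
  congrArg f.pE.sc ((EP.ev_E z.2).trans
    (EP.ev_B (Sum.elim (z.2 ∘ .inl) ![z.2 (.inr 0), z.2 (.inr 1), 0])).symm)

theorem EPk.emb_Q (z : (Empty → ℂ) × (J ⊕ Fin 2 → ℂ)) : f.pE.emb σE z =
    f.pE.emb σQ (z.1, Sum.elim (z.2 ∘ .inl) ![z.2 (.inr 0), z.2 (.inr 1), 0]) :=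
  congrArg f.pE.sc ((EP.ev_E z.2).trans
    (EP.ev_Q (Sum.elim (z.2 ∘ .inl) ![z.2 (.inr 0), z.2 (.inr 1), 0])).symm)

theorem EPk.chM_id (χ : Option Unit → ℤ) : chM (fun r r' => if r = r' then 1 else 0) χ = χ :=
  funext fun r => by simp [chM]

theorem EPk.chM_ξ : chM (fun r r' => if r = r' then 1 else 0) (f.pE.dχ (f.pE.up (wv 0 1))) =
    Pi.single none 1 := by
  rw [Pre.dχ_up, EPk.chM_id]
  funext o
  rcases o with _ | _ <;> simp [wv]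

include h

theorem Ok.mE (hE : (f.tE θ).Tg) :
    f.pE.Ml f.pE.dvs (f.tE θ) (fun r r' => if r = r' then 1 else 0) σE :=
  ⟨h.pE, hE, fun _ a => a.1, _, inferInstance, _, _, h.pres_E θ⟩

theorem Ok.mB' : f.pE.Ml f.pE.lft f.tB mB' σB :=
  ⟨h.pE, h.tB, fun _ a => a.1, _, inferInstance, _, _, h.pres_B'⟩

theorem Ok.mQ (hQ : (f.tQ θ).Tg) :
    f.pE.Ml (f.pE.mem false 0) (f.tQ θ) (fun r r' => if r = r' then 1 else 0) σQ :=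
  ⟨h.pE, hQ, fun _ a => a.1, _, inferInstance, _, _, h.pres_Q θ⟩

theorem Ok.mW (ht : t ≠ 0) : f.pE.Ml (f.pE.mem true t) f.tW (fun r _ => wv 1 0 r) (f.σW t) :=
  ⟨h.pE, h.W.tg, fun _ a => a.1, _, inferInstance, _, _, h.pres_W ht⟩

theorem Ok.jL_eD (hE : (f.tE θ).Tg) (x) :
    h.pE.jL true ((h.mE hE).eD x) = h.mB'.eL (f.jE θ x) := by
  obtain ⟨z, rfl⟩ := mk_surj x
  exact congrArg (Quo.mk _) (Subtype.ext (EPk.emb_B z.1))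

theorem Ok.jR_eD (hE : (f.tE θ).Tg) (hQ : (f.tQ θ').Tg) (x) :
    h.pE.jR true ((h.mE hE).eD x) = (h.mQ hQ).eR (f.jQ θ θ' x) := by
  obtain ⟨z, rfl⟩ := mk_surj x
  exact congrArg (Quo.mk _) (Subtype.ext (EPk.emb_Q z.1))

theorem Ok.ret_Z : f.pE.Ret (f.pE.mem false 0) f.tZ (Sum.elim X 0) (fun _ => wv 1 0) (X ∘ .inl) :=
  ⟨fun j α hα i => EP.wh_iff.1 (EP.wh_X (by simp [Flag.pE, ciF, ciK, Tgt.fam])) α hα,
    fun y hy => mem_ciF.2 (by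
      simp only [comp_apply, eval_X]
      exact EP.mem_Z.2 (EP.mem_pj.1 (EP.mem_Q (θ := 0) hy)).1), fun j => aeval_X _ _⟩

theorem Ok.o_AR : ∀ z ∈ f.pE.AR true, z.2 ∘ f.pE.o ∈ f.pE.mem false 0 :=
  fun _ hz => Pre.sc_mem_R.1 (Pre.toR _ _ _ hz)

/-- The projection of the right component to the centre. -/
noncomputable abbrev Ok.ρZ : C(f.pE.W.X (f.pE.AR true), f.tZ.X f.tZ.cone) := h.ret_Z.q h.o_AR

omit h in
variable (f) in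
/-- The class of the far section `u = v = 0`. -/
noncomputable abbrev far : P291Z.H (f.pE.W.X (f.pE.AR true)) :=
  f.pE.W.lc _ 0 (f.pE.W.w (f.pE.o (.inr 0))) * f.pE.W.lc _ 0 (f.pE.W.w (f.pE.o (.inr 1)))

theorem Ok.far_deg : H.IsDeg (2 * 2) f.far :=
  ((h.pE.qR true).lc_deg _ _).mul ((h.pE.qR true).lc_deg _ _)

theorem Ok.ρZ_eR (hQ : (f.tQ θ).Tg) (x) : h.ρZ ((h.mQ hQ).eR x) = h.qQ θ x := by
  obtain ⟨z, rfl⟩ := mk_surj x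
  exact congrArg (Quo.mk _) (Subtype.ext (EPk.ret_emb (f := f) (σ := σQ) (fun _ => rfl) z.1))

theorem Ok.isDE (hE : (f.tE θ).Tg) : PS.Is hE.ps h.pE.qD.ps (h.mE hE).eD :=
  (h.mE hE).isD (dT_E.trans n_pE.symm)

theorem Ok.isLE : PS.Is h.tB.ps (h.pE.qL true).ps h.mB'.eL :=
  h.mB'.isL (by rw [dT_B, n_pE, sub_add_cancel])

theorem Ok.isRE (hQ : (f.tQ θ).Tg) : PS.Is hQ.ps (h.pE.qR true).ps (h.mQ hQ).eR :=
  (h.mQ hQ).isR (by rw [dT_Q, n_pE, sub_add_cancel])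

theorem Ok.isXE (ht : t ∈ f.pE.Ω) (h0 : t ≠ 0) :
    PS.Is h.W.tg.ps (h.pE.qX ht h0 true true).ps (h.mW h0).eX :=
  (h.mW h0).isX ht h0 (by rw [n_pE, sub_add_cancel])

theorem Ok.pbQE (hQ : (f.tQ θ).Tg) : PB h.Z.tg.ps hQ.ps
    (fun l => f.tZ.lc _ 0 ((![fun _ => f.a + 1, fun _ => f.a, 0] : Fin 3 → Unit → ℤ) l)) (h.qQ θ)
    ((f.tQ θ).lc _ 0 (Pi.single none 1)) := h.Z.tg.pb h.Z.tg.qm hQ.qm (Fam.dT_proj _ _ _)

theorem Ok.capQE : ∃ sec : P291Z.H (f.pE.W.X f.pE.AD) →ₗ[ℂ] P291Z.H (f.pE.W.X (f.pE.AR true)),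
    (IsEv (parH _) (parH _) sec ∧ ∀ u, H.map (h.pE.jR true) (sec u) = u) ∧
    Injective (ml f.far ∘ₗ pl h.ρZ) ∧
    ∀ u, H.map (h.pE.jR true) u = 0 ↔ ∃ z, (ml f.far ∘ₗ pl h.ρZ) z = u := by
  obtain ⟨θ, hE⟩ := h.exists_tE
  obtain ⟨θ', hQ⟩ := h.exists_tQ
  have a1 := h.Z.tg.pb h.Z.tg.qm hE.qm (Fam.dT_proj _ _ _)
  have a2 := h.pbQE hQ
  rw [← EPk.chM_ξ (f := f), ← (h.mE hE).q_lc (fun _ => Pre.sc_mem_D.2) h.pE.qD.fp,
    (h.isDE hE).pb_iff (π := h.ρZ.comp (h.pE.jR true)) fun x =>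
      (congrArg h.ρZ (h.jR_eD hE hQ x)).trans ((h.ρZ_eR hQ _).trans (h.qQ_jQ x))] at a1
  rw [← EPk.chM_ξ (f := f), ← (h.mQ hQ).q_lc (fun _ => Pre.sc_mem_R.2) (h.pE.qR true).fp,
    (h.isRE hQ).pb_iff (h.ρZ_eR hQ)] at a2
  have a0 : (fun l => f.tZ.lc f.tZ.cone 0
      ((![fun _ => f.a + 1, fun _ => f.a, 0] : Fin 3 → Unit → ℤ) l)) = Fin.snoc (α := fun _ => _)
      (fun l => f.tZ.lc f.tZ.cone 0 ((![fun _ => f.a + 1, fun _ => f.a] : Fin 2 → Unit → ℤ) l))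
      (f.tZ.lc _ 0 0) := _root_.funext fun l => by fin_cases l <;> rfl
  rw [a0] at a2
  obtain ⟨sec, b1, b2, -, b3, b4⟩ := a1.exists_sec (Q := (h.pE.qR true).ps) (c₀ := f.tZ.lc _ 0 0)
    (πQ := h.ρZ) (j := h.pE.jR true) a2 (fun _ => rfl)
    (Wt.map_qinc_lc h.pE.qD.fp (h.pE.qR true).fp _ _ _)
  have a3 : ∀ c : ℤ, f.pE.W.lc (f.pE.AR true) 0 (f.pE.up (wv 0 1)) +
      H.map h.ρZ (f.tZ.lc _ 0 fun _ => c) = f.pE.W.lc _ 0 (f.pE.up (wv c 1)) := fun c => by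
    rw [h.ret_Z.q_lc h.o_AR (h.pE.qR true).fp h.Z.tg.qm.fp, ← (h.pE.qR true).lc_add]
    refine congrArg _ (funext fun r => ?_)
    rcases r with (_ | _) | _ | _ <;> simp [Pre.up, chM, wv, Flag.pE]
  have a4 : ∀ z, (ml f.far ∘ₗ pl h.ρZ) z = H.map h.ρZ z * (List.ofFn fun l : Fin 2 =>
      f.pE.W.lc (f.pE.AR true) 0 (f.pE.up (wv 0 1)) + H.map h.ρZ (f.tZ.lc _ 0
        (![fun _ => (f.a + 1 : ℤ), fun _ => (f.a : ℤ)] l))).prod := fun z => by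
    rw [List.ofFn_succ, List.ofFn_succ, List.ofFn_zero, List.prod_cons, List.prod_cons,
      List.prod_nil, mul_one]
    exact (h.far_deg.commute (even_two_mul 2) _).trans
      (congrArg (_ * ·) (congrArg₂ (· * ·) (a3 _).symm (a3 _).symm))
  exact ⟨sec, ⟨isEv_of_deg (s := 0) fun k x hx => by simpa using b1 k x hx, b2⟩,
    (funext a4).symm ▸ b3, fun u => (b4 u).trans (exists_congr fun z => by rw [a4])⟩

theorem Ok.exists_secQ : ∃ sec : P291Z.H (f.pE.W.X f.pE.AD) →ₗ[ℂ] P291Z.H (f.pE.W.X (f.pE.AR true)),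
    IsEv (parH _) (parH _) sec ∧ ∀ u, H.map (h.pE.jR true) (sec u) = u :=
  h.capQE.imp fun _ a => a.1

theorem Ok.nulQ_inj : Injective (ml f.far ∘ₗ pl h.ρZ) := h.capQE.elim fun _ a => a.2.1

theorem Ok.nulQ_ker (u) : H.map (h.pE.jR true) u = 0 ↔ ∃ z, (ml f.far ∘ₗ pl h.ρZ) z = u :=
  h.capQE.elim fun _ a => a.2.2 u

/-- **`Q` is a cap.** -/
@[reducible] noncomputable def Ok.czQ : Deg.Cz h.pE.dv (-1) :=
  (h.pE.pcR true).pc.cz h.pE.nc_deg h.exists_secQ.choose_spec.1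
    (Deg.isEv_comp (isEv_ml h.far_deg) (isEv_pl _)) h.exists_secQ.choose_spec.2 h.nulQ_inj
    h.nulQ_ker

theorem Ok.czQ_pz : h.czQ.toPz = h.pE.pzR true := rfl

/-- the hypothesis of `St.G3Q` -/
theorem Ok.czQ_range (x) :
    (∃ z, LinearMap.id (R := ℂ) (h.czQ.nul z) = x) ↔ ∃ s, f.far * s = x :=
  ⟨fun ⟨z, e⟩ => ⟨H.map h.ρZ z, e⟩, fun ⟨s, e⟩ => (h.nulQ_ker x).1 (by
    rw [← e, map_mul, (h.nulQ_ker f.far).2 ⟨1, (congrArg (_ * ·) (map_one (H.map h.ρZ))).trans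
      (mul_one _)⟩, zero_mul])⟩

/-- The retraction of the total space to `W`. -/
noncomputable abbrev Ok.ρE (t : ℂ) (A : Set ℂ) :
    C(f.pE.W.X (f.pE.AT true true A), f.tW.X f.tW.cone) :=
  (h.ret_W (t := t)).q fun _ => Pre.o_mem

theorem Ok.ρE_eX (s : f.pE.Sks t A) (x) :
    (h.ρE t A).comp (s.sk true true).sk.k ((h.mW s.ne).eX x) = x :=
  (congrArg (h.ρE t A) ((h.mW s.ne).qinc_q _ _ x)).trans (h.ret_W.q_emb _ _ _ x)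

theorem Ok.surj_ρE (s : f.pE.Sks t A) :
    Surjective (H.map ((h.ρE t A).comp (s.sk true true).sk.k)) :=
  ((PS.Is.of_id (f := .id _) fun _ => rfl).right (h.isXE s.mem s.ne) (h.ρE_eX s)).bij.2

theorem Ok.surjE (s : f.pE.Sks t A) : Surjective (s.sm h.pE true true).sp :=
  fun x => (h.surj_ρE s x).elim fun a e => ⟨H.map (h.ρE t A) a, (H.map_map _ _ _).trans e⟩

variable {hE : (f.tE θ).Tg} {hQ : (f.tQ θ').Tg} {νW νZ νE νB} (b : h.BG hE νW νZ νE νB) {νQ}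
  (gQ : Wt.Gr hQ.qm νQ) (pQ : Cg (h.qQ θ') νZ νQ)
include b gQ pQ

theorem Ok.BG.cp_jQ : Cg (f.jQ θ θ') νQ νE :=
  (h.pbQE hQ).map_nu pQ (gQ.cm _) _ (fun a => by
    rw [H.map_map, H.map_map,
      show (h.qQ θ').comp (f.jQ θ θ') = h.qE θ from ContinuousMap.ext h.qQ_jQ]
    exact b.p a) (h.jQ_lc hE hQ _ ▸ b.gE.cm _)

/-- **The gradings of the degeneration to the normal cone.** -/
theorem Ok.BG.exists_gr (s : f.pE.Sks t A) : ∃ νD ν₁ ν₂ ν, ∃ (_ : Wt.Gr h.pE.qD νD)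
    (g₁ : Wt.Gr (h.pE.qL true) ν₁) (g₂ : Wt.Gr (h.pE.qR true) ν₂)
    (g : Wt.Gr (h.pE.qX s.mem s.ne true true) ν),
    Cg (h.mE hE).eD νD νE ∧ Cg h.mB'.eL ν₁ νB ∧ Cg (h.mQ hQ).eR ν₂ νQ ∧ Cg (h.mW s.ne).eX ν νW ∧
    Cg (h.pE.jL true) ν₁ νD ∧ Cg (h.pE.jR true) ν₂ νD ∧
    (s.sm h.pE true true).RelD (g₁.vd (f.pE.κ true true)) (g₂.vd (f.pE.κ true true))
      (g.vd (f.pE.κ true true)) := by
  obtain ⟨νD, pD⟩ := (h.isDE hE).exists_comap νE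
  obtain ⟨ν₁, p₁⟩ := h.isLE.exists_comap νB
  obtain ⟨ν₂, p₂⟩ := (h.isRE hQ).exists_comap νQ
  obtain ⟨ν, p⟩ := (h.isXE s.mem s.ne).exists_comap νW
  have gD := ((h.mE hE).gr_iff (h.isDE hE) pD).1 b.gE
  have g₁ := (h.mB'.gr_iff h.isLE p₁).1 b.gB
  have g₂ := ((h.mQ hQ).gr_iff (h.isRE hQ) p₂).1 gQ
  have g := ((h.mW s.ne).gr_iff (h.isXE s.mem s.ne) p).1 b.gW
  have q₁ : Cg (h.pE.jL true) ν₁ νD :=
    (p₁.comp b.j fun x => (h.jL_eD hE x).symm :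
      Cg ((h.pE.jL true).comp (h.mE hE).eD) _ _).of_inj pD (fun _ => rfl) (h.isDE hE).bij.1
  have q₂ : Cg (h.pE.jR true) ν₂ νD :=
    (p₂.comp (b.cp_jQ h (hQ := hQ) gQ pQ) fun x => (h.jR_eD hE hQ x).symm :
      Cg ((h.pE.jR true).comp (h.mE hE).eD) _ _).of_inj pD (fun _ => rfl) (h.isDE hE).bij.1
  refine ⟨νD, ν₁, ν₂, ν, gD, g₁, g₂, g, pD, p₁, p₂, p, q₁, q₂,
    s.relD_of gD g₁ g₂ g q₁ q₂ (νZ := νW) (h.ρE t A) 0 (fun x => (h.surj_ρE s x).imp fun a e =>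
      ⟨0, by rw [map_zero, mul_zero, add_zero, e]⟩) (b.π.of_inj p₁ (fun x => ?_) h.isLE.bij.1)
    ((b.ι.comp pQ fun _ => rfl : Cg (f.ιZ.comp (h.qQ θ')) _ _).of_inj p₂ (fun x => ?_)
      (h.isRE hQ).bij.1)
    ((Cg.of_id (f := .id _) fun _ => rfl).of_inj p (h.ρE_eX s) (h.isXE s.mem s.ne).bij.1)⟩
  all_goals obtain ⟨z, rfl⟩ := mk_surj x
  exacts [congrArg (Quo.mk _) (Subtype.ext (EPk.ret_emb (f := f) (σ := σB) (fun _ => rfl) z.1)),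
    congrArg (Quo.mk _) (Subtype.ext (EPk.ret_emb (f := f) (σ := σQ) (fun _ => rfl) z.1))]

end Vale.Agent.P269.Flag
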