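import Vale.Agent.P269.Coh.PA0
import Vale.Agent.P269.Deg.SigA

/-!
# P269, cohomological packages: Poincare duality spaces
-/

set_option linter.unusedSectionVars false

namespace Vale.Agent.P269.Coh

open P291Z Set Function Fock Mono

/-- A space with Poincare duality. -/
structure PS where
  /-- the space -/
  X : Type
  [tX : TopologicalSpace X]
  /-- the complex dimension -/
  n : ℤ
  /-- the integral -/
  J : H X →ₗ[ℂ] ℂ
  pd : PD X n J

attribute [instance] PS.tX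

namespace PS

variable (Y : PS) {X Z : PS}

instance : FiniteDimensional ℂ (H Y.X) := Y.pd.fin

/-- The cohomology with its pairing. -/
@[reducible] noncomputable def coh : Deg.Coh where
  H := H Y.X
  p := parH Y.X
  ι := Fin Y.pd.exists_fr.choose
  fr := Y.pd.exists_fr.choose_spec.choose

theorem η_eq (a b : H Y.X) : Y.coh.fr.η a b = Y.J (a * b) :=
  congrArg (fun B => B a b) Y.pd.exists_fr.choose_spec.choose_spec.1

theorem η_bil : Y.coh.fr.η = bil Y.J := Y.pd.exists_fr.choose_spec.choose_spec.1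

theorem one_eq : Y.coh.fr.one = 1 := Y.pd.exists_fr.choose_spec.choose_spec.2

theorem ext_left {a a' : H Y.X} (h : ∀ b, Y.J (a * b) = Y.J (a' * b)) : a = a' :=
  Y.coh.fr.ext_left fun u => (Y.η_eq _ _).trans ((h u).trans (Y.η_eq _ _).symm)

theorem ext_right {a a' : H Y.X} (h : ∀ b, Y.J (b * a) = Y.J (b * a')) : a = a' :=
  Y.coh.fr.ext_right fun u => (Y.η_eq _ _).trans ((h u).trans (Y.η_eq _ _).symm)

theorem A1.J_symm (a b : H Y.X) : Y.J (a * b) = Y.J ((parH Y.X).σ b * a) :=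
  (Y.η_eq _ _).symm.trans ((Y.coh.fr.η_symm a b).trans (Y.η_eq _ _))

open A1

theorem A1.J_σ (a b : H Y.X) : Y.J (a * (parH Y.X).σ b) = Y.J ((parH Y.X).σ a * b) :=
  (Y.η_eq _ _).symm.trans ((Y.coh.fr.η_σ a b).trans (Y.η_eq _ _))

theorem A1.J_comp (a : H Y.X) : Y.J (H.comp (2 * Y.n) a) = Y.J a :=
  LinearMap.congr_fun (ext_deg (f := Y.J ∘ₗ H.comp (2 * Y.n)) fun k x hx => by
    by_cases h : k = 2 * Y.n
    · rw [LinearMap.comp_apply, ← h, hx.comp_eq]
    · rw [LinearMap.comp_apply, hx.comp_ne (Ne.symm h), map_zero, Y.pd.deg k h x hx]) a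

theorem A1.eq_zero_of_J {a : H Y.X} (h : ∀ l b, H.IsDeg l b → Y.J (a * b) = 0) : a = 0 :=
  Y.ext_left fun b => (LinearMap.congr_fun (ext_deg (f := bil Y.J a) (g := 0) h) b).trans
    (by rw [zero_mul, map_zero, LinearMap.zero_apply])

theorem A1.isDeg_of_J {k : ℤ} {a : H Y.X}
    (h : ∀ l b, H.IsDeg l b → k + l ≠ 2 * Y.n → Y.J (a * b) = 0) : H.IsDeg k a := by
  rw [show a = H.comp k a from H.ext_comp fun j => ?_]
  · exact H.isDeg_comp k a
  by_cases e : j = k
  · rw [e, (H.isDeg_comp k a).comp_eq]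
  rw [(H.isDeg_comp k a).comp_ne e]
  refine eq_zero_of_J Y fun l b hb => ?_
  by_cases e' : j + l = 2 * Y.n
  · rw [← H.comp_mul_right hb, e', J_comp, h l b hb (by omega)]
  · exact Y.pd.deg _ e' _ ((H.isDeg_comp j a).mul hb)

theorem eq_zero_of_lt {k : ℤ} (hk : 2 * Y.n < k) {a : H Y.X} (ha : H.IsDeg k a) : a = 0 :=
  eq_zero_of_J Y fun l b hb => by
    by_cases h : l < 0
    · rw [hb.eq_zero h, mul_zero, map_zero]
    · exact Y.pd.deg _ (by omega) _ (ha.mul hb)

theorem subsingleton (h : Y.n < 0) : Subsingleton (H Y.X) :=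
  subsingleton_of_forall_eq 0 fun a =>
    LinearMap.congr_fun (ext_deg (f := LinearMap.id) (g := 0) fun k x hx => by
      by_cases e : k < 0
      exacts [hx.eq_zero e, Y.eq_zero_of_lt (by omega) hx]) a

theorem isNilpotent {k : ℤ} (hk : 0 < k) {a : H Y.X} (ha : H.IsDeg k a) : IsNilpotent a := by
  have h : ∀ m : ℕ, H.IsDeg (k * m) (a ^ m) := fun m => by
    induction m with
    | zero => simpa using H.isDeg_one
    | succ m ih => rw [pow_succ, Nat.cast_succ, mul_add, mul_one]; exact ih.mul ha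
  refine ⟨(2 * Y.n).toNat + 1, Y.eq_zero_of_lt ?_ (h _)⟩
  have := Int.self_le_toNat (2 * Y.n)
  push_cast
  nlinarith [Int.natCast_nonneg (2 * Y.n).toNat]

variable {Y}

theorem exists_push (f : C(X.X, Y.X)) :
    ∃ g : H X.X →ₗ[ℂ] H Y.X, ∀ a b, Y.J (g a * b) = X.J (a * H.map f b) :=
  (Deg.SigP.exists_adj Y.coh.fr ((bil X.J).compl₂ (pl f))).imp fun _ h a b =>
    (Y.η_eq _ _).symm.trans (h a b)

/-- The push-forward. -/
noncomputable def push (f : C(X.X, Y.X)) : H X.X →ₗ[ℂ] H Y.X := (exists_push f).choose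

theorem J_push_mul (f : C(X.X, Y.X)) (a : H X.X) (b : H Y.X) :
    Y.J (push f a * b) = X.J (a * H.map f b) := (exists_push f).choose_spec a b

theorem isEv_push (f : C(X.X, Y.X)) : IsEv (parH X.X) (parH Y.X) (push f) := fun a =>
  Y.ext_left fun b => by
    rw [← J_σ, J_push_mul, J_push_mul, ← J_σ]
    exact congrArg (fun x => X.J (a * x)) (isEv_pl f b).symm

theorem J_mul_push (f : C(X.X, Y.X)) (a : H X.X) (b : H Y.X) :
    Y.J (b * push f a) = X.J (H.map f b * a) := by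
  rw [J_symm, isEv_push, J_push_mul, ← J_symm]

theorem J_push (f : C(X.X, Y.X)) (a : H X.X) : Y.J (push f a) = X.J a := by
  simpa only [map_one, mul_one] using J_push_mul f a 1

theorem push_mul (f : C(X.X, Y.X)) (a : H X.X) (b : H Y.X) :
    push f (a * H.map f b) = push f a * b := Y.ext_left fun c => by
  rw [J_push_mul, mul_assoc, mul_assoc, J_push_mul, map_mul (H.map f)]

theorem mul_push (f : C(X.X, Y.X)) (a : H X.X) (b : H Y.X) :
    push f (H.map f b * a) = b * push f a := Y.ext_right fun c => by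
  rw [J_mul_push, ← mul_assoc, ← mul_assoc, J_mul_push, map_mul (H.map f)]

theorem push_map (f : C(X.X, Y.X)) (b : H Y.X) : push f (H.map f b) = b * push f 1 := by
  rw [← mul_push, mul_one]

theorem push_deg (f : C(X.X, Y.X)) {k : ℤ} {a : H X.X} (ha : H.IsDeg k a) :
    H.IsDeg (k + 2 * (Y.n - X.n)) (push f a) := isDeg_of_J Y fun l b hb h => by
  rw [J_push_mul]
  exact X.pd.deg _ (by omega) _ (ha.mul (hb.map f))

theorem push_comp (f : C(X.X, Y.X)) (g : C(Y.X, Z.X)) (a : H X.X) :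
    push (g.comp f) a = push g (push f a) := Z.ext_left fun c => by
  rw [J_push_mul, J_push_mul, J_push_mul, H.map_map]

theorem push_congr {f g : C(X.X, Y.X)} (h : ∀ b, H.map f b = H.map g b) : push f = push g :=
  LinearMap.ext fun a => Y.ext_left fun c => by rw [J_push_mul, J_push_mul, h]

/-- maps of degree one -/
theorem push_map_of_J {f : C(X.X, Y.X)} (h : ∀ b, X.J (H.map f b) = Y.J b) (b : H Y.X) :
    push f (H.map f b) = b := Y.ext_left fun c => by rw [J_push_mul, ← map_mul, h]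

variable (Y) in
/-- The grading operator of a space whose classes have type `(p, p)`. -/
noncomputable def mu0 : Module.End ℂ (H Y.X) := (1 / 2 : ℂ) • (dg Y.X - (Y.n : ℂ) • 1)

theorem A1.mu0_apply (a : H Y.X) : Y.mu0 a = (1 / 2 : ℂ) • (dg Y.X a - (Y.n : ℂ) • a) := rfl

theorem mu0_of_deg {k : ℤ} {a : H Y.X} (ha : H.IsDeg k a) :
    Y.mu0 a = ((k - Y.n) / 2 : ℂ) • a := by
  rw [mu0_apply, dg_of_deg ha]
  module

theorem A1.mu0_deg (k : ℤ) (a : H Y.X) (ha : H.IsDeg k a) : H.IsDeg k (Y.mu0 a) :=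
  mu0_of_deg ha ▸ (H.deg _ k).smul_mem _ ha

theorem mu0_skew (a b : H Y.X) : Y.J (Y.mu0 a * b) = -Y.J (a * Y.mu0 b) := by
  refine LinearMap.congr_fun₂ (ext_deg (f := bil Y.J ∘ₗ Y.mu0) (g := -(bil Y.J).compl₂ Y.mu0)
    fun k x hx => ext_deg fun l y hy => ?_) a b
  show Y.J (Y.mu0 x * y) = -Y.J (x * Y.mu0 y)
  rw [mu0_of_deg hx, mu0_of_deg hy, smul_mul_assoc, mul_smul_comm, map_smul, map_smul]
  by_cases e : k + l = 2 * Y.n
  · have : (k : ℂ) + l = 2 * Y.n := by exact_mod_cast e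
    rw [smul_eq_mul, smul_eq_mul]
    linear_combination (1 / 2 * Y.J (x * y)) * this
  · rw [Y.pd.deg _ e _ (hx.mul hy), smul_zero, smul_zero, neg_zero]

theorem mu0_shift {f : H X.X →ₗ[ℂ] H Y.X} {s : ℤ}
    (h : ∀ k x, H.IsDeg k x → H.IsDeg (k + s) (f x)) (a : H X.X) :
    Y.mu0 (f a) = f (X.mu0 a) + ((s + X.n - Y.n) / 2 : ℂ) • f a := by
  rw [mu0_apply, mu0_apply, dg_shift h, map_smul, map_sub, map_smul]
  module

theorem mu0_mul {x : H Y.X} (hx : H.IsDeg 2 x) (a : H Y.X) :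
    Y.mu0 (x * a) = x * Y.mu0 a + x * a := by
  have := mu0_shift (f := ml x) (s := 2) (fun k y hy => add_comm 2 k ▸ hx.mul hy) a
  rwa [add_sub_cancel_right, Int.cast_ofNat, div_self two_ne_zero, one_smul] at this

variable (Y) in
/-- The part of the grading operator which is not determined by the degree. -/
structure Nu (ν : Module.End ℂ (H Y.X)) : Prop where
  deg : ∀ k x, H.IsDeg k x → H.IsDeg k (ν x)
  skew : ∀ a b, Y.J (ν a * b) = -Y.J (a * ν b)
  one : ν 1 = 0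

theorem Nu.zero : Y.Nu 0 :=
  ⟨fun k _ _ => (H.deg _ k).zero_mem, fun _ _ => by simp, rfl⟩

theorem Nu.mu0_comm {ν : Module.End ℂ (H Y.X)} (h : Y.Nu ν) : Commute Y.mu0 ν :=
  LinearMap.ext fun a => by
    have := mu0_shift (f := ν) (s := 0) (fun k y hy => (add_zero k).symm ▸ h.deg k y hy) a
    rwa [add_sub_cancel_right, Int.cast_zero, zero_div, zero_smul, add_zero] at this

/-- `ν` commutes with push-forward if it commutes with pull-back -/
theorem Nu.push {ν : Module.End ℂ (H Y.X)} {ν' : Module.End ℂ (H X.X)} (h : Y.Nu ν) (h' : X.Nu ν')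
    {f : C(X.X, Y.X)} (e : ∀ b, H.map f (ν b) = ν' (H.map f b)) (a : H X.X) :
    push f (ν' a) = ν (push f a) := Y.ext_left fun b => by
  rw [J_push_mul, h'.skew, h.skew, J_push_mul, e]

/-- transport along an isomorphism -/
theorem Nu.exists_map {ν : Module.End ℂ (H Y.X)} (h : Y.Nu ν) {f : C(X.X, Y.X)}
    (hf : Bijective (H.map f)) (hJ : ∀ b, X.J (H.map f b) = Y.J b) :
    ∃ ν' : Module.End ℂ (H X.X), X.Nu ν' ∧ (∀ b, H.map f (ν b) = ν' (H.map f b)) ∧
      ∀ x, Cm ν x → Cm ν' (H.map f x) := by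
  let e := LinearEquiv.ofBijective (pl f) hf
  have h1 : ∀ b, H.map f (ν b) = e.conj ν (H.map f b) := fun b =>
    congrArg (fun x => H.map f (ν x)) (e.symm_apply_apply b).symm
  refine ⟨e.conj ν, ⟨fun k x hx => ?_, hf.2.forall₂.2 fun a b => ?_, ?_⟩, h1,
    fun x hx => hf.2.forall.2 fun a => ?_⟩
  · obtain ⟨y, rfl⟩ := hf.2 x
    rw [← hx.comp_eq, H.comp_map, ← h1]
    exact (h.deg k _ (H.isDeg_comp k y)).map f
  · rw [← h1, ← h1, ← map_mul, ← map_mul, hJ, hJ, h.skew]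
  · rw [← map_one (H.map f), ← h1, h.one, map_zero]
  · rw [← map_mul, ← h1, ← h1, hx, map_mul]

/-- The Virasoro data `μ = μ₀ + ν`, `ρ`. -/
noncomputable def vd {ν : Module.End ℂ (H Y.X)} (hν : Y.Nu ν) {ρ : H Y.X} (hρ : H.IsDeg 2 ρ)
    (hc : Cm ν ρ) : VD Y.coh.fr where
  μ := Y.mu0 + ν
  ρ := ml ρ
  evμ := isEv_of_deg (s := 0) fun k x hx => by
    rw [mul_zero, add_zero]
    exact (H.deg _ k).add_mem (mu0_deg k x hx) (hν.deg k x hx)
  evρ := isEv_ml (s := 1) hρ
  adjμ v w := by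
    rw [η_eq, η_eq, LinearMap.add_apply, LinearMap.add_apply, add_mul, mul_add, map_add, map_add,
      mu0_skew, hν.skew, neg_add]
  adjρ v w := by
    rw [η_eq, η_eq, LinearMap.mul_apply', LinearMap.mul_apply', hρ.commute even_two v, mul_assoc]
  comm := LinearMap.ext fun a => by
    show Y.mu0 (ρ * a) + ν (ρ * a) = ρ * (Y.mu0 a + ν a) + ρ * a
    rw [mu0_mul hρ, hc, mul_add, add_right_comm]

/-- every degree preserving grading with the right value on `1` has this form -/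
theorem nu_of_vd (d : VD Y.coh.fr) (hd : ∀ k x, H.IsDeg k x → H.IsDeg k (d.μ x))
    (h1 : d.μ (1 : H Y.X) = (-Y.n / 2 : ℂ) • (1 : H Y.X)) : Y.Nu (d.μ - Y.mu0) :=
  ⟨fun k x hx => (H.deg _ k).sub_mem (hd k x hx) (mu0_deg k x hx), fun a b => by
    rw [LinearMap.sub_apply, LinearMap.sub_apply, sub_mul, mul_sub, map_sub, map_sub, mu0_skew,
      ← η_eq, d.adjμ, η_eq, neg_sub', sub_neg_eq_add], by
    rw [LinearMap.sub_apply, h1, mu0_of_deg H.isDeg_one, Int.cast_zero, zero_sub, sub_self]⟩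

theorem vd_ext {d d' : VD Y.coh.fr} (hμ : d.μ = d'.μ) (hρ : d.ρ = d'.ρ) : d = d' := by
  cases d
  cases d'
  congr

/-- the supertrace does not change under isomorphisms -/
theorem str_congr {C C' : Deg.Coh} (j : C.H ≃ₗ[ℂ] C'.H) (hj : IsEv C.p C'.p j.toLinearMap)
    {T : Module.End ℂ C.H} {T' : Module.End ℂ C'.H} (e : ∀ a, j (T a) = T' (j a)) :
    C'.fr.str T' = C.fr.str T := by
  rw [Deg.SigP.str_eq, Deg.SigP.str_eq, ← LinearMap.trace_conj' (C.p.σ * T) j]
  refine congrArg _ (LinearMap.ext (j.surjective.forall.2 fun a => ?_))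
  rw [LinearEquiv.conj_apply_apply, j.symm_apply_apply, Module.End.mul_apply, ← e]
  exact hj _

/-- additivity of the supertrace -/
theorem str_add {C C₁ C₂ : Deg.Coh} {j₁ : C₁.H →ₗ[ℂ] C.H} {j₂ : C₂.H →ₗ[ℂ] C.H}
    (h₁ : IsEv C₁.p C.p j₁) (h₂ : IsEv C₂.p C.p j₂) (hb : Bijective (j₁.coprod j₂))
    {T : Module.End ℂ C.H} {T₁ : Module.End ℂ C₁.H} {T₂ : Module.End ℂ C₂.H}
    (e₁ : ∀ a, j₁ (T₁ a) = T (j₁ a)) (e₂ : ∀ a, j₂ (T₂ a) = T (j₂ a)) :
    C.fr.str T = C₁.fr.str T₁ + C₂.fr.str T₂ := by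
  let j := LinearEquiv.ofBijective _ hb
  rw [Deg.SigP.str_eq, Deg.SigP.str_eq, Deg.SigP.str_eq, ← LinearMap.trace_prodMap',
    ← LinearMap.trace_conj' _ j]
  refine congrArg _ (LinearMap.ext (j.surjective.forall.2 fun a => ?_))
  rw [LinearEquiv.conj_apply_apply, j.symm_apply_apply]
  show C.p.σ (T (j₁ a.1 + j₂ a.2)) = j₁ (C₁.p.σ (T₁ a.1)) + j₂ (C₂.p.σ (T₂ a.2))
  rw [map_add, map_add, ← e₁, ← e₂, h₁, h₂]

variable (Y) in
/-- A divisor with the class `c` of its normal bundle in the left pieces. -/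
@[reducible] noncomputable def dv {c : H Y.X} (hc : H.IsDeg 2 c) : Deg.Dv where
  toCoh := Y.coh
  c := ml c
  hc := isEv_ml (s := 1) hc

end PS

end Vale.Agent.P269.Coh
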