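import Vale.Agent.P269.Coh.Lf

/-!
# P269, cohomological packages: admissible gradings
-/

set_option linter.unusedSectionVars false

namespace Vale.Agent.P269.Coh

open P291Z Set Function Fock Mono PS

namespace AdP

theorem trace_fr {V κ : Type} [AddCommGroup V] [Module ℂ V] [FiniteDimensional ℂ V] [Fintype κ]
    {B : V →ₗ[ℂ] V →ₗ[ℂ] ℂ} {e f : κ → V} {μ σ : Module.End ℂ V} {l : κ → ℂ} {s : ℂ}
    (hl : ∀ b, μ (e b) = l b • e b) (hs : ∀ b, σ (e b) = s • e b) (hd : ∀ b, B (e b) (f b) = 1)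
    (k : ℕ) : LinearMap.trace ℂ V (σ * (μ ^ k * Inv.proj B e f)) = s * ∑ b, l b ^ k := by
  rw [Inv.pow_mul_proj hl, Finset.mul_sum, map_sum, Finset.mul_sum]
  refine Finset.sum_congr rfl fun b _ => ?_
  have : σ * Inv.rk B (f b) (e b) = s • Inv.rk B (f b) (e b) := by
    ext x
    simp [hs, smul_comm s]
  rw [mul_smul_comm, this, map_smul, map_smul, Inv.rk, LinearMap.trace_smulRight,
    LinearMap.flip_apply, hd]
  simp [mul_comm]

variable {Y : PS} {h a v : H Y.X}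

theorem amb_ext {M : Type*} [AddCommGroup M] [Module ℂ M] {f g : H Y.X →ₗ[ℂ] M}
    (e : ∀ j : ℕ, f (h ^ j) = g (h ^ j)) (ha : a ∈ amb h) : f a = g a :=
  LinearMap.eqOn_span' (forall_mem_range.2 e) ha

theorem map_mem {f : Module.End ℂ (H Y.X)} (e : ∀ j : ℕ, f (h ^ j) ∈ amb h) (ha : a ∈ amb h) :
    f a ∈ amb h :=
  (Submodule.span_le (p := (amb h).comap f)).2 (range_subset_iff.2 e) ha

theorem orth (ha : a ∈ amb h) (hv : v ∈ van h Y.J) : bil Y.J a v = 0 := hv a ha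

variable (L : Lf Y h)
include L

theorem σ_amb (ha : a ∈ amb h) : (parH Y.X).σ a = a :=
  amb_ext (g := LinearMap.id) (fun j => by
    rw [parH_of_deg (isDeg_pow L.deg j), Int.negOnePow_two_mul]; simp) ha

theorem orth' (ha : a ∈ amb h) (hv : v ∈ van h Y.J) : bil Y.J v a = 0 := by
  rw [Y.pd.symB v a, σ_amb L ha, orth ha hv]

theorem dec (x : H Y.X) : ∃ a ∈ amb h, ∃ v ∈ van h Y.J, a + v = x :=
  Submodule.mem_sup.1 (L.isCompl.sup_eq_top ▸ Submodule.mem_top)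

theorem form : Inv.IsForm (bil Y.J) (van h Y.J) (Hdg.sn Y.n) :=
  L.isForm (by rw [← Int.cast_mul, Hdg.sn_sq, Int.cast_one]) fun m e => by
    rw [← e, Hdg.sn_nat]; simp

theorem eq_zero (hv : v ∈ van h Y.J) (e : ∀ w ∈ van h Y.J, bil Y.J v w = 0) : v = 0 :=
  (form L).nondeg v hv fun w hw => by rw [(form L).symm w hw v hv, e w hw, mul_zero]

theorem mu0_van (hv : v ∈ van h Y.J) : Y.mu0 v = 0 := by
  rw [mu0_of_deg (L.van_deg hv)]
  simp

theorem mu0_mem (x : H Y.X) : Y.mu0 x ∈ amb h := by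
  obtain ⟨a, ha, v, hv, rfl⟩ := dec L x
  rw [map_add, mu0_van L hv, add_zero]
  exact map_mem (fun j => by
    rw [mu0_of_deg (isDeg_pow L.deg j)]
    exact Submodule.smul_mem _ _ (pow_mem_amb h j)) ha

/-- the powers of `h` form a frame -/
theorem exists_fr : ∃ f, Inv.Frame (κ := Fin (Y.n + 1).toNat) (bil Y.J) (amb h)
    (fun j => h ^ j.1) f ∧ ∀ j : Fin (Y.n + 1).toNat, bil Y.J (h ^ j.1) (f j) = 1 := by
  have k : ∀ (i : ℕ) (j : Fin (Y.n + 1).toNat), bil Y.J (h ^ i)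
      ((Y.J (h ^ Y.n.toNat))⁻¹ • h ^ (Y.n.toNat - j)) = if (j : ℕ) = i then 1 else 0 := fun i j => by
    have := j.2
    rw [map_smul, bil_apply, ← pow_add]
    split_ifs with e
    · rw [show i + (Y.n.toNat - j) = Y.n.toNat by omega]
      exact inv_mul_cancel₀ (L.norm _ (by omega))
    · rw [Y.pd.deg _ (by omega) _ (isDeg_pow L.deg (i + _)), smul_zero]
  refine ⟨_, ⟨fun j => pow_mem_amb h j, fun j => Submodule.smul_mem _ _ (pow_mem_amb h _),
    fun x hx => ?_⟩, fun j => (k j j).trans (if_pos rfl)⟩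
  rw [← Inv.proj_apply]
  refine amb_ext (g := LinearMap.id) (fun i => ?_) hx
  simp only [Inv.proj_apply, k, ite_smul, one_smul, zero_smul, LinearMap.id_apply]
  by_cases e : i < (Y.n + 1).toNat
  · rw [Finset.sum_eq_single ⟨i, e⟩ (fun j _ b => if_neg fun c => b (Fin.ext c)) (by simp),
      if_pos rfl]
  · rw [Y.eq_zero_of_lt (by omega) (isDeg_pow L.deg i)]
    exact Finset.sum_eq_zero fun j _ => if_neg (by have := j.2; omega)

end AdP

namespace Lf

open AdP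

variable {Y Y' : PS} {h : H Y.X} (L : Lf Y h)
include L

variable {l : Multiset ℝ} {ν : Module.End ℂ (H Y.X)} (A : Ad Y h l ν)
include A

theorem nu_amb {x : H Y.X} (hx : x ∈ Mono.amb h) : ν x = 0 :=
  AdP.eq_zero L (A.skew.mem x) fun w hw => by
    simpa only [orth hx (A.skew.mem w), add_zero] using A.skew.skew x w hw

theorem nu : Y.Nu ν := by
  refine ⟨fun k x hx => ?_, fun a b => ?_, by simpa using L.nu_amb A (pow_mem_amb h 0)⟩
  · rcases eq_or_ne k Y.n with rfl | e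
    · exact L.van_deg (A.skew.mem x)
    · rw [L.nu_amb A (L.amb k e x hx)]
      exact (H.deg Y.X k).zero_mem
  · obtain ⟨c, hc, v, hv, rfl⟩ := dec L b
    rw [← bil_apply, ← bil_apply, map_add, map_add, orth' L hc (A.skew.mem a), L.nu_amb A hc,
      zero_add, zero_add]
    exact eq_neg_of_add_eq_zero_left (A.skew.skew a v hv)

theorem cm {x : H Y.X} (hx : x ∈ Mono.amb h) : Cm ν x := by
  refine Cm.amb (fun a => ?_) hx
  obtain ⟨c, hc, v, hv, rfl⟩ := dec L a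
  rw [L.mul_van (A.skew.mem _), mul_add, L.mul_van hv, add_zero]
  exact L.nu_amb A (map_mem (f := ml h) (fun j => by
    simpa only [pow_succ', LinearMap.mul_apply'] using pow_mem_amb h (j + 1)) hc)

theorem nu_eq_zero (hl : ∀ x ∈ l, x = 0) : ν = 0 := by
  obtain ⟨m, e, f, a, hF, -, he, rfl⟩ := A.eig
  ext x
  obtain ⟨c, hc, v, hv, rfl⟩ := dec L x
  rw [map_add, L.nu_amb A hc, ← hF.expand v hv]
  simp [he, fun b => hl (a b) (Multiset.mem_map_of_mem _ (Finset.mem_univ b))]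

theorem card_eq : l.card = Module.finrank ℂ (van h Y.J) := by
  obtain ⟨m, e, f, a, hF, hd, -, rfl⟩ := A.eig
  have := trace_fr (B := bil Y.J) (μ := 1) (σ := 1) (l := 1) (s := 1) (by simp) (by simp) hd 0
  rw [pow_zero, one_mul, one_mul, hF.trace_proj] at this
  simpa using this.symm

set_option linter.unusedVariables false in
theorem ad_map {f : C(Y'.X, Y.X)} (hb : Bijective (H.map f)) (hn : Y'.n = Y.n)
    (hJ : ∀ a, Y'.J (H.map f a) = Y.J a) {ν' : Module.End ℂ (H Y'.X)}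
    (e : ∀ b, H.map f (ν b) = ν' (H.map f b)) : Ad Y' (H.map f h) l ν' := by
  have hB : ∀ a b, bil Y'.J (H.map f a) (H.map f b) = bil Y.J a b := fun a b => by
    rw [bil_apply, ← map_mul, hJ, bil_apply]
  have hV : ∀ x, H.map f x ∈ van (H.map f h) Y'.J ↔ x ∈ van h Y.J := fun x => by
    simp only [mem_van, ← map_pow, ← map_mul, hJ]
  obtain ⟨m, u, w, a, hF, hd, he, hl⟩ := A.eig
  refine ⟨⟨hb.2.forall.2 fun x => e x ▸ (hV _).2 (A.skew.mem x), hb.2.forall₂.2 fun x v hv => ?_⟩,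
    m, fun b => H.map f (u b), fun b => H.map f (w b), a, ⟨fun b => (hV _).2 (hF.e_mem b),
    fun b => (hV _).2 (hF.f_mem b), hb.2.forall.2 fun x hx => ?_⟩, fun b => (hB _ _).trans (hd b),
    fun b => by rw [← e, he, H.map_smulC], hl⟩
  · rw [← e, ← e, hB, hB, A.skew.skew x v ((hV v).1 hv)]
  · simp only [hB, ← H.map_smulC, ← map_sum, hF.expand x ((hV x).1 hx)]

/-- conjugates of admissible gradings are admissible -/
theorem ad_conj {g g' : Module.End ℂ (H Y.X)} (hg : Inv.Isom (bil Y.J) (van h Y.J) g)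
    (e : g * g' = 1) : Ad Y h l (g * ν * g') ∧ g * (Y.mu0 + ν) * g' = Y.mu0 + g * ν * g' := by
  have e1 : ∀ x, g (g' x) = x := LinearMap.congr_fun e
  have e2 : ∀ x, g' (g x) = x := LinearMap.congr_fun (mul_eq_one_comm.1 e)
  have h1 : ∀ x, x - g' x ∈ van h Y.J := fun x => by simpa only [e1] using hg.mem (g' x)
  have h2 : ∀ v ∈ van h Y.J, g' v ∈ van h Y.J := fun v hv => by
    simpa using (van h Y.J).sub_mem hv (h1 v)
  have h3 : ∀ x, ∀ v ∈ van h Y.J, bil Y.J x (g v) = bil Y.J (g' x) v := fun x v hv => by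
    rw [← hg.isom _ v hv, e1]
  have h4 : ∀ x, ∀ v ∈ van h Y.J, bil Y.J (g x) v = bil Y.J x (g' v) := fun x v hv => by
    rw [← hg.isom _ _ (h2 v hv), e1]
  obtain ⟨m, u, w, a, hF, hd, he, hl⟩ := A.eig
  refine ⟨⟨⟨fun x => hg.map_mem (A.skew.mem _), fun x v hv => ?_⟩, m, fun b => g (u b),
    fun b => g (w b), a, ⟨fun b => hg.map_mem (hF.e_mem b), fun b => hg.map_mem (hF.f_mem b),
    fun x hx => ?_⟩, fun b => (hg.isom _ _ (hF.f_mem b)).trans (hd b), fun b => ?_, hl⟩, ?_⟩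
  · simp only [Module.End.mul_apply]
    rw [h4 _ v hv, h3 _ _ (A.skew.mem _), A.skew.skew _ _ (h2 v hv)]
  · simp only [h3 x _ (hF.f_mem _), ← map_smul, ← map_sum, hF.expand _ (h2 x hx), e1]
  · simp only [Module.End.mul_apply, e2, he, map_smul]
  · rw [mul_add, add_mul, add_left_inj]
    ext x
    have b := mu0_van L (h1 x)
    have c := mu0_mem L x
    rw [map_sub, sub_eq_zero] at b
    rw [Module.End.mul_apply, Module.End.mul_apply, ← b, ← sub_eq_zero]
    refine AdP.eq_zero L (hg.mem _) fun v hv => ?_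
    rw [map_sub, LinearMap.sub_apply, h4 _ v hv, orth c hv, orth c (h2 v hv), sub_zero]

theorem str_pow_add (t : ℝ) (k : ℕ) : Y.coh.fr.str ((Y.mu0 + ν + (t : ℂ) • 1) ^ k) =
    ∑ j ∈ Finset.range (Y.n + 1).toNat, (((j - Y.n / 2 + t : ℝ) : ℂ)) ^ k +
      Hdg.sn Y.n • (l.map fun x : ℝ => ((x + t : ℝ) : ℂ) ^ k).sum := by
  obtain ⟨m, u, w, a, hF, hd, he, rfl⟩ := A.eig
  obtain ⟨f, hG, hf⟩ := exists_fr L
  have e : Inv.proj (bil Y.J) (fun j => h ^ j.1) f + Inv.proj (bil Y.J) u w = 1 := by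
    ext x
    obtain ⟨c, hc, v, hv, rfl⟩ := dec L x
    rw [LinearMap.add_apply, map_add, map_add, hG.proj_of_mem hc, hF.proj_of_mem hv]
    simp [Inv.proj_apply, orth hc (hF.f_mem _), orth' L (hG.f_mem _) hv]
  have a1 := trace_fr (κ := Fin (Y.n + 1).toNat) (e := fun j => h ^ j.1)
    (μ := Y.mu0 + ν + (t : ℂ) • 1) (l := fun j => ((j.1 - Y.n / 2 + t : ℝ) : ℂ)) (s := 1) (fun j => by
      rw [LinearMap.add_apply, LinearMap.add_apply, L.nu_amb A (pow_mem_amb h j),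
        mu0_of_deg (isDeg_pow L.deg j), add_zero, LinearMap.smul_apply, Module.End.one_apply,
        ← add_smul]
      congr 1
      push_cast
      ring) (fun j => (σ_amb L (pow_mem_amb h j.1)).trans (one_smul _ _).symm) hf k
  have a2 := trace_fr (B := bil Y.J) (μ := Y.mu0 + ν + (t : ℂ) • 1)
    (l := fun b => ((a b + t : ℝ) : ℂ)) (s := Hdg.sn Y.n)
    (fun b => by simp [he, mu0_van L (hF.e_mem b), add_smul])
    (fun b => parH_of_deg (L.van_deg (hF.e_mem b))) hd k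
  rw [Deg.SigP.str_eq, ← (congrArg (_ ^ k * ·) e).trans (mul_one _), mul_add, mul_add, map_add,
    zsmul_eq_mul, Multiset.map_map, Finset.sum_range]
  exact congrArg₂ (· + ·) (a1.trans (one_mul _)) a2

theorem str_pow (k : ℕ) : Y.coh.fr.str ((Y.mu0 + ν) ^ k) =
    ∑ j ∈ Finset.range (Y.n + 1).toNat, (((j - Y.n / 2 : ℝ) : ℂ)) ^ k +
      Hdg.sn Y.n • (l.map fun x : ℝ => (x : ℂ) ^ k).sum := by
  simpa only [add_zero, Complex.ofReal_zero, zero_smul] using L.str_pow_add A 0 k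

/-- the primitive decomposition in the form of the interface -/
theorem exists_prim {ρ : H Y.X} (hρ : H.IsDeg 2 ρ) (hc : Cm ν ρ) (ha : ρ ∈ Mono.amb h) {ε : ℂ}
    (hε : ε * ε = 1) (e : ∀ m : ℕ, (m : ℤ) = Y.n → ε = (-1) ^ m) :
    ∃ pr : Deg.Prim Y.coh (vd (L.nu A) hρ hc) ε, pr.A = Mono.amb h ∧ pr.V = van h Y.J ∧
      Finset.univ.val.map pr.l = l := by
  obtain ⟨m, u, w, a, hF, hd, he, hl⟩ := A.eig
  refine ⟨{ A := Mono.amb h, V := van h Y.J, form := Y.η_bil ▸ L.isForm hε e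
            orth := fun a ha v hv => Y.η_bil ▸ orth ha hv, sup := L.isCompl.sup_eq_top
            σA := fun a => σ_amb L, σV := fun v hv => ?_
            one := Y.one_eq ▸ pow_zero h ▸ pow_mem_amb h 0, ρV := fun v hv => ?_
            κ := Fin m, e := u, f := w, l := a, fr := Y.η_bil ▸ hF
            dual := fun b => (Y.η_eq _ _).trans (hd b), eig := fun b => ?_
            μA := fun c hc => ?_ }, rfl, rfl, hl⟩
  · rcases lt_or_ge Y.n 0 with b | b
    · exact (Y.subsingleton b).elim _ _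
    · obtain ⟨n, b⟩ := Int.eq_ofNat_of_zero_le b
      rw [e n b.symm, parH_of_deg (L.van_deg hv), b]
      simp
  · show ρ * v = 0
    rcases amb_deg L.deg ha hρ with rfl | ⟨j, c, b, rfl⟩
    · exact zero_mul v
    · rw [show j = 1 by omega, pow_one, smul_mul_assoc, L.mul_van hv, smul_zero]
  · show Y.mu0 (u b) + ν (u b) = _
    rw [mu0_van L (hF.e_mem b), he, zero_add]
  · show Y.mu0 c + ν c ∈ _
    rw [L.nu_amb A hc, add_zero]
    exact mu0_mem L c

omit A in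
set_option linter.unusedVariables false in
/-- the converse -/
theorem ad_of_prim {C : Deg.Coh} {i : C.H →ₗ[ℂ] H Y.X} (hi : Bijective i)
    (hη : ∀ a b, C.fr.η a b = Y.J (i a * i b)) (h1 : i C.fr.one = 1) {d : VD C.fr} {ε : ℂ}
    (pr : Deg.Prim C d ε) (hA : ∀ v, v ∈ pr.A ↔ i v ∈ Mono.amb h)
    (hd : ∀ k v, H.IsDeg k (i v) → H.IsDeg k (i (d.μ v)))
    (hl : ∀ v v', i v' = h * i v → i (d.μ v') = h * i (d.μ v) + i v')
    (ho : i (d.μ C.fr.one) = (-Y.n / 2 : ℂ) • (1 : H Y.X)) :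
    ∃ ν, Ad Y h (Finset.univ.val.map pr.l) ν ∧ ∀ v, i (d.μ v) = (Y.mu0 + ν) (i v) := by
  let j := LinearEquiv.ofBijective i hi
  obtain ⟨μ, hμ⟩ : ∃ μ : Module.End ℂ (H Y.X), ∀ v, μ (i v) = i (d.μ v) :=
    ⟨i ∘ₗ d.μ ∘ₗ j.symm, fun v => congrArg (fun x => i (d.μ x)) (j.symm_apply_apply v)⟩
  have hB : ∀ a b, bil Y.J (i a) (i b) = C.fr.η a b := fun a b => (hη a b).symm
  have a1 : ∀ v ∈ pr.V, i v ∈ van h Y.J := fun v hv => hi.2.forall.2 fun a ha =>
    (hB a v).trans (pr.orth a ((hA a).2 ha) v hv)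
  have a2 : ∀ v, i v ∈ van h Y.J → v ∈ pr.V := fun v hv => by
    obtain ⟨a, ha, w, hw, rfl⟩ := Submodule.mem_sup.1 (pr.sup ▸ Submodule.mem_top (x := v))
    rw [map_add, Submodule.add_mem_iff_left _ (a1 w hw)] at hv
    rwa [hi.1 ((Submodule.disjoint_def.1 L.isCompl.disjoint _ ((hA a).1 ha) hv).trans
      (map_zero i).symm), zero_add]
  have a3 : ∀ x ∈ Mono.amb h, μ x = Y.mu0 x := fun x => amb_ext fun n => by
    induction n with
    | zero => rw [pow_zero, mu0_of_deg H.isDeg_one, ← h1, hμ, ho, h1]; simp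
    | succ n ih =>
      obtain ⟨v, hv⟩ := hi.2 (h ^ n)
      obtain ⟨v', hv'⟩ := hi.2 (h * i v)
      rw [pow_succ', mu0_mul L.deg, ← ih, ← hv, ← hv', hμ, hμ, hl v v' hv']
  let φ := (Fintype.equivFin pr.κ).symm
  refine ⟨μ - Y.mu0, ⟨⟨fun x => ?_, hi.2.forall₂.2 fun x v _ => ?_⟩, _, fun b => i (pr.e (φ b)),
    fun b => i (pr.f (φ b)), pr.l ∘ φ, ⟨fun b => a1 _ (pr.fr.e_mem _), fun b => a1 _ (pr.fr.f_mem _),
    hi.2.forall.2 fun x hx => ?_⟩, fun b => (hB _ _).trans (pr.dual _), fun b => ?_, ?_⟩,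
    fun v => by simp [hμ]⟩
  · obtain ⟨a, ha, v, hv, rfl⟩ := dec L x
    obtain ⟨v, rfl⟩ := hi.2 v
    rw [map_add, LinearMap.sub_apply, LinearMap.sub_apply, a3 a ha, sub_self, zero_add,
      mu0_van L hv, sub_zero, hμ]
    refine hi.2.forall.2 fun c hc => (hB _ _).trans (neg_eq_zero.1 ?_)
    rw [← d.adjμ, pr.orth _ (pr.μA c ((hA c).2 hc)) v (a2 v hv)]
  · simp only [LinearMap.sub_apply, map_sub, hμ, hB, d.adjμ]
    simp only [bil_apply, mu0_skew]
    ring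
  · simp only [hB, ← map_smul, ← map_sum]
    rw [φ.sum_comp fun b => C.fr.η x (pr.f b) • pr.e b, pr.fr.expand x (a2 x hx)]
  · rw [LinearMap.sub_apply, hμ, mu0_van L (a1 _ (pr.fr.e_mem _)), sub_zero, pr.eig, map_smul]
    rfl
  · rw [← Multiset.map_map, Multiset.map_univ_val_equiv]

end Lf

end Vale.Agent.P269.Coh
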