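import Vale.Agent.P269.Coh.PA

/-!
# P269, cohomological packages: projective bundles and caps (algebra)
-/

set_option linter.unusedSectionVars false

namespace Vale.Agent.P269.Coh

namespace PBA

open P291Z Function Polynomial

section alg

variable {R S : Type*} [Ring R] [Ring S] {φ : R →+* S} {x : S} {r : ℕ}

theorem ev_eq {p : R[X]} (hp : p.natDegree ≤ r) :
    p.eval₂ φ x = ∑ k : Fin (r + 1), φ (p.coeff k) * x ^ (k : ℕ) := by
  rw [eval₂_eq_sum_range' φ (Nat.lt_succ_of_le hp),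
    Fin.sum_univ_eq_sum_range fun k => φ (p.coeff k) * x ^ k]

theorem exists_poly (v : Fin (r + 1) → R) :
    ∃ p : R[X], p.natDegree ≤ r ∧ ∀ k : Fin (r + 1), p.coeff k = v k := by
  classical
  exact ⟨ofFn (r + 1) v, Nat.le_of_lt_succ (ofFn_natDegree_lt (Nat.le_add_left 1 r) v),
    fun k => ofFn_coeff_eq_val_of_lt v k.2⟩

theorem lh_iff : (Bijective fun v : Fin (r + 1) → R => ∑ k, φ (v k) * x ^ (k : ℕ)) ↔
    (∀ p : R[X], p.natDegree ≤ r → p.eval₂ φ x = 0 → p = 0) ∧
      ∀ s, ∃ p : R[X], p.natDegree ≤ r ∧ p.eval₂ φ x = s := by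
  constructor
  · rintro ⟨h1, h2⟩
    refine ⟨fun p hp h0 => ?_, fun s => ?_⟩
    · have h3 : (fun k : Fin (r + 1) => p.coeff k) = 0 := h1 (by simpa [ev_eq hp] using h0)
      ext k
      by_cases hk : k ≤ r
      · exact congrFun h3 ⟨k, Nat.lt_succ_of_le hk⟩
      · exact coeff_eq_zero_of_natDegree_lt (by omega)
    · obtain ⟨v, hv⟩ := h2 s
      obtain ⟨p, hp, e⟩ := exists_poly v
      exact ⟨p, hp, by simpa only [ev_eq hp, e] using hv⟩
  · rintro ⟨h1, h2⟩
    refine ⟨fun v w h => ?_, fun s => ?_⟩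
    · obtain ⟨p, hp, e⟩ := exists_poly v
      obtain ⟨q, hq, e'⟩ := exists_poly w
      have h3 : p - q = 0 := h1 _ ((natDegree_sub_le _ _).trans (max_le hp hq)) (by
        rw [eval₂_sub, ev_eq hp, ev_eq hq, sub_eq_zero]
        simpa only [e, e'] using h)
      funext k
      rw [← e, ← e', sub_eq_zero.1 h3]
    · obtain ⟨p, hp, e⟩ := h2 s
      exact ⟨fun k => p.coeff k, (ev_eq hp).symm.trans e⟩

theorem ev_comp (hx : ∀ b, Commute (φ b) x) (p : R[X]) (a : R) :
    (p.comp (X + C a)).eval₂ φ x = p.eval₂ φ (x + φ a) := by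
  have h := hom_eval₂ p C (eval₂RingHom' φ x hx) (X + C a)
  have e : (eval₂RingHom' φ x hx).comp C = φ := RingHom.ext fun b => eval₂_C φ x
  have e' : eval₂RingHom' φ x hx (X + C a) = x + φ a := by
    change eval₂ φ x (X + C a) = _
    rw [eval₂_add, eval₂_X, eval₂_C]
  rw [e, e'] at h
  exact h

theorem deg_lin (a : R) : (X + C a).natDegree ≤ 1 :=
  (natDegree_add_le _ _).trans (max_le natDegree_X_le (by simp))

theorem deg_comp {p : R[X]} (hp : p.natDegree ≤ r) (a : R) : (p.comp (X + C a)).natDegree ≤ r :=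
  natDegree_comp_le.trans ((Nat.mul_le_mul hp (deg_lin a)).trans (mul_one r).le)

theorem lh_twist (hx : ∀ b, Commute (φ b) x) {a : R} (ha : ∀ b, Commute b a)
    (h : Bijective fun v : Fin (r + 1) → R => ∑ k, φ (v k) * x ^ (k : ℕ)) :
    Bijective fun v : Fin (r + 1) → R => ∑ k, φ (v k) * (x + φ a) ^ (k : ℕ) := by
  obtain ⟨h1, h2⟩ := lh_iff.1 h
  refine lh_iff.2 ⟨fun p hp h0 => ?_, fun s => ?_⟩
  · have h3 := h1 _ (deg_comp hp a) ((ev_comp hx p a).trans h0)
    have h4 := ev_comp (φ := C) (x := X - C a)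
      (fun b => (commute_X (C b)).symm.sub_right ((ha b).map C)) p a
    rwa [h3, eval₂_zero, sub_add_cancel, eval₂_C_X, eq_comm] at h4
  · obtain ⟨p, hp, e⟩ := h2 s
    refine ⟨_, deg_comp hp (-a), ?_⟩
    rw [ev_comp fun b => (hx b).add_right ((ha b).map φ), map_neg, add_neg_cancel_right, e]

/-- The polynomial of the relation. -/
noncomputable def rp (L : List R) : R[X] := (L.map fun a => X + C a).prod

theorem rp_cons (a : R) (L : List R) : rp (a :: L) = (X + C a) * rp L := List.prod_cons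

theorem rp_mon (L : List R) : (rp L).natDegree ≤ L.length ∧ (rp L).coeff L.length = 1 := by
  induction L with
  | nil => simp [rp]
  | cons a L ih =>
    rw [rp_cons, List.length_cons, add_comm L.length]
    refine ⟨natDegree_mul_le.trans (Nat.add_le_add (deg_lin a) ih.1), ?_⟩
    rw [coeff_mul_add_eq_of_natDegree_le (deg_lin a) ih.1, ih.2]
    simp

theorem rp_coeff {P : R → Prop} (h0 : P 0) (h1 : P 1) (hadd : ∀ a b, P a → P b → P (a + b))
    (hmul : ∀ a b, P a → P b → P (a * b)) (L : List R) (hL : ∀ a ∈ L, P a) (k : ℕ) :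
    P ((rp L).coeff k) := by
  induction L generalizing k with
  | nil =>
    rw [rp, List.map_nil, List.prod_nil, coeff_one]
    split_ifs
    · exact h1
    · exact h0
  | cons a L ih =>
    have ih' := ih fun b hb => hL b (List.mem_cons_of_mem _ hb)
    rw [rp_cons, add_mul, coeff_add, coeff_C_mul]
    refine hadd _ _ ?_ (hmul _ _ (hL a List.mem_cons_self) (ih' k))
    cases k with
    | zero => rwa [coeff_X_mul_zero]
    | succ k => rw [coeff_X_mul]; exact ih' k

theorem ev_rp (hx : ∀ b, Commute (φ b) x) {n : ℕ} (c : Fin n → R) :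
    (rp (List.ofFn c)).eval₂ φ x = (List.ofFn fun l => x + φ (c l)).prod := by
  change eval₂RingHom' φ x hx _ = _
  rw [rp, map_list_prod, List.map_map, List.map_ofFn]
  congr 2
  funext l
  change eval₂ φ x (X + C (c l)) = _
  rw [eval₂_add, eval₂_X, eval₂_C]

theorem ev_C_mul (hx : ∀ b, Commute (φ b) x) (z : R) (p : R[X]) :
    (C z * p).eval₂ φ x = φ z * p.eval₂ φ x := by
  rw [eval₂_mul_noncomm _ _ fun k => hx _, eval₂_C]

theorem deg_sub {p q : R[X]} (hp : p.natDegree ≤ r + 1) (hq : q.natDegree ≤ r + 1)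
    (h1 : q.coeff (r + 1) = 1) : (p - C (p.coeff (r + 1)) * q).natDegree ≤ r := by
  refine natDegree_le_iff_coeff_eq_zero.2 fun k hk => ?_
  rw [coeff_sub, coeff_C_mul]
  rcases (Nat.succ_le_of_lt hk).eq_or_lt with rfl | hk'
  · rw [h1, mul_one, sub_self]
  · rw [coeff_eq_zero_of_natDegree_lt (hp.trans_lt hk'),
      coeff_eq_zero_of_natDegree_lt (hq.trans_lt hk'), mul_zero, sub_self]

end alg

variable {T T' : Type} [TopologicalSpace T] [TopologicalSpace T']

theorem comm2 {a : H T} (ha : H.IsDeg 2 a) (b : H T) : Commute b a :=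
  (ha.commute even_two b).symm

theorem deg_pow {a : H T} (ha : H.IsDeg 2 a) (k : ℕ) : H.IsDeg (2 * k) (a ^ k) := by
  induction k with
  | zero => simpa using H.isDeg_one
  | succ k ih =>
    have := ih.mul ha
    rwa [← pow_succ, show (2 * k + 2 : ℤ) = 2 * (k + 1 : ℕ) by push_cast; ring] at this

/-- The Leray-Hirsch map. -/
noncomputable def lhL (π : C(T, T')) (ξ : H T) (r : ℕ) : (Fin (r + 1) → H T') →ₗ[ℂ] H T where
  toFun v := ∑ k, H.map π (v k) * ξ ^ (k : ℕ)
  map_add' v w := by simp only [Pi.add_apply, map_add, add_mul, Finset.sum_add_distrib]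
  map_smul' c v := by
    simp only [Pi.smul_apply, H.map_smulC, smul_mul_assoc, Finset.smul_sum, RingHom.id_apply]

theorem lhL_apply (π : C(T, T')) (ξ : H T) (r : ℕ) (v : Fin (r + 1) → H T') :
    lhL π ξ r v = ∑ k, H.map π (v k) * ξ ^ (k : ℕ) := rfl

theorem lhL_single (π : C(T, T')) (ξ : H T) {r : ℕ} (k : Fin (r + 1)) (a : H T') :
    lhL π ξ r (Pi.single k a) = H.map π a * ξ ^ (k : ℕ) := by
  rw [lhL_apply, Finset.sum_eq_single k (fun j _ hj => by
    rw [Pi.single_eq_of_ne hj, map_zero, zero_mul]) fun h => absurd (Finset.mem_univ k) h,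
    Pi.single_eq_same]

theorem lhL_deg (π : C(T, T')) {ξ : H T} (hξ : H.IsDeg 2 ξ) {r : ℕ} {d : ℤ}
    {v : Fin (r + 1) → H T'} (hv : ∀ k : Fin (r + 1), H.IsDeg (d - 2 * (k : ℕ)) (v k)) :
    H.IsDeg d (lhL π ξ r v) := by
  rw [lhL_apply, ← H.mem_deg]
  refine (H.deg T d).sum_mem fun k _ => ?_
  have := ((hv k).map π).mul (deg_pow hξ k)
  rwa [sub_add_cancel] at this

theorem comp_lhL (π : C(T, T')) {ξ : H T} (hξ : H.IsDeg 2 ξ) {r : ℕ} (d : ℤ)
    (v : Fin (r + 1) → H T') :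
    H.comp d (lhL π ξ r v) = lhL π ξ r fun k => H.comp (d - 2 * (k : ℕ)) (v k) := by
  rw [lhL_apply, lhL_apply, map_sum]
  refine Finset.sum_congr rfl fun k _ => ?_
  rw [← H.comp_map, ← H.comp_mul_right (deg_pow hξ k), sub_add_cancel]

end PBA

open P291Z Set Function Fock Mono PS

/-- `E` is the projective bundle of lines in the sum of the line bundles with classes `c l`. -/
structure PB (B E : PS) {r : ℕ} (c : Fin (r + 1) → H B.X) (π : C(E.X, B.X)) (ξ : H E.X) : Prop where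
  dim : E.n = B.n + r
  deg : H.IsDeg 2 ξ
  degc : ∀ l, H.IsDeg 2 (c l)
  lh : Bijective fun v : Fin (r + 1) → H B.X => ∑ k, H.map π (v k) * ξ ^ (k : ℕ)
  rel : (List.ofFn fun l => ξ + H.map π (c l)).prod = 0
  int : ∀ a, E.J (H.map π a * ξ ^ r) = B.J a

namespace PB

variable {B E E' Q : PS} {r : ℕ} {c : Fin (r + 1) → H B.X} {π : C(E.X, B.X)} {ξ : H E.X}

/-- a space is a bundle of rank zero over itself -/
theorem triv {c₀ : H B.X} (hc : H.IsDeg 2 c₀) {π : C(E.X, B.X)} (hb : Bijective (H.map π))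
    (hn : E.n = B.n) (hJ : ∀ a, E.J (H.map π a) = B.J a) :
    PB B E (fun _ : Fin 1 => c₀) π (-H.map π c₀) where
  dim := by rw [hn, Nat.cast_zero, add_zero]
  deg := (H.deg _ 2).neg_mem (hc.map π)
  degc _ := hc
  lh := by
    have e : (fun v : Fin (0 + 1) → H B.X => ∑ k, H.map π (v k) * (-H.map π c₀) ^ (k : ℕ)) =
        H.map π ∘ Equiv.funUnique (Fin 1) (H B.X) := by
      funext v
      simp
    rw [e]
    exact hb.comp (Equiv.bijective _)
  rel := by simp
  int a := by rw [pow_zero, mul_one, hJ]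

variable (h : PB B E c π ξ)
include h

/-- transport along an isomorphism of the total space -/
theorem comp {f : C(E'.X, E.X)} (hb : Bijective (H.map f)) (hn : E'.n = E.n)
    (hJ : ∀ a, E'.J (H.map f a) = E.J a) : PB B E' c (π.comp f) (H.map f ξ) where
  dim := hn.trans h.dim
  deg := h.deg.map f
  degc := h.degc
  lh := by
    have e : (fun v : Fin (r + 1) → H B.X =>
        ∑ k, H.map (π.comp f) (v k) * H.map f ξ ^ (k : ℕ)) =
        H.map f ∘ fun v : Fin (r + 1) → H B.X => ∑ k, H.map π (v k) * ξ ^ (k : ℕ) := by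
      funext v
      simp only [comp_apply, map_sum, map_mul, map_pow, H.map_map]
    rw [e]
    exact hb.comp h.lh
  rel := by
    have := congrArg (H.map f) h.rel
    rw [map_list_prod, List.map_ofFn, map_zero] at this
    rw [← this]
    congr 2
    funext l
    rw [comp_apply, map_add, H.map_map]
  int a := by rw [← H.map_map, ← map_pow, ← map_mul, hJ, h.int]

/-- transport along an isomorphism of the base -/
theorem base {B' : PS} {g : C(B'.X, B.X)} (hb : Bijective (H.map g)) (hn : B'.n = B.n)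
    (hJ : ∀ a, B'.J (H.map g a) = B.J a) {π' : C(E.X, B'.X)} (e : ∀ x, g (π' x) = π x) :
    PB B' E (fun l => H.map g (c l)) π' ξ := by
  have e' : ∀ a, H.map π' (H.map g a) = H.map π a := fun a => by
    rw [H.map_map, show g.comp π' = π from ContinuousMap.ext e]
  refine ⟨by rw [hn, h.dim], h.deg, fun l => (h.degc l).map g, ?_, by simpa only [e'] using h.rel,
    fun a => ?_⟩
  · refine (Bijective.of_comp_iff _ (hb.comp_left (α := Fin (r + 1)))).1 ?_
    have e2 : ((fun v : Fin (r + 1) → H B'.X => ∑ k, H.map π' (v k) * ξ ^ (k : ℕ)) ∘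
        fun v : Fin (r + 1) → H B.X => H.map g ∘ v) =
        fun v : Fin (r + 1) → H B.X => ∑ k, H.map π (v k) * ξ ^ (k : ℕ) := by
      funext v
      simp only [comp_apply, e']
    rw [e2]
    exact h.lh
  · obtain ⟨b, rfl⟩ := hb.2 a
    rw [e', h.int, hJ]

theorem int_lt {k : ℕ} (hk : k < r) (a : H B.X) : E.J (H.map π a * ξ ^ k) = 0 := by
  refine H.induction_deg (P := fun a => E.J (H.map π a * ξ ^ k) = 0) a (by simp)
    (fun a b ha hb => by rw [map_add, add_mul, map_add, ha, hb, add_zero]) fun d => ?_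
  by_cases hd : d + 2 * k = 2 * E.n
  · rw [B.eq_zero_of_lt (k := d) (by have := h.dim; omega) (H.isDeg_comp d a), map_zero, zero_mul,
      map_zero]
  · exact E.pd.deg _ hd _ (((H.isDeg_comp d a).map π).mul (PBA.deg_pow h.deg k))

theorem int_ev {p : Polynomial (H B.X)} (hp : p.natDegree ≤ r) :
    E.J (p.eval₂ (H.map π) ξ) = B.J (p.coeff r) := by
  rw [Polynomial.eval₂_eq_sum_range' _ (Nat.lt_succ_of_le hp), Finset.sum_range_succ, map_add,
    map_sum, Finset.sum_eq_zero fun k hk => h.int_lt (Finset.mem_range.1 hk) _, zero_add, h.int]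

/-- twisting by a line bundle -/
theorem twist {a : H B.X} (ha : H.IsDeg 2 a) : PB B E (fun l => c l - a) π (ξ + H.map π a) where
  dim := h.dim
  deg := (H.deg _ 2).add_mem h.deg (ha.map π)
  degc l := (H.deg _ 2).sub_mem (h.degc l) ha
  lh := PBA.lh_twist (fun _ => PBA.comm2 h.deg _) (PBA.comm2 ha) h.lh
  rel := by simpa only [map_sub, add_add_sub_cancel] using h.rel
  int b := by
    have hx : ∀ b, Commute (H.map π b) ξ := fun _ => PBA.comm2 h.deg _
    have h1 : ((Polynomial.X + Polynomial.C a) ^ r).natDegree ≤ r :=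
      (Polynomial.natDegree_pow_le_of_le r (PBA.deg_lin a)).trans (mul_one r).le
    have h2 : ((Polynomial.X + Polynomial.C a) ^ r).coeff r = 1 := by
      have := Polynomial.coeff_pow_of_natDegree_le (m := r) (PBA.deg_lin a)
      simpa using this
    have h3 := h.int_ev ((Polynomial.natDegree_C_mul_le b _).trans h1)
    have h4 := map_pow (Polynomial.eval₂RingHom' (H.map π) ξ hx) (Polynomial.X + Polynomial.C a) r
    change Polynomial.eval₂ _ _ _ = Polynomial.eval₂ _ _ _ ^ r at h4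
    rwa [PBA.ev_C_mul hx, h4, Polynomial.eval₂_add, Polynomial.eval₂_X, Polynomial.eval₂_C,
      Polynomial.coeff_C_mul, h2, mul_one] at h3

theorem perm (σ : Equiv.Perm (Fin (r + 1))) : PB B E (c ∘ σ) π ξ where
  dim := h.dim
  deg := h.deg
  degc l := h.degc _
  lh := h.lh
  rel := by
    refine Eq.trans (List.Perm.prod_eq' (σ.ofFn_comp_perm fun l => ξ + H.map π (c l)) ?_) h.rel
    refine List.pairwise_ofFn.2 fun i j _ => PBA.comm2 ?_ _
    exact (H.deg _ 2).add_mem h.deg ((h.degc _).map π)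
  int := h.int

theorem injective : Injective (H.map π) := fun a b e =>
  B.ext_left fun x => by rw [← h.int, ← h.int, map_mul (H.map π) a, map_mul (H.map π) b, e]

theorem mul_map (a b : H B.X) (k : ℕ) :
    H.map π a * ξ ^ k * H.map π b = H.map π (a * b) * ξ ^ k := by
  rw [mul_assoc, ← ((PBA.comm2 h.deg (H.map π b)).pow_right k).eq, ← mul_assoc, map_mul]

theorem push_top (a : H B.X) : push π (H.map π a * ξ ^ r) = a :=
  B.ext_left fun b => by rw [J_push_mul, h.mul_map, h.int]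

theorem push_lt {k : ℕ} (hk : k < r) (a : H B.X) : push π (H.map π a * ξ ^ k) = 0 :=
  B.ext_left fun b => by rw [J_push_mul, h.mul_map, h.int_lt hk, zero_mul, map_zero]

theorem ext {M : Type*} [AddCommGroup M] [Module ℂ M] {f g : H E.X →ₗ[ℂ] M}
    (e : ∀ a, ∀ k ≤ r, f (H.map π a * ξ ^ k) = g (H.map π a * ξ ^ k)) : f = g := by
  refine LinearMap.ext fun x => ?_
  obtain ⟨v, rfl⟩ := h.lh.2 x
  simp only [map_sum]
  exact Finset.sum_congr rfl fun k _ => e _ _ (Nat.le_of_lt_succ k.2)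

theorem ind {P : H E.X → Prop} (h0 : P 0) (hadd : ∀ x y, P x → P y → P (x + y))
    (e : ∀ a, ∀ k ≤ r, P (H.map π a * ξ ^ k)) (x : H E.X) : P x := by
  obtain ⟨v, rfl⟩ := h.lh.2 x
  exact Finset.sum_induction _ P hadd h0 fun k _ => e _ _ (Nat.le_of_lt_succ k.2)

/-- linear maps can be defined on the coefficients -/
theorem exists_desc {M : Type*} [AddCommGroup M] [Module ℂ M]
    (g : (Fin (r + 1) → H B.X) →ₗ[ℂ] M) : ∃ f : H E.X →ₗ[ℂ] M, ∀ v, f (PBA.lhL π ξ r v) = g v :=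
  ⟨g ∘ₗ (LinearEquiv.ofBijective (PBA.lhL π ξ r) h.lh).symm.toLinearMap, fun v =>
    congrArg g ((LinearEquiv.ofBijective (PBA.lhL π ξ r) h.lh).symm_apply_apply v)⟩

theorem exists_deg {d : ℤ} {x : H E.X} (hx : H.IsDeg d x) : ∃ v : Fin (r + 1) → H B.X,
    (∀ k : Fin (r + 1), H.IsDeg (d - 2 * (k : ℕ)) (v k)) ∧ PBA.lhL π ξ r v = x := by
  obtain ⟨v, rfl⟩ := h.lh.2 x
  exact ⟨_, fun k => H.isDeg_comp _ _, (PBA.comp_lhL π h.deg d v).symm.trans hx.comp_eq⟩

theorem ev_rp : (PBA.rp (List.ofFn c)).eval₂ (H.map π) ξ = 0 :=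
  (PBA.ev_rp (fun _ => PBA.comm2 h.deg _) c).trans h.rel

omit h in
theorem rp_mon (c : Fin (r + 1) → H B.X) : (PBA.rp (List.ofFn c)).natDegree ≤ r + 1 ∧
    (PBA.rp (List.ofFn c)).coeff (r + 1) = 1 := by
  simpa only [List.length_ofFn] using PBA.rp_mon (List.ofFn c)

theorem pow_succ_eq : ξ ^ (r + 1) =
    -∑ k ∈ Finset.range (r + 1), H.map π ((PBA.rp (List.ofFn c)).coeff k) * ξ ^ k := by
  have h1 := h.ev_rp
  rw [Polynomial.eval₂_eq_sum_range' _ (Nat.lt_succ_of_le (rp_mon c).1), Finset.sum_range_succ,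
    (rp_mon c).2, map_one, one_mul] at h1
  exact eq_neg_of_add_eq_zero_right h1

/-- **lifting the grading** -/
theorem exists_nu {ν : Module.End ℂ (H B.X)} (hν : B.Nu ν) (hc : ∀ l, Cm ν (c l)) :
    ∃ ν' : Module.End ℂ (H E.X), E.Nu ν' ∧ (∀ a, H.map π (ν a) = ν' (H.map π a)) ∧ Cm ν' ξ ∧
      ∀ x, H.IsDeg 2 x → Cm ν x → Cm ν' (H.map π x) := by
  obtain ⟨ν', h1⟩ := h.exists_desc (PBA.lhL π ξ r ∘ₗ ν.compLeft _)
  have h2 : ∀ a, ∀ k ≤ r, ν' (H.map π a * ξ ^ k) = H.map π (ν a) * ξ ^ k := fun a k hk => by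
    have e := PBA.lhL_single π ξ (⟨k, Nat.lt_succ_of_le hk⟩ : Fin (r + 1))
    rw [← e, ← e, h1, LinearMap.comp_apply]
    congr 1
    funext j
    exact Pi.apply_single (fun _ => ν) (fun _ => map_zero ν) _ a j
  have h3 : ∀ a, H.map π (ν a) = ν' (H.map π a) := fun a => by
    simpa using (h2 a 0 (Nat.zero_le r)).symm
  have hx : ∀ a k, ξ * (H.map π a * ξ ^ k) = ξ ^ (k + 1) * H.map π a := fun a k => by
    rw [((PBA.comm2 h.deg (H.map π a)).pow_right k).eq, ← mul_assoc, ← pow_succ']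
  have h4 : Cm ν' ξ := by
    refine h.ind (by simp) (fun x y hx hy => by rw [mul_add, map_add, map_add, hx, hy, mul_add])
      fun a k hk => ?_
    rw [h2 a k hk, hx, hx]
    rcases hk.lt_or_eq with hk | rfl
    · rw [← ((PBA.comm2 h.deg (H.map π a)).pow_right _).eq, h2 a _ hk,
        ((PBA.comm2 h.deg _).pow_right _).eq]
    · rw [h.pow_succ_eq, neg_mul, neg_mul, map_neg, Finset.sum_mul, Finset.sum_mul, map_sum]
      refine congrArg _ (Finset.sum_congr rfl fun j hj => ?_)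
      have h5 : Cm ν ((PBA.rp (List.ofFn c)).coeff j) :=
        PBA.rp_coeff Cm.zero Cm.one (fun _ _ => Cm.add) (fun _ _ => Cm.mul) _
          (List.forall_mem_ofFn_iff.2 hc) j
      rw [h.mul_map, h.mul_map, h2 _ _ (Nat.le_of_lt_succ (Finset.mem_range.1 hj)), h5]
  have h5 : ∀ b x, E.J (ν' x * H.map π b) = -E.J (x * H.map π (ν b)) := fun b => by
    refine h.ind (by simp) (fun x y hx hy => by
      rw [map_add, add_mul, add_mul, map_add, map_add, hx, hy, neg_add]) fun a k hk => ?_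
    rw [h2 a k hk, h.mul_map, h.mul_map]
    rcases hk.lt_or_eq with hk | rfl
    · rw [h.int_lt hk, h.int_lt hk, neg_zero]
    · rw [h.int, h.int, hν.skew]
  refine ⟨ν', ⟨fun d x hx => ?_, fun x => ?_, ?_⟩, h3, h4, fun x _ hx => ?_⟩
  · obtain ⟨v, hv, rfl⟩ := h.exists_deg hx
    rw [h1]
    exact PBA.lhL_deg π h.deg fun k => hν.deg _ _ (hv k)
  · refine h.ind (by simp) (fun y z hy hz => by
      rw [map_add, mul_add, mul_add, map_add, map_add, hy, hz, neg_add]) fun b k hk => ?_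
    have e : ∀ y z : H E.X, y * (z * ξ ^ k) = ξ ^ k * y * z := fun y z => by
      rw [← mul_assoc, ((PBA.comm2 h.deg (y * z)).pow_right k).eq, mul_assoc]
    rw [h2 b k hk, e, e, ← h4.pow k, h5]
  · rw [← map_one (H.map π), ← h3, hν.one, map_zero]
  · refine h.ind (by simp) (fun y z hy hz => by rw [mul_add, map_add, map_add, hy, hz, mul_add])
      fun a k hk => ?_
    rw [← mul_assoc, ← map_mul, h2 _ k hk, h2 _ k hk, hx, map_mul, mul_assoc]

/-- compatibility of the lifts with a map `f` to `E` -/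
theorem map_nu {ν : Module.End ℂ (H B.X)} {ν' : Module.End ℂ (H E.X)}
    (e : ∀ a, H.map π (ν a) = ν' (H.map π a)) (hξ : Cm ν' ξ) {T : Type} [TopologicalSpace T]
    (f : C(T, E.X)) {νT : Module.End ℂ (H T)}
    (eT : ∀ a, H.map f (H.map π (ν a)) = νT (H.map f (H.map π a))) (hT : Cm νT (H.map f ξ))
    (x : H E.X) : H.map f (ν' x) = νT (H.map f x) := by
  refine h.ind (P := fun x => H.map f (ν' x) = νT (H.map f x)) (by simp)
    (fun y z hy hz => by simp only [map_add, hy, hz]) (fun a k _ => ?_) x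
  rw [((PBA.comm2 h.deg (H.map π a)).pow_right k).eq, hξ.pow k, ← e, map_mul, map_mul, map_pow,
    hT.pow k, eT]

/-- **caps**: `E` is the hyperplane bundle in `Q` where the last coordinate vanishes -/
theorem exists_sec {c₀ : H B.X} {πQ : C(Q.X, B.X)} {ξQ : H Q.X} (hQ : PB B Q (Fin.snoc c c₀) πQ ξQ)
    {j : C(E.X, Q.X)} (e : ∀ x, πQ (j x) = π x) (eξ : H.map j ξQ = ξ) :
    ∃ sec : H E.X →ₗ[ℂ] H Q.X, (∀ k x, H.IsDeg k x → H.IsDeg k (sec x)) ∧
      (∀ x, H.map j (sec x) = x) ∧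
      (∀ a, ∀ k ≤ r, sec (H.map π a * ξ ^ k) = H.map πQ a * ξQ ^ k) ∧
      (Injective fun z => H.map πQ z * (List.ofFn fun l => ξQ + H.map πQ (c l)).prod) ∧
      ∀ t, H.map j t = 0 ↔ ∃ z, H.map πQ z * (List.ofFn fun l => ξQ + H.map πQ (c l)).prod = t := by
  obtain ⟨sec, h1⟩ := h.exists_desc (PBA.lhL πQ ξQ r)
  have e' : ∀ a, H.map j (H.map πQ a) = H.map π a := fun a => by
    rw [H.map_map, show πQ.comp j = π from ContinuousMap.ext e]
  have hx : ∀ b, Commute (H.map π b) ξ := fun _ => PBA.comm2 h.deg _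
  have hxQ : ∀ b, Commute (H.map πQ b) ξQ := fun _ => PBA.comm2 hQ.deg _
  have hj : ∀ p : Polynomial (H B.X), H.map j (p.eval₂ (H.map πQ) ξQ) = p.eval₂ (H.map π) ξ :=
    fun p => by
      rw [Polynomial.hom_eval₂, eξ, show (H.map j).comp (H.map πQ) = H.map π from RingHom.ext e']
  obtain ⟨i1, s1⟩ := PBA.lh_iff.1 hQ.lh
  rw [← PBA.ev_rp hxQ]
  refine ⟨sec, fun d x hx => ?_, fun x => ?_, fun a k hk => ?_, fun z z' hz => ?_,
    fun t => ⟨fun ht => ?_, ?_⟩⟩
  · obtain ⟨v, hv, rfl⟩ := h.exists_deg hx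
    rw [h1]
    exact PBA.lhL_deg πQ hQ.deg hv
  · obtain ⟨v, rfl⟩ := h.lh.2 x
    refine (congrArg _ (h1 v)).trans ?_
    simp only [PBA.lhL_apply, map_sum, map_mul, map_pow, e', eξ]
  · rw [← PBA.lhL_single π ξ (⟨k, Nat.lt_succ_of_le hk⟩ : Fin (r + 1)), h1, PBA.lhL_single]
  · have h2 := i1 (Polynomial.C (z - z') * PBA.rp (List.ofFn c))
      ((Polynomial.natDegree_C_mul_le _ _).trans (rp_mon c).1)
      (by rw [PBA.ev_C_mul hxQ, map_sub, sub_mul, sub_eq_zero]; exact hz)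
    have h3 := congrArg (Polynomial.coeff · (r + 1)) h2
    simp only [Polynomial.coeff_C_mul, (rp_mon c).2, mul_one, Polynomial.coeff_zero] at h3
    exact sub_eq_zero.1 h3
  · obtain ⟨p, hp, rfl⟩ := s1 t
    have h2 := (PBA.lh_iff.1 h.lh).1 _ (PBA.deg_sub hp (rp_mon c).1 (rp_mon c).2) (by
      rw [Polynomial.eval₂_sub, PBA.ev_C_mul hx, h.ev_rp, mul_zero, sub_zero, ← hj, ht])
    exact ⟨p.coeff (r + 1), by rw [← PBA.ev_C_mul hxQ, ← sub_eq_zero.1 h2]⟩
  · rintro ⟨z, rfl⟩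
    rw [map_mul, hj, h.ev_rp, mul_zero]

end PB

/-- A cap in the form of the interface. -/
theorem Pc.exists_prj {D : PS} {c : H D.X} {ε : ℂ} (Y : Pc D c ε) {Z : Type} [TopologicalSpace Z]
    {sec : H D.X →ₗ[ℂ] H Y.X} {nul : H Z →ₗ[ℂ] H Y.X} (hsec : IsEv (parH _) (parH _) sec)
    (hnul : IsEv (parH _) (parH _) nul) (e : ∀ u, H.map Y.j (sec u) = u) (inj : Injective nul)
    (ker : ∀ t, H.map Y.j t = 0 ↔ ∃ z, nul z = t) :
    ∃ prj : H Y.X →ₗ[ℂ] H Z, IsEv (parH _) (parH _) prj ∧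
      ∀ t, sec (H.map Y.j t) + nul (prj t) = t := by
  obtain ⟨g, hg⟩ := nul.exists_leftInverse_of_injective (LinearMap.ker_eq_bot.2 inj)
  have h1 : ∀ t, nul (g (t - sec (H.map Y.j t))) = t - sec (H.map Y.j t) := fun t => by
    obtain ⟨z, hz⟩ := (ker (t - sec (H.map Y.j t))).1 (by rw [map_sub, e, sub_self])
    rw [← hz, show g (nul z) = z from LinearMap.congr_fun hg z]
  refine ⟨g ∘ₗ (LinearMap.id - sec ∘ₗ pl Y.j), fun t => inj ?_, fun t => ?_⟩
  · change nul ((parH Z).σ (g (t - sec (H.map Y.j t)))) =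
      nul (g ((parH Y.X).σ t - sec (H.map Y.j ((parH Y.X).σ t))))
    rw [← hnul, h1, h1, map_sub, hsec]
    exact congrArg (fun u => (parH Y.X).σ t - sec u) (isEv_pl Y.j t)
  · change _ + nul (g (t - sec (H.map Y.j t))) = t
    rw [h1, add_sub_cancel]

/-- A cap in the form of the interface. -/
@[reducible] noncomputable def Pc.cz {D : PS} {c : H D.X} {ε : ℂ} (Y : Pc D c ε) (hc : H.IsDeg 2 c)
    {Z : Type} [TopologicalSpace Z] {sec : H D.X →ₗ[ℂ] H Y.X} {nul : H Z →ₗ[ℂ] H Y.X}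
    (hsec : IsEv (parH _) (parH _) sec) (hnul : IsEv (parH _) (parH _) nul)
    (e : ∀ u, H.map Y.j (sec u) = u) (inj : Injective nul)
    (ker : ∀ t, H.map Y.j t = 0 ↔ ∃ z, nul z = t) : Deg.Cz (D.dv hc) ε where
  toPz := Y.pz hc
  Z := H Z
  pz := parH Z
  sec := sec
  nul := nul
  prj := (Y.exists_prj hsec hnul e inj ker).choose
  hsec := hsec
  hnul := hnul
  hprj := (Y.exists_prj hsec hnul e inj ker).choose_spec.1
  res_sec := e
  res_nul := fun z => (ker _).2 ⟨z, rfl⟩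
  split := (Y.exists_prj hsec hnul e inj ker).choose_spec.2

end Vale.Agent.P269.Coh
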