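import Vale.Agent.P269.Coh.Is
import Vale.Agent.P269.Coh.PBA
import Vale.Agent.P269.Coh.Ad

/-!
# P269, cohomological packages: gradings and their transport
-/

set_option linter.unusedSectionVars false

namespace Vale.Agent.P269

open Set Function Topology Filter P291Z Holo Mono Coh Tq Fock

namespace Coh

/-- `f` is compatible with the gradings `ν` (target) and `ν'` (source). -/
def Cg {X Y : Type} [TopologicalSpace X] [TopologicalSpace Y] (f : C(X, Y))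
    (ν : Module.End ℂ (H Y)) (ν' : Module.End ℂ (H X)) : Prop :=
  ∀ b, H.map f (ν b) = ν' (H.map f b)

namespace Cg

variable {X Y Z : Type} [TopologicalSpace X] [TopologicalSpace Y] [TopologicalSpace Z]
  {f f' : C(X, Y)} {g : C(Y, Z)} {k : C(X, Z)} {ν : Module.End ℂ (H Z)}
  {ν' ν₁ : Module.End ℂ (H Y)} {ν'' ν₂ : Module.End ℂ (H X)}

theorem zero : Cg f 0 0 := fun _ => map_zero (H.map f)

theorem comp (h : Cg g ν ν') (h' : Cg f ν' ν'') (e : ∀ x, g (f x) = k x) : Cg k ν ν'' := fun b => by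
  rw [← PL.map_map' e, ← PL.map_map' e, h, h']

theorem of_surj (h : Cg k ν ν'') (h' : Cg g ν ν') (e : ∀ x, g (f x) = k x)
    (hs : Surjective (H.map g)) : Cg f ν' ν'' := hs.forall.2 fun b => by
  rw [← h', PL.map_map' e, PL.map_map' e, h]

theorem of_inj (h : Cg k ν ν'') (h' : Cg f ν' ν'') (e : ∀ x, g (f x) = k x)
    (hi : Injective (H.map f)) : Cg g ν ν' := fun b => hi (by
  rw [h', PL.map_map' e, PL.map_map' e, h])

theorem congr (h : Cg f ν' ν'') (e : ∀ x, f x = f' x) : Cg f' ν' ν'' :=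
  (ContinuousMap.ext e : f = f') ▸ h

theorem of_id {f : C(X, X)} (e : ∀ x, f x = x) : Cg f ν'' ν'' := fun b => by
  rw [H.map_id e, H.map_id e]

theorem cm (h : Cg f ν' ν'') (hs : Surjective (H.map f)) {x : H Y} (hx : Cm ν' x) :
    Cm ν'' (H.map f x) := hs.forall.2 fun a => by
  rw [← map_mul, ← h, ← h, hx, map_mul]

theorem cm' (h : Cg f ν' ν'') (hi : Injective (H.map f)) {x : H Y} (hx : Cm ν'' (H.map f x)) :
    Cm ν' x := fun a => hi (by
  rw [h, map_mul (H.map f), hx, map_mul (H.map f), h])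

theorem unique (h : Cg f ν' ν'') (h' : Cg f ν' ν₂) (hs : Surjective (H.map f)) : ν'' = ν₂ :=
  LinearMap.ext (hs.forall.2 fun b => (h b).symm.trans (h' b))

theorem unique' (h : Cg f ν' ν'') (h' : Cg f ν₁ ν'') (hi : Injective (H.map f)) : ν' = ν₁ :=
  LinearMap.ext fun b => hi ((h b).trans (h' b).symm)

end Cg

namespace GrA

theorem map_eq {X Y Z : Type} [TopologicalSpace X] [TopologicalSpace Y] [TopologicalSpace Z]
    {f : C(X, Y)} {g : C(Y, Z)} {k : C(X, Z)} (e : ∀ x, g (f x) = k x) :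
    H.map f ∘ H.map g = H.map k := funext (PL.map_map' e)

theorem ad_equiv {X Y : PS} (g : H Y.X ≃ₐ[ℂ] H X.X) (hJ : ∀ a, X.J (g a) = Y.J a)
    {ν : Module.End ℂ (H Y.X)} {ν' : Module.End ℂ (H X.X)} (e : ∀ b, g (ν b) = ν' (g b))
    {x : H Y.X} {l : Multiset ℝ} (A : Ad Y x l ν) : Ad X (g x) l ν' := by
  have hB : ∀ a b, bil X.J (g a) (g b) = bil Y.J a b := fun a b => by
    rw [bil_apply, ← map_mul, hJ, bil_apply]
  have hV : ∀ y, g y ∈ van (g x) X.J ↔ y ∈ van x Y.J := fun y => by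
    simp only [mem_van, ← map_pow, ← map_mul, hJ]
  obtain ⟨m, u, w, a, hF, hd, he, hl⟩ := A.eig
  refine ⟨⟨g.surjective.forall.2 fun y => e y ▸ (hV _).2 (A.skew.mem y),
    g.surjective.forall₂.2 fun y v hv => ?_⟩, m, fun b => g (u b), fun b => g (w b), a,
    ⟨fun b => (hV _).2 (hF.e_mem b), fun b => (hV _).2 (hF.f_mem b),
    g.surjective.forall.2 fun y hy => ?_⟩, fun b => (hB _ _).trans (hd b),
    fun b => by rw [← e, he, map_smul], hl⟩
  · rw [← e, ← e, hB, hB, A.skew.skew y v ((hV v).1 hv)]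
  · simp only [hB, ← map_smul, ← map_sum, hF.expand y ((hV y).1 hy)]

end GrA

namespace PS

/-- `f` induces an isomorphism which preserves the integral. -/
structure Is (X Y : PS) (f : C(X.X, Y.X)) : Prop where
  bij : Bijective (H.map f)
  n : X.n = Y.n
  J : ∀ b, X.J (H.map f b) = Y.J b

namespace Is

variable {X Y Z D D' : PS} {f : C(X.X, Y.X)} {g : C(Y.X, Z.X)} {k : C(X.X, Z.X)}

theorem comp (h : Is X Y f) (h' : Is Y Z g) (e : ∀ x, g (f x) = k x) : Is X Z k :=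
  ⟨GrA.map_eq e ▸ h.bij.comp h'.bij, h.n.trans h'.n, fun b => by
    rw [← PL.map_map' e, h.J, h'.J]⟩

theorem left (h : Is X Z k) (h' : Is Y Z g) (e : ∀ x, g (f x) = k x) : Is X Y f :=
  ⟨(Bijective.of_comp_iff _ h'.bij).1 ((GrA.map_eq e).symm ▸ h.bij), h.n.trans h'.n.symm,
    h'.bij.2.forall.2 fun b => by rw [PL.map_map' e, h.J, h'.J]⟩

theorem right (h : Is X Z k) (h' : Is X Y f) (e : ∀ x, g (f x) = k x) : Is Y Z g :=
  ⟨(Bijective.of_comp_iff' h'.bij _).1 ((GrA.map_eq e).symm ▸ h.bij), h'.n.symm.trans h.n,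
    fun b => by rw [← h'.J, PL.map_map' e, h.J]⟩

theorem of_id {f : C(X.X, X.X)} (e : ∀ x, f x = x) : Is X X f :=
  ⟨(funext (H.map_id e) : ⇑(H.map f) = id) ▸ bijective_id, rfl, fun b => by rw [H.map_id e]⟩

variable (h : Is X Y f) {ν : Module.End ℂ (H Y.X)} {ν' : Module.End ℂ (H X.X)}
include h

theorem isDeg_iff {m : ℤ} {b : H Y.X} : H.IsDeg m (H.map f b) ↔ H.IsDeg m b :=
  ⟨fun hb => (h.bij.1 (by rw [← H.comp_map, hb.comp_eq]) : H.comp m b = b) ▸ H.isDeg_comp m b,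
    fun hb => hb.map f⟩

theorem nu_iff (e : Cg f ν ν') : X.Nu ν' ↔ Y.Nu ν := by
  refine ⟨fun k => ⟨fun m x hx => h.isDeg_iff.1 ?_, fun a b => ?_, h.bij.1 ?_⟩, fun k => ?_⟩
  · rw [e]
    exact k.deg m _ (hx.map f)
  · rw [← h.J, ← h.J, map_mul (H.map f), map_mul (H.map f), e, e, k.skew]
  · rw [e, map_one, k.one, map_zero]
  · obtain ⟨ν₁, h1, h2, -⟩ := k.exists_map h.bij h.J
    exact Cg.unique h2 e h.bij.2 ▸ h1

theorem exists_map (ν : Module.End ℂ (H Y.X)) : ∃ ν', Cg f ν ν' :=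
  let e := LinearEquiv.ofBijective (pl f) h.bij
  ⟨e.conj ν, fun b => congrArg (fun x => H.map f (ν x)) (e.symm_apply_apply b).symm⟩

theorem exists_comap (ν' : Module.End ℂ (H X.X)) : ∃ ν, Cg f ν ν' :=
  let e := LinearEquiv.ofBijective (pl f) h.bij
  ⟨e.symm.conj ν', fun b => e.apply_symm_apply (ν' (H.map f b))⟩

theorem map_mu0 (b : H Y.X) : H.map f (Y.mu0 b) = X.mu0 (H.map f b) :=
  PAA.pl_mu0 f h.n b

theorem mem_amb {x y : H Y.X} : H.map f y ∈ amb (H.map f x) ↔ y ∈ amb x :=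
  ⟨fun hy => let ⟨_, hp, e⟩ := PAA.exists_amb f hy; h.bij.1 e ▸ hp, map_amb f⟩

theorem mem_van {x y : H Y.X} : H.map f y ∈ van (H.map f x) X.J ↔ y ∈ van x Y.J := by
  simp only [Mono.mem_van, ← map_pow, ← map_mul, h.J]

theorem lf_iff {x : H Y.X} : Lf X (H.map f x) ↔ Lf Y x := by
  refine ⟨fun L => ⟨h.isDeg_iff.1 L.deg, fun k hk y hy => h.mem_amb.1
    (L.amb k (h.n ▸ hk) _ (hy.map f)), fun m hm => ?_⟩, fun L => L.map h.bij h.n h.J⟩
  rw [← h.J, map_pow]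
  exact L.norm m (hm.trans h.n.symm)

theorem ad_iff {x : H Y.X} {l : Multiset ℝ} (e : Cg f ν ν') :
    Ad X (H.map f x) l ν' ↔ Ad Y x l ν := by
  let g := AlgEquiv.ofBijective (H.mapA f) h.bij
  refine ⟨fun k => g.symm_apply_apply x ▸ GrA.ad_equiv g.symm (fun a => ?_) (fun a => ?_) k,
    GrA.ad_equiv g h.J e⟩
  · rw [← h.J]
    exact congrArg _ (g.apply_symm_apply a)
  · rw [g.symm_apply_eq]
    exact ((e _).trans (congrArg ν' (g.apply_symm_apply a))).symm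

theorem str_eq (e : Cg f ν ν') (t : ℂ) (m : ℕ) :
    X.coh.fr.str ((X.mu0 + ν' + t • 1) ^ m) = Y.coh.fr.str ((Y.mu0 + ν + t • 1) ^ m) := by
  refine str_congr (C := Y.coh) (C' := X.coh) (LinearEquiv.ofBijective (pl f) h.bij) (isEv_pl f)
    fun a => ?_
  change H.map f (((Y.mu0 + ν + t • 1) ^ m) a) = ((X.mu0 + ν' + t • 1) ^ m) (H.map f a)
  induction m with
  | zero => rfl
  | succ m ih =>
    rw [pow_succ', pow_succ', Module.End.mul_apply, Module.End.mul_apply, ← ih]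
    generalize ((Y.mu0 + ν + t • 1) ^ m) a = b
    change H.map f (Y.mu0 b + ν b + t • b) = X.mu0 _ + ν' _ + t • H.map f b
    rw [map_add, map_add, h.map_mu0, e, H.map_smulC]

theorem push_map (b : H Y.X) : push f (H.map f b) = b := push_map_of_J h.J b

theorem map_push (a : H X.X) : H.map f (push f a) = a := by
  obtain ⟨b, rfl⟩ := h.bij.2 a
  rw [h.push_map]

/-- base change along isomorphisms -/
theorem map_push_sq {j : C(D.X, Y.X)} {j' : C(D'.X, X.X)} {q : C(D'.X, D.X)} (hq : Is D' D q)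
    (e : ∀ x, f (j' x) = j (q x)) (a : H D.X) :
    H.map f (push j a) = push j' (H.map q a) :=
  X.ext_left (h.bij.2.forall.2 fun b => by
    rw [← map_mul, h.J, J_push_mul, J_push_mul, ← hq.J, map_mul, H.map_map,
      PL.map_map' (k := j.comp q) e])

theorem pb_iff {B : PS} {r : ℕ} {c : Fin (r + 1) → H B.X} {π : C(Y.X, B.X)} {π' : C(X.X, B.X)}
    (e : ∀ x, π (f x) = π' x) {ξ : H Y.X} : PB B X c π' (H.map f ξ) ↔ PB B Y c π ξ := by
  refine ⟨fun P => ⟨h.n.symm.trans P.dim, h.isDeg_iff.1 P.deg, P.degc,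
    (Bijective.of_comp_iff' h.bij _).1 ?_, h.bij.1 ?_, fun a => ?_⟩,
    fun P => (ContinuousMap.ext e : π.comp f = π') ▸ P.comp h.bij h.n h.J⟩
  · have e2 : (H.map f ∘ fun v : Fin (r + 1) → H B.X => ∑ k, H.map π (v k) * ξ ^ (k : ℕ)) =
        fun v : Fin (r + 1) → H B.X => ∑ k, H.map π' (v k) * H.map f ξ ^ (k : ℕ) := by
      funext v
      simp only [comp_apply, map_sum, map_mul, map_pow, PL.map_map' e]
    rw [e2]
    exact P.lh
  · rw [map_list_prod, List.map_ofFn, map_zero, ← P.rel]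
    refine congrArg (fun v => (List.ofFn v).prod) (funext fun l => ?_)
    rw [comp_apply, map_add, PL.map_map' e]
  · rw [← h.J, map_mul, map_pow, PL.map_map' e, P.int]

theorem pb_base_iff {E : PS} {r : ℕ} {c : Fin (r + 1) → H Y.X} {π : C(E.X, Y.X)} {π' : C(E.X, X.X)}
    (e : ∀ x, f (π' x) = π x) {ξ : H E.X} :
    PB X E (fun l => H.map f (c l)) π' ξ ↔ PB Y E c π ξ := by
  refine ⟨fun P => ⟨by rw [P.dim, h.n], P.deg, fun l => h.isDeg_iff.1 (P.degc l), ?_,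
    by simpa only [PL.map_map' e] using P.rel, fun a => ?_⟩, fun P => P.base h.bij h.n h.J e⟩
  · have e2 : ((fun v : Fin (r + 1) → H X.X => ∑ k, H.map π' (v k) * ξ ^ (k : ℕ)) ∘
        fun v : Fin (r + 1) → H Y.X => H.map f ∘ v) =
        fun v : Fin (r + 1) → H Y.X => ∑ k, H.map π (v k) * ξ ^ (k : ℕ) := by
      funext v
      simp only [comp_apply, PL.map_map' e]
    rw [← e2]
    exact P.lh.comp (h.bij.comp_left (α := Fin (r + 1)))
  · rw [← PL.map_map' e, P.int, h.J]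

end Is

end PS

/-- the lift of a grading to a projective bundle is unique -/
theorem PB.nu_unique {B E : PS} {r : ℕ} {c : Fin (r + 1) → H B.X} {π : C(E.X, B.X)} {ξ : H E.X}
    (h : PB B E c π ξ) {ν : Module.End ℂ (H B.X)} {ν₁ ν₂ : Module.End ℂ (H E.X)} (e₁ : Cg π ν ν₁)
    (e₂ : Cg π ν ν₂) (c₁ : Cm ν₁ ξ) (c₂ : Cm ν₂ ξ) : ν₁ = ν₂ := h.ext fun a k _ => by
  rw [((PBA.comm2 h.deg (H.map π a)).pow_right k).eq, c₁.pow k, c₂.pow k, ← e₁, ← e₂]

end Coh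

variable {S Λ R J K S' Λ' R' J' K' : Type} [Fintype S] [Fintype Λ] [Fintype R] [Fintype J]
  [Fintype K] [Fintype S'] [Fintype Λ'] [Fintype R'] [Fintype J'] [Fintype K']

theorem Tq.QM.is {A A' W W' : Type} [NormedRing A] [NormedAlgebra ℂ A] [NormedAddCommGroup W]
    [NormedSpace ℂ W] [NormedRing A'] [NormedAlgebra ℂ A'] [NormedAddCommGroup W']
    [NormedSpace ℂ W'] [FiniteDimensional ℂ A] [FiniteDimensional ℂ W] [FiniteDimensional ℂ A']
    [FiniteDimensional ℂ W'] {act : A → W → W} {act' : A' → W' → W'} {S : Set W} {S' : Set W'}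
    {f : W → W'} {θ : A → A'} [IsAct act univ] [IsAct act' univ] {n m : ℤ} (h : QM act S n)
    (h' : QM act' S' m) (e : n = m) (φ : Hol act act' S S' θ f) (hb : Bijective φ.q) :
    PS.Is h.ps h'.ps φ.q := by
  subst e
  exact ⟨h.bij_map h' φ hb, rfl, h.J_map h' φ hb⟩

namespace Wt

variable {W : Wt S Λ R J} {W' : Wt S' Λ' R' J'} {A : Set ((Λ → ℂ) × (J → ℂ))}
  {A' : Set ((Λ' → ℂ) × (J' → ℂ))} {n n' : ℤ} {h : W.QM A n} {h' : W'.QM A' n'}
  {ν : Module.End ℂ (H (W.X A))} {ν' : Module.End ℂ (H (W'.X A'))}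

/-- A grading which commutes with all line bundles. -/
structure Gr (h : W.QM A n) (ν : Module.End ℂ (H (W.X A))) : Prop where
  nu : h.ps.Nu ν
  cm : ∀ χ, Cm ν (W.lc A 0 χ)

/-- The Virasoro data with `ρ = c₁ (χ)`. -/
noncomputable def Gr.vd (g : Gr h ν) (χ : R → ℤ) : VD h.ps.coh.fr :=
  PS.vd g.nu (h.lc_deg 0 χ) (g.cm χ)

theorem Gr.vd_μ (g : Gr h ν) (χ : R → ℤ) : (g.vd χ).μ = h.ps.mu0 + ν := rfl

theorem Gr.vd_ρ (g : Gr h ν) (χ : R → ℤ) : (g.vd χ).ρ = ml (W.lc A 0 χ) := rfl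

theorem Gr.zero (h : W.QM A n) : Gr h 0 := ⟨PS.Nu.zero, fun _ _ => (mul_zero _).symm⟩

theorem Gr.map (g : Gr h' ν') {f : C(W.X A, W'.X A')} (i : PS.Is h.ps h'.ps f) (e : Cg f ν' ν)
    (hl : ∀ χ, ∃ χ', H.map f (W'.lc A' 0 χ') = W.lc A 0 χ) : Gr h ν :=
  ⟨(i.nu_iff e).2 g.nu, fun χ => let ⟨χ', k⟩ := hl χ; k ▸ e.cm i.bij.2 (g.cm χ')⟩

theorem Gr.comap (g : Gr h ν) {f : C(W.X A, W'.X A')} (i : PS.Is h.ps h'.ps f) (e : Cg f ν' ν)
    (hl : ∀ χ', ∃ χ, H.map f (W'.lc A' 0 χ') = W.lc A 0 χ) : Gr h' ν' :=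
  ⟨(i.nu_iff e).1 g.nu, fun χ' => let ⟨χ, k⟩ := hl χ'; e.cm' i.bij.1 (k ▸ g.cm χ)⟩

theorem QM.lc_add (h : W.QM A n) (χ χ' : R → ℤ) :
    W.lc A 0 (χ + χ') = W.lc A 0 χ + W.lc A 0 χ' := by
  have := h.fp
  rw [← Wt.lc_add, add_zero]

theorem QM.lc_neg (h : W.QM A n) (χ : R → ℤ) : W.lc A 0 (-χ) = -W.lc A 0 χ := by
  have := h.fp
  rw [← Wt.lc_neg, neg_zero]

theorem QM.lc_zsmul (h : W.QM A n) (m : ℤ) (χ : R → ℤ) :
    W.lc A 0 (m • χ) = m • W.lc A 0 χ := by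
  have := h.fp
  rw [← Wt.lc_zsmul, smul_zero]

theorem map_qinc_lc {A₁ : Set _} (h₁ : FP W.actT A₁) (h₂ : FP W.actT A) (e : A₁ ⊆ A) (ψ χ) :
    H.map (qinc W.actT e) (W.lc A ψ χ) = W.lc A₁ ψ χ := Wt.rs_lc e ψ χ

end Wt

namespace Fam

variable {T : Fam Empty Λ R J K} {n : ℤ} (hT : T.QM T.cone n) {Y : PS} {q : C(T.X T.cone, Y.X)}
  (i : PS.Is hT.ps Y q)
include i

theorem isCoh_pl : T.IsCoh Y.coh (pl q) := by
  refine ⟨i.bij, isEv_pl q, fun a b => ?_, ?_⟩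
  · rw [PS.η_eq, ← i.J, map_mul]
    exact hT.J_eq _
  · rw [PS.one_eq]
    exact map_one (H.map q)

/-- The standard data on a model `T` of `Y`. -/
theorem std_pl {ν : Module.End ℂ (H Y.X)} (hν : Y.Nu ν) {ρ : H Y.X} (hρ : H.IsDeg 2 ρ) (hm : Cm ν ρ)
    (e : H.map q ρ = T.c1 _) (hc : ∀ χ, ∃ x, Cm ν x ∧ H.map q x = T.lc _ 0 χ) :
    T.Std Y.coh (pl q) (PS.vd hν hρ hm) :=
  { isCoh_pl hT i with
    ρ := fun v => by
      change H.map q (ρ * v) = T.c1 _ * H.map q v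
      rw [map_mul, e]
    deg := fun k v hv => H.IsDeg.map ((H.deg _ k).add_mem
      (PS.A1.mu0_deg k v (i.isDeg_iff.1 hv)) (hν.deg k v (i.isDeg_iff.1 hv))) q
    lc := fun χ v v' e' => by
      obtain ⟨x, hx, ex⟩ := hc χ
      obtain rfl : v' = x * v := i.bij.1 (by rw [map_mul, ex]; exact e')
      change H.map q (Y.mu0 (x * v) + ν (x * v)) =
        T.lc _ 0 χ * H.map q (Y.mu0 v + ν v) + H.map q (x * v)
      rw [PS.mu0_mul (i.isDeg_iff.1 (ex ▸ hT.lc_deg 0 χ)), hx, ← ex, ← map_mul, ← map_add, mul_add,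
        add_right_comm] }

end Fam

/-- the hypothesis on the gradings in `St.Proj` -/
theorem Coh.PS.mu_proj {X X' : Type} [TopologicalSpace X] [TopologicalSpace X'] {Y Y' : PS}
    {q : C(X, Y.X)} {q' : C(X', Y'.X)} {p : C(X', X)} {π : C(Y'.X, Y.X)}
    (sq : ∀ x, π (q' x) = q (p x)) (hi : Injective (H.map q')) {r : ℕ} (hn : Y'.n = Y.n + r)
    {ν : Module.End ℂ (H Y.X)} {ν' : Module.End ℂ (H Y'.X)} (e : Cg π ν ν') (v : H Y.X)
    (v' u' : H Y'.X) (hv : H.map q' v' = H.map p (H.map q v))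
    (hu : H.map q' u' = H.map p (H.map q ((Y.mu0 + ν) v))) :
    (Y'.mu0 + ν') v' = u' - (r / 2 : ℂ) • v' := by
  have k : ∀ a, H.map q' (H.map π a) = H.map p (H.map q a) := fun a => by
    rw [PL.map_map' (k := q.comp p) sq, H.map_map]
  obtain rfl : v' = H.map π v := hi (hv.trans (k _).symm)
  obtain rfl : u' = H.map π ((Y.mu0 + ν) v) := hi (hu.trans (k _).symm)
  have h := PS.mu0_shift (X := Y) (Y := Y') (f := pl π) (s := 0)
    (fun d x hx => by rw [add_zero]; exact hx.map π) v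
  have hr : (((0 : ℤ) : ℂ) + Y.n - Y'.n) / 2 = -(r / 2) := by
    rw [hn]
    push_cast
    ring
  rw [hr, neg_smul] at h
  change Y'.mu0 (pl π v) + ν' (H.map π v) = H.map π (Y.mu0 v + ν v) - (r / 2 : ℂ) • pl π v
  rw [h, ← e, map_add, sub_eq_add_neg, add_right_comm]
  rfl

end Vale.Agent.P269
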