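import Vale.Agent.P269.Coh.DgF
import Vale.Agent.P269.Coh.Gr
import Vale.Agent.P269.Kit.Pre
import Vale.Agent.P269.Asm.Kap
import Vale.Agent.P269.Asm.QC1

/-!
# P269, cohomological packages: the spaces of the four degenerations
-/

set_option linter.unusedSectionVars false

namespace Vale.Agent.P269.Pre

open Set Function Topology Filter P291Z Holo Mono Coh Tq Fock MvPolynomial

variable {R J K : Type} [Fintype R] [Fintype J] [Fintype K] [DecidableEq R] (P : Pre R J K)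

/-- The dimension of the divisor. -/
def n (_P : Pre R J K) : ℤ := Fintype.card J - Fintype.card K - Fintype.card R - 2

/-- The total spaces. -/
abbrev AT (e e' : Bool) (A : Set ℂ) : Set ((Option Empty → ℂ) × (P.QJ → ℂ)) := (P.fam e e').cT A

/-- The normal class of the divisor in the left pieces. -/
noncomputable abbrev nc : H (P.W.X P.AD) := P.W.lc P.AD 0 (P.W.w P.c)

/-- The characters of the logarithmic anticanonical bundles. -/
noncomputable def κ (e e' : Bool) : R ⊕ Bool → ℤ :=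
  P.up (P.lev univ).κ₁ + cond e 0 (P.W.w P.y) + cond e' 0 (P.W.w P.y')

/-- The fields `x`, `b = z`, `c = z'`, `y = y' = 1`. -/
def sc0 (x : J → ℂ) : J ⊕ Fin 4 → ℂ := Sum.elim x ![x P.z, x P.z', 1, 1]

/-- The point of `P.fam true true` with the old fields `x` and `y = y' = 1`. -/
noncomputable def sc (x : J → ℂ) : (Option Empty → ℂ) × (P.QJ → ℂ) :=
  (lt (x P.z * x P.z'), Sum.elim (P.sc0 x) fun p => ∏ j, P.sc0 x j ^ p.α j)

/-- **The normalisation**: keep the old fields only. -/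
noncomputable def nm (z : (Option Empty → ℂ) × (P.QJ → ℂ)) : (Option Empty → ℂ) × (P.QJ → ℂ) :=
  P.sc (z.2 ∘ P.o)

variable {P}

namespace Cap0

section tr

variable {S Λ R J : Type} [Fintype S] [Fintype Λ] [Fintype R] [Fintype J] {W : Wt S Λ R J}
  {A A₁ A₁' A₂ A₂' D D' X T : Set ((Λ → ℂ) × (J → ℂ))} {n n' m : ℤ} {χ : R → ℤ} {ε : ℂ}

theorem pc_tr (h : W.IsPc A D n (W.lc D 0 χ) ε) (e : D = D') (en : n = n') :
    W.IsPc A D' n' (W.lc D' 0 χ) ε := by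
  subst e en
  exact h

theorem sk_tr (h : W.IsSk A₁ A₂ D X T n (W.lc D 0 χ)) (e₁ : A₁ = A₁') (e₂ : A₂ = A₂') (e : D = D')
    (en : n = n') : W.IsSk A₁' A₂' D' X T n' (W.lc D' 0 χ) := by
  subst e₁ e₂ e en
  exact h

theorem top_tr (h : ∃ s : W.IsSk A₁ A₂ D X T n (W.lc D 0 χ), s.sk.Top) (e₁ : A₁ = A₁')
    (e₂ : A₂ = A₂') (e : D = D') (en : n = n') :
    ∃ s : W.IsSk A₁' A₂' D' X T n' (W.lc D' 0 χ), s.sk.Top := by
  subst e₁ e₂ e en
  exact h

theorem push_tr {x : H (W.X A)} (e : D = D') (k : ∀ (qA : W.QM A n) (qD : W.QM D m) (s : D ⊆ A),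
    PS.push (X := qD.ps) (Y := qA.ps) (qinc W.actT s) 1 = x) (qA : W.QM A n) (qD : W.QM D' m)
    (s : D' ⊆ A) : PS.push (X := qD.ps) (Y := qA.ps) (qinc W.actT s) 1 = x := by
  subst e
  exact k qA qD s

end tr

theorem lc0 {A : Set ((Option Empty → ℂ) × (P.QJ → ℂ))} (fp : FP P.W.actT A) {j : P.QJ}
    (h : ∀ z ∈ A, z.2 j ≠ 0) : P.W.lc A 0 (P.W.w j) = 0 :=
  Subsingleton.elim (P.W.wt j) 0 ▸ Wt.lc_eq_zero h

theorem sc_mem {e e' B Z} {x : J → ℂ} : P.sc x ∈ ((P.fam e e').sub B Z).cone ↔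
    lt (x P.z * x P.z') ∈ B ∧ P.Pt e e' x ![x P.z, x P.z', 1, 1] ∧ ∀ j ∈ Z, (P.sc x).2 j = 0 :=
  fam_mem.trans ⟨fun a => ⟨a.1, a.2.1, a.2.2.2.1⟩, fun a => ⟨a.1, a.2.1, rfl, a.2.2, fun _ => rfl⟩⟩

theorem pt {e e' : Bool} {x : J → ℂ} (hx : x ∈ P.cone) (h : e = false → x P.z = 0)
    (h' : e' = false → x P.z' = 0) : P.Pt e e' x ![x P.z, x P.z', 1, 1] := by
  refine ⟨hx, ?_, ?_, .inl one_ne_zero, .inl one_ne_zero, .inl one_ne_zero⟩
  · cases e
    exacts [h rfl, mul_comm _ _]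
  · cases e'
    exacts [h' rfl, mul_comm _ _]

theorem exists_t {s u : ℂ} (hs : s ≠ 0) (hu : u ≠ 0) : ∃ t : R ⊕ Bool → ℂ, IsUnit t ∧ P.dn t = 1 ∧
    ∀ (z : (Option Empty → ℂ) × (P.QJ → ℂ)) j, (P.W.actT (1, t) z).2 (.inl j) =
      Sum.elim (z.2 ∘ P.o) ![s * z.2 P.b, s⁻¹ * z.2 P.c, u * z.2 P.y, s⁻¹ * u * z.2 P.y'] j := by
  let t : R ⊕ Bool → ℂ := Sum.elim (fun r => if r = P.η then s⁻¹ else 1)
    fun o => cond o (u * s ^ P.β) s
  have ht : IsUnit t := isUnit_pi_iff.2 fun i => by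
    rcases i with r | _ | _
    · simp only [t, Sum.elim_inl]
      split_ifs
      exacts [inv_ne_zero hs, one_ne_zero]
    · exact hs
    · exact mul_ne_zero hu (pow_ne_zero _ hs)
  have hd : P.dn t = 1 := funext fun r => by
    by_cases hr : r = P.η <;> simp [dn, t, hr, hs]
  refine ⟨t, ht, hd, fun z j => ?_⟩
  rw [Wt.actT_snd, chT, Fintype.prod_empty, one_mul]
  rcases j with j | i
  · refine (congrArg (· * _) (prod_up t ht (P.w j))).trans ?_
    simp [hd]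
  · have h1 : ∏ r, t (.inl r) ^ (Pi.single P.η 1 : R → ℤ) r = s⁻¹ := by
      rw [Fintype.prod_eq_single P.η fun r hr => by simp [hr]]
      simp [t]
    fin_cases i
    · simp [qw, Fintype.prod_sum_type, t, b]
    · simp [qw, Fintype.prod_sum_type, t, c]
    · simp [qw, Fintype.prod_sum_type, t, hs, y]
    · simp only [qw, Fintype.prod_sum_type, Fin.reduceFinMk, Sum.elim_inr, Matrix.cons_val,
        Sum.elim_inl, h1]
      simp [t, hs, mul_assoc]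
      exact .inl rfl

/-- the graph fields are determined by the other ones -/
theorem ext_act {t : R ⊕ Bool → ℂ} (ht : IsUnit t) {x : J → ℂ} {z : (Option Empty → ℂ) × (P.QJ → ℂ)}
    (h1 : lt (x P.z * x P.z') = z.1) (h2 : ∀ j, P.sc0 x j = (P.W.actT (1, t) z).2 (.inl j))
    (h3 : ∀ q, z.2 (.inr q) = ∏ j, z.2 (.inl j) ^ q.α j) : P.sc x = P.W.actT (1, t) z := by
  refine Prod.ext (h1.trans (P.W.actL_one _).symm) (funext fun j => ?_)
  rcases j with j | p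
  · exact h2 j
  · have := (P.qW (Λ₀ := Empty) Empty.elim Empty.elim).mon_act ht (z.1, z.2 ∘ .inl) p.wt
    rw [Wt.actT_snd, chT, Fintype.prod_empty, one_mul, h3]
    exact (Finset.prod_congr rfl fun j _ => congrArg (· ^ p.α j) (h2 j)).trans this

end Cap0

open Cap0

theorem dm_eq (e e' : Bool) : (P.fam e e').dm = P.n := by
  simp only [Fam.dm, n, Fintype.card_sum, Fintype.card_fin, Fintype.card_bool]
  push_cast
  ring

theorem sc_o (x : J → ℂ) : (P.sc x).2 ∘ P.o = x := rfl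

theorem nm_sc (x : J → ℂ) : P.nm (P.sc x) = P.sc x := rfl

theorem dn_kt (t : R → ℂ) : P.dn (P.kt t) = t := funext fun r => by
  by_cases h : r = P.η <;> simp [dn, kt, h]

theorem sc_eq_kp {x : J → ℂ} (hx : x ∈ P.dvs) : P.sc x = P.kp x := by
  simp only [sc, kp, sc0, hx.2.1, hx.2.2, mul_zero]

theorem an_sc (x : J → ℂ) : AnalyticAt ℂ P.sc x := by
  have p : ∀ j, AnalyticAt ℂ (fun x : J → ℂ => x j) x := analyticAt_pi_iff.1 analyticAt_id
  have a : ∀ j, AnalyticAt ℂ (fun x => P.sc0 x j) x := by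
    rintro (j | j)
    · exact p j
    · fin_cases j
      exacts [p _, p _, analyticAt_const, analyticAt_const]
  exact (analyticAt_pi_iff.2 fun _ => (p _).mul (p _)).prod (analyticAt_pi_iff.2 (Sum.rec a fun q =>
    Finset.analyticAt_fun_prod _ fun j _ => (a j).fun_pow _))

theorem sc_mem_D {x : J → ℂ} : P.sc x ∈ P.AD ↔ x ∈ P.dvs :=
  ⟨old_pD _, fun hx => sc_eq_kp hx ▸ kp_mem hx false false⟩

theorem sc_mem_L {x : J → ℂ} : P.sc x ∈ P.AL true ↔ x ∈ P.lft :=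
  sc_mem.trans ⟨fun a => ⟨a.2.1.mem, a.2.1.z⟩, fun a => ⟨⟨trivial, mul_eq_zero_of_left a.2 _⟩,
    pt a.1 (fun _ => a.2) nofun, fun _ e => e ▸ a.2⟩⟩

theorem sc_mem_R {x : J → ℂ} : P.sc x ∈ P.AR true ↔ x ∈ P.mem false 0 :=
  sc_mem.trans ⟨fun a => ⟨a.2.1.mem, a.2.1.z'⟩, fun a => ⟨⟨trivial, mul_eq_zero_of_right _ a.2⟩,
    pt a.1 nofun fun _ => a.2, fun _ e => e ▸ a.2⟩⟩

theorem sc_mem_X {x : J → ℂ} {t : ℂ} : P.sc x ∈ P.AX true true t ↔ x ∈ P.mem true t :=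
  sc_mem.trans ⟨fun a => ⟨a.2.1.mem, a.1.2⟩, fun a => ⟨⟨trivial, a.2⟩, pt a.1 nofun nofun,
    fun _ e => e.elim⟩⟩

theorem o_mem {e e' B Z z} (hz : z ∈ ((P.fam e e').sub B Z).cone) : z.2 ∘ P.o ∈ P.cone :=
  (fam_mem.1 hz).2.1.mem

theorem toD (B Z) : MapsTo P.nm ((P.fam false false).sub B Z).cone P.AD :=
  fun _ hz => sc_mem_D.2 (fam_mem.1 hz).2.1.dvs

theorem toL (e' B Z) : MapsTo P.nm ((P.fam false e').sub B Z).cone (P.AL true) :=
  fun _ hz => sc_mem_L.2 ⟨o_mem hz, (fam_mem.1 hz).2.1.z⟩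

theorem toR (e B Z) : MapsTo P.nm ((P.fam e false).sub B Z).cone (P.AR true) :=
  fun _ hz => sc_mem_R.2 ⟨o_mem hz, (fam_mem.1 hz).2.1.z'⟩

/-- every character is a combination of old characters, `w c` and `w y` -/
theorem exists_up (χ : R ⊕ Bool → ℤ) :
    ∃ (χ₀ : R → ℤ) (p q : ℤ), χ = P.up χ₀ + p • P.W.w P.c + q • P.W.w P.y :=
  ⟨χ ∘ .inl, χ (.inl P.η) - P.β * χ (.inr true) - χ (.inr false), χ (.inr true), funext fun r => by
    rcases r with r | _ | _ <;> simp [up, qw, c, y]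
    ring⟩

theorem w_b : P.W.w P.b = -P.W.w P.c := (neg_neg _).symm

variable (h : P.Ok) {A A₁ B B₁ : Set ((Option Empty → ℂ) × (P.QJ → ℂ))}
include h

theorem Ok.sc_act {t : R → ℂ} (ht : IsUnit t) (x : J → ℂ) :
    P.sc (P.act t x) = P.W.actT (1, P.kt t) (P.sc x) := by
  have u := isUnit_pi_iff.1 ht
  refine ext_act (isUnit_pi_iff.2 (kt_ne u)) (congrArg lt ?_) (fun j => ?_) fun _ => rfl
  · change (∏ r, t r ^ P.w P.z r) * x P.z * ((∏ r, t r ^ P.w P.z' r) * x P.z') = x P.z * x P.z'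
    simp only [h.wz, h.wz', Pi.neg_apply, zpow_neg, Finset.prod_inv_distrib]
    rw [mul_mul_mul_comm, mul_inv_cancel₀ (prod_zpow_ne u _), one_mul]
  · rw [Wt.actT_snd, chT, Fintype.prod_empty, one_mul, prod_kt u]
    rcases j with j | j
    · exact congrArg (fun c => (∏ r, t r ^ c r) * x j) (P.dχ_up (P.w j)).symm
    · have z : ∀ c : R → ℤ, c = 0 → (1 : ℂ) = (∏ r, t r ^ c r) * 1 := fun c hc => by simp [hc]
      fin_cases j
      · exact congrArg (fun c => (∏ r, t r ^ c r) * x P.z) (h.wz.trans P.dχ_b.symm)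
      · exact congrArg (fun c => (∏ r, t r ^ c r) * x P.z') (h.wz'.trans P.dχ_c.symm)
      · exact z _ (funext fun r => by by_cases h : r = P.η <;> simp [dχ, qw, h])
      · exact z _ (funext fun r => by by_cases h : r = P.η <;> simp [dχ, qw, h])

theorem Ok.hol_nm (hA : MapsTo P.nm A B) : Hol P.W.actT P.W.actT A B P.kth P.nm :=
  Hol.of_an hm_kth hA (fun _ _ => (an_sc _).comp
    (analyticAt_pi_iff.2 fun j => analyticAt_pi_iff.1 analyticAt_snd (P.o j))) fun t ht z _ => by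
      rw [nm, old_act (W := P.W) rfl (fun _ => rfl) ht,
        h.sc_act (isUnit_pi_iff.2 (dn_ne (isUnit_T.1 ht).2))]
      rfl

/-- The normalisation on the quotients. -/
noncomputable abbrev Ok.nq (hA : MapsTo P.nm A B) :
    C(P.W.X A, P.W.X B) := (h.hol_nm hA).q

theorem Ok.nq_qinc (hA : MapsTo P.nm A B) (e : A₁ ⊆ A) (x) :
    h.nq hA (qinc _ e x) = h.nq (hA.mono_left e) x := by
  obtain ⟨x, rfl⟩ := mk_surj x
  rfl

theorem Ok.qinc_nq (hA : MapsTo P.nm A B) (e : B ⊆ B₁) (x) :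
    qinc _ e (h.nq hA x) = h.nq (hA.mono_right e) x := by
  obtain ⟨x, rfl⟩ := mk_surj x
  rfl

theorem Ok.nq_nq (hA : MapsTo P.nm A B) (hB : MapsTo P.nm B B₁) (hA' : MapsTo P.nm A B₁) (x) :
    h.nq hB (h.nq hA x) = h.nq hA' x := by
  obtain ⟨x, rfl⟩ := mk_surj x
  rfl

theorem Ok.nq_lc (hA : MapsTo P.nm A B) (h₁ : FP P.W.actT A) (h₂ : FP P.W.actT B)
    (χ : R ⊕ Bool → ℤ) : H.map (h.nq hA) (P.W.lc B 0 χ) = P.W.lc A 0 (P.up (P.dχ χ)) :=
  Wt.map_lc (h.hol_nm hA).toEqh fun t ht => by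
    simp only [chT, Pi.zero_apply, zpow_zero, Finset.prod_const_one, one_mul]
    rw [prod_up t.2 (Prod.isUnit_iff.1 ht).2]
    exact prod_kt (dn_ne (isUnit_T.1 ht).2) χ

theorem Ok.pb_kap (hA : MapsTo P.nm A P.AD) (c : H (P.W.X P.AD)) :
    P.W.pb P.W P.kap A c = H.map (h.nq hA) c := by
  have a : ∀ z ∈ A, z.2 ∘ P.o ∈ P.dvs := fun z hz => sc_mem_D.1 (hA hz)
  have k := (eqh_kap (P := P) (W := P.W) rfl (fun _ => rfl) a false false).toEqv
  rw [Wt.pb_eq k, k.qm_ext (h.hol_nm hA).toEqh.toEqv fun z hz =>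
    ⟨1, isUnit_one, (sc_eq_kp (a z hz)).trans (P.W.actT_one _).symm⟩]

/-- on the family `(true, true)` the normalisation does nothing -/
theorem Ok.nm_eq {C Z z} (hz : z ∈ ((P.fam true true).sub C Z).cone) :
    ∃ t, IsUnit t ∧ P.dn t.2 = 1 ∧ P.nm z = P.W.actT t z := by
  have _ := h
  obtain ⟨-, h2, h3, -, h5⟩ := fam_mem.1 hz
  have hy : z.2 P.y ≠ 0 := h2.y.resolve_right fun a => nomatch a.1
  have hy' : z.2 P.y' ≠ 0 := h2.y'.resolve_right fun a => nomatch a.1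
  have hb : z.2 (P.o P.z) = z.2 P.y' / z.2 P.y * z.2 P.b := by
    rw [div_mul_eq_mul_div, eq_div_iff hy, mul_comm, mul_comm (z.2 P.y')]
    exact h2.z
  have hc : z.2 (P.o P.z') = (z.2 P.y' / z.2 P.y)⁻¹ * z.2 P.c := by
    rw [inv_div, div_mul_eq_mul_div, eq_div_iff hy', mul_comm, mul_comm (z.2 P.y)]
    exact h2.z'
  obtain ⟨t, ht, hd, e⟩ := exists_t (P := P) (div_ne_zero hy' hy) (inv_ne_zero hy)
  refine ⟨(1, t), Prod.isUnit_iff.2 ⟨isUnit_one, ht⟩, hd, ext_act ht ?_ (fun j => ?_) h5⟩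
  · refine Eq.trans (congrArg lt ?_) (Fam.DG.par_eq z.1).symm
    rw [comp_apply, comp_apply, hb, hc, mul_mul_mul_comm, mul_inv_cancel₀ (div_ne_zero hy' hy),
      one_mul, h3]
  · rw [e]
    rcases j with j | j
    · rfl
    · fin_cases j
      · exact hb
      · exact hc
      · exact (inv_mul_cancel₀ hy).symm
      · change (1 : ℂ) = (z.2 P.y' / z.2 P.y)⁻¹ * (z.2 P.y)⁻¹ * z.2 P.y'
        field_simp

theorem Ok.nq_D (x) : h.nq (toD _ _ : MapsTo _ P.AD _) x = x :=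
  Eqv.qm_id _ (fun _ hz => (h.nm_eq ((cone_pD false false true true).le hz)).imp fun _ a => ⟨a.1, a.2.2⟩) x

theorem Ok.nq_L (x) : h.nq (toL _ _ _ : MapsTo _ (P.AL true) _) x = x :=
  Eqv.qm_id _ (fun _ hz => (h.nm_eq ((cone_pL false true true).le hz)).imp fun _ a => ⟨a.1, a.2.2⟩) x

theorem Ok.nq_R (x) : h.nq (toR _ _ _ : MapsTo _ (P.AR true) _) x = x :=
  Eqv.qm_id _ (fun _ hz => (h.nm_eq ((cone_pR true false true).le hz)).imp fun _ a => ⟨a.1, a.2.2⟩) x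

theorem Ok.dg (e e' : Bool) : (P.fam e e').DG (.inr false) P.b P.c P.Ω := by
  refine ⟨h.fam_deg e e', h.good e e', h.fam_reg e e', ?_⟩
  rintro (k | p)
  · refine ⟨rename .inl (P.qG e e' k), ?_⟩
    rw [map_rename, ← qg_G (ws := Empty.elim) (wl := Empty.elim) (B₀ := univ) (Ω := P.Ω)]
    rfl
  · refine ⟨X (.inr p) - monomial (p.α.mapDomain .inl) 1, ?_⟩
    rw [map_sub, map_X, map_monomial, map_one]
    rfl

theorem Ok.pcL (e' : Bool) : P.W.IsPc (P.AL e') P.AD P.n P.nc 1 :=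
  pc_tr (h.dg false e').isPc_left (cone_pD false e' false false) (dm_eq _ _)

theorem Ok.pcR (e : Bool) : P.W.IsPc (P.AR e) P.AD P.n P.nc (-1) :=
  pc_tr (h.dg e false).isPc_right (cone_pD e false false false) (dm_eq _ _)

theorem Ok.qD : P.W.QM P.AD P.n := (h.pcL false).qD

theorem Ok.qL (e' : Bool) : P.W.QM (P.AL e') (P.n + 1) := (h.pcL e').qA

theorem Ok.qR (e : Bool) : P.W.QM (P.AR e) (P.n + 1) := (h.pcR e).qA

theorem Ok.qX {t : ℂ} (ht : t ∈ P.Ω) (h0 : t ≠ 0) (e e' : Bool) :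
    P.W.QM (P.AX e e' t) (P.n + 1) :=
  dm_eq (P := P) e e' ▸ (h.dg e e').qm_fib ht h0

theorem Ok.nc_deg : H.IsDeg 2 P.nc := h.qD.lc_deg _ _

/-- The inclusion of the divisor in the left pieces. -/
noncomputable abbrev Ok.jL (e' : Bool) : C(P.W.X P.AD, P.W.X (P.AL e')) := qinc _ (h.pcL e').sub

/-- The inclusion of the divisor in the right pieces. -/
noncomputable abbrev Ok.jR (e : Bool) : C(P.W.X P.AD, P.W.X (P.AR e)) := qinc _ (h.pcR e).sub

theorem Ok.push_L (e' : Bool) :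
    PS.push (X := h.qD.ps) (Y := (h.qL e').ps) (h.jL e') 1 = P.W.lc _ 0 (P.W.w P.c) :=
  push_tr (cone_pD false e' false false) ((h.dg false e').push_fld (.inl ⟨rfl, rfl⟩)) _ _ _

theorem Ok.push_R (e : Bool) :
    PS.push (X := h.qD.ps) (Y := (h.qR e).ps) (h.jR e) 1 = P.W.lc _ 0 (P.W.w P.b) :=
  push_tr (cone_pD e false false false) ((h.dg e false).push_fld (.inr ⟨rfl, rfl⟩)) _ _ _

theorem Ok.lc_y_L (e' : Bool) : P.W.lc (P.AL e') 0 (P.W.w P.y) = 0 :=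
  lc0 (h.qL e').fp fun _ hz => have a := fam_mem.1 hz
    a.2.1.y.resolve_right fun k => k.2 (a.2.2.2.1 _ rfl)

theorem Ok.lc_y'_R (e : Bool) : P.W.lc (P.AR e) 0 (P.W.w P.y') = 0 :=
  lc0 (h.qR e).fp fun _ hz => have a := fam_mem.1 hz
    a.2.1.y'.resolve_right fun k => k.2 (a.2.2.2.1 _ rfl)

theorem Ok.lc_y_D : P.W.lc P.AD 0 (P.W.w P.y) = 0 :=
  lc0 h.qD.fp fun _ hz => have a := fam_mem.1 hz
    a.2.1.y.resolve_right fun k => k.2 (a.2.2.2.1 _ (.inl rfl))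

theorem Ok.lc_y'_D : P.W.lc P.AD 0 (P.W.w P.y') = 0 :=
  lc0 h.qD.fp fun _ hz => have a := fam_mem.1 hz
    a.2.1.y'.resolve_right fun k => k.2 (a.2.2.2.1 _ (.inr rfl))

theorem Ok.lc_y'_L : P.W.lc (P.AL true) 0 (P.W.w P.y') = 0 :=
  lc0 (h.qL true).fp fun _ hz => (fam_mem.1 hz).2.1.y'.resolve_right fun k => nomatch k.1

theorem Ok.lc_y_R : P.W.lc (P.AR true) 0 (P.W.w P.y) = 0 :=
  lc0 (h.qR true).fp fun _ hz => (fam_mem.1 hz).2.1.y.resolve_right fun k => nomatch k.1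

theorem Ok.lc_c_X {t : ℂ} (ht : t ∈ P.Ω) (h0 : t ≠ 0) (e e' : Bool) :
    P.W.lc (P.AX e e' t) 0 (P.W.w P.c) = 0 :=
  lc0 (h.qX ht h0 e e').fp fun _ hz k => have a := fam_mem.1 hz
    h0 (a.1.2.symm.trans (a.2.2.1.symm.trans (mul_eq_zero_of_right _ k)))

theorem Ok.lc_η_D : P.W.lc P.AD 0 (P.up (Pi.single P.η 1)) = -P.nc := by
  have := h.qD.fp
  have a := h.lc_y'_D
  rw [h.w_y', ← add_zero (0 : Empty → ℤ), Wt.lc_add, ← add_zero (0 : Empty → ℤ), Wt.lc_add,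
    add_zero, h.lc_y_D, zero_add] at a
  rw [← h.wz]
  exact eq_neg_of_add_eq_zero_right a

omit h in
variable (P) in
/-- The four smoothings over `A` with the general fibres over `t`. -/
structure Sks (t : ℂ) (A : Set ℂ) : Prop where
  mem : t ∈ P.Ω
  ne : t ≠ 0
  sk : ∀ e e', P.W.IsSk (P.AL e') (P.AR e) P.AD (P.AX e e' t) (P.AT e e' A) P.n P.nc

/-- **over small discs** -/
theorem Ok.sks : ∀ᶠ r in 𝓝[>] (0 : ℝ), Metric.ball 0 r ⊆ P.Ω ∧
    ∀ t ∈ Metric.ball (0 : ℂ) r, t ≠ 0 → P.Sks t (Metric.ball 0 r) := by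
  filter_upwards [eventually_all.2 fun p : Bool × Bool => (h.dg p.1 p.2).isSk] with r a
  exact ⟨(a (false, false)).1, fun t ht h0 => ⟨(a (false, false)).1 ht, h0, fun e e' =>
    sk_tr ((a (e, e')).2 t ht h0) (cone_pL e false e') (cone_pR e e' false)
      (cone_pD e e' false false) (dm_eq _ _)⟩⟩

/-- **over small segments** -/
theorem Ok.sks_top : ∀ᶠ t : ℝ in 𝓝[>] 0, ∃ s : P.Sks t (segment ℝ 0 (t : ℂ)),
    ∀ e e', (s.sk e e').sk.Top := by
  have b : ∀ᶠ t : ℝ in 𝓝 0, (t : ℂ) ∈ P.Ω :=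
    Complex.continuous_ofReal.continuousAt.eventually (h.opn.mem_nhds h.zero)
  filter_upwards [eventually_all.2 fun p : Bool × Bool => (h.dg p.1 p.2).isSk_top,
    b.filter_mono nhdsWithin_le_nhds, self_mem_nhdsWithin] with t a ht h0
  have k := fun e e' => top_tr (a (e, e')) (cone_pL e false e') (cone_pR e e' false)
    (cone_pD e e' false false) (dm_eq _ _)
  exact ⟨⟨ht, Complex.ofReal_ne_zero.2 (ne_of_gt h0), fun e e' => (k e e').1⟩,
    fun e e' => (k e e').2⟩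

/-- the form in which `Fam.DK.g1` wants the total space -/
theorem Ok.mem_AT {e e' : Bool} {r : ℝ} {z} (hz : z ∈ (P.fam e e').cone) (hr : ‖z.1 none‖ < r) :
    z ∈ P.AT e e' (Metric.ball 0 r) :=
  have _ := h
  have a := (fam_mem (B := (P.fam e e').B) (Z := (P.fam e e').zer)).1 hz
  fam_mem.2 ⟨⟨trivial, mem_ball_zero_iff.2 hr⟩, a.2.1, a.2.2.1, fun _ k => k.elim, a.2.2.2.2⟩

end Vale.Agent.P269.Pre
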