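import Vale.Agent.P269.Coh.Gr
import Vale.Agent.P269.Prj.PresH
import Vale.Agent.P269.Kit.Vir
import Vale.Agent.P269.Asm.QC1

/-!
# P269, cohomological packages: change of presentation, small models
-/

set_option linter.unusedSectionVars false

namespace Vale.Agent.P269

open Set Function Topology Filter P291Z Holo Mono Coh Tq Fock MvPolynomial

namespace Tq.QM

variable {A A' W W' : Type} [NormedRing A] [NormedAlgebra ℂ A] [NormedAddCommGroup W]
  [NormedSpace ℂ W] [NormedRing A'] [NormedAlgebra ℂ A'] [NormedAddCommGroup W'] [NormedSpace ℂ W']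
  [FiniteDimensional ℂ A] [FiniteDimensional ℂ W] [FiniteDimensional ℂ A'] [FiniteDimensional ℂ W']
  {act : A → W → W} {act' : A' → W' → W'} {S : Set W} {S' : Set W'} {f : W → W'} {θ : A → A'}
  [IsAct act univ] [IsAct act' univ] {n m : ℤ}

theorem of_empty (h : QM act S n) (e : S = ∅) (m : ℤ) : QM act S m :=
  ⟨h.fp, h.lin, h.cpt, fun _ hx => (e.subset hx).elim, fun _ => e⟩

theorem isHomeomorph (h : QM act S n) (h' : QM act' S' m) {q : C(Quo act S, Quo act' S')}
    (hb : Bijective q) : IsHomeomorph q :=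
  haveI := h.cpt
  haveI := h'.fp
  isHomeomorph_iff_continuous_bijective.2 ⟨q.continuous, hb⟩

end Tq.QM

variable {S Λ R R' J J' K K' I : Type} [Fintype S] [Fintype Λ] [Fintype R] [Fintype R'] [Fintype J]
  [Fintype J'] [Fintype K] [Fintype K'] [Fintype I]

/-- The homomorphism of tori given by a matrix. -/
noncomputable def trM (M : R' → R → ℤ) (t : R → ℂ) : R' → ℂ := fun r' => ∏ r, t r ^ M r' r

/-- The pull-back of a character. -/
def chM (M : R' → R → ℤ) (χ : R' → ℤ) : R → ℤ := fun r => ∑ r', χ r' * M r' r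

theorem chM_add (M : R' → R → ℤ) (χ χ' : R' → ℤ) : chM M (χ + χ') = chM M χ + chM M χ' :=
  funext fun _ => by simp only [chM, Pi.add_apply, add_mul, Finset.sum_add_distrib]

theorem chM_sub (M : R' → R → ℤ) (χ χ' : R' → ℤ) : chM M (χ - χ') = chM M χ - chM M χ' :=
  funext fun _ => by simp only [chM, Pi.sub_apply, sub_mul, Finset.sum_sub_distrib]

theorem chM_zero (M : R' → R → ℤ) : chM M 0 = 0 := funext fun _ => by simp [chM]

theorem chM_single [DecidableEq R'] (M : R' → R → ℤ) (r : R') : chM M (Pi.single r 1) = M r :=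
  funext fun _ => by simp [chM, Pi.single_apply]

theorem prod_trM (M : R' → R → ℤ) (χ : R' → ℤ) {t : R → ℂ} (ht : IsUnit t) :
    ∏ r', trM M t r' ^ χ r' = ∏ r, t r ^ chM M χ r := by
  have a := isUnit_pi_iff.1 ht
  simp only [trM, chM, ← Finset.prod_zpow, ← zpow_mul]
  rw [Finset.prod_comm]
  simp only [zpow_sum_ne (a _), mul_comm]

theorem hm_trM (M : R' → R → ℤ) : Hm (trM M) :=
  ⟨funext fun _ => by simp [trM], fun _ _ _ _ => funext fun _ => prod_zpow_mul _ _ _,
    fun _ ha => continuousAt_pi.2 fun _ =>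
      (an_prod_zpow analyticAt_id (isUnit_pi_iff.1 ha) _).continuousAt⟩

namespace Fam

section

variable {F : Fam Empty Λ R J K} {F' : Fam Empty Λ R' J' K'} {φ : J → J'} {s : I → J'}
  {M : R' → R → ℤ} {σ : J' → MvPolynomial J (MvPolynomial Λ ℂ)} (h : F.Pres F' φ s M σ)
include h

/-- the kernel of the characters of the links is the small torus -/
theorem Pres.exists_trM {t : R' → ℂ} (ht : IsUnit t) (e : ∀ i, ∏ r', t r' ^ F'.w (s i) r' = 1) :
    ∃ u, IsUnit u ∧ t = trM M u := h.prs.exists_thM ht e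

/-- points with equivalent images are equivalent -/
theorem Pres.exists_act {z z' : (Λ → ℂ) × (J → ℂ)} {t : (Empty → ℂ) × (R' → ℂ)} (ht : IsUnit t)
    (e : evσ σ z' = F'.actT t (evσ σ z)) :
    ∃ u, IsUnit u ∧ t.2 = trM M u ∧ z' = F.actT (1, u) z := by
  obtain ⟨u, hu, a⟩ := h.exists_trM (Prod.isUnit_iff.1 ht).2 fun i => by
    simpa [evσ, evz, Wt.actT, h.σ_s] using (congrFun (congrArg Prod.snd e) (s i)).symm
  have b := e.trans ((congrArg (F'.actT · _) (show t = (1, trM M u) from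
    Prod.ext (Subsingleton.elim _ _) a)).trans (h.evσ_act hu z).symm)
  exact ⟨u, hu, a, Prod.ext (congrArg Prod.fst b :) (funext fun j => by
    simpa [evσ, evz, h.σ_φ] using congrFun (congrArg Prod.snd b) (φ j))⟩

end

variable [DecidableEq R] [DecidableEq R']

theorem Nice.qm_cp {F : Fam S Λ R J K} {δ : J → ℕ} (h : F.Nice δ) (hc : F.Cp) :
    ∃ n, F.QM F.cone n :=
  haveI := h.toGood.compact hc
  h.qm

/-- The dimension of a target. -/
def dT (_T : Fam Empty Empty R J K) : ℤ := Fintype.card J - Fintype.card K - Fintype.card R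

theorem dT_proj (T : Fam Empty Empty R J K) {r : ℕ} (a : Fin (r + 1) → R → ℤ) (θ) :
    (T.proj a θ).dT = T.dT + r := by
  simp only [dT, Fintype.card_sum, Fintype.card_fin, Fintype.card_option]
  push_cast
  ring

theorem Tg.qm {T : Fam Empty Empty R J K} (h : T.Tg) : T.QM T.cone T.dT :=
  haveI := h.toGood.fp
  haveI := h.compact
  .of_mfd T.lin_actT fun _ hz => (h.mfd hz).imp fun k a => ⟨by
    have := a.1
    simp only [dT, Module.finrank_prod, Module.finrank_fintype_fun_eq_card, Fintype.card_empty]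
    omega, a.2⟩

/-- The target as a space with Poincare duality. -/
noncomputable abbrev Tg.ps {T : Fam Empty Empty R J K} (h : T.Tg) : PS := h.qm.ps

theorem Tg.c1_eq {T : Fam Empty Empty R J K} (h : T.Tg) : T.c1 T.cone = T.lc _ 0 T.κ₁ :=
  haveI := h.toGood.fp
  h.pl.c1 _

theorem Tg.std {T : Fam Empty Empty R J K} (h : T.Tg) {ν} (g : Wt.Gr h.qm ν) :
    T.Std h.ps.coh .id (g.vd T.κ₁) := Fam.std h.qm g.nu g.cm _ _ h.c1_eq.symm

namespace Md

variable {T : Fam Empty Empty R J K} {F' : Fam Empty Λ R' J' K'} {M : R' → R → ℤ}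
  {f : (Empty → ℂ) × (J → ℂ) → (Λ → ℂ) × (J' → ℂ)} (h : T.Md F' M f)
include h

theorem hol : Hol T.actT F'.actT T.cone F'.cone (fun t => (1, trM M t.2)) f :=
  ⟨h.eqh, fun x _ => ⟨f, h.an x, .of_forall fun _ => rfl⟩⟩

/-- The isomorphism of the quotients. -/
noncomputable abbrev q : C(T.X T.cone, F'.X F'.cone) := h.hol.q

theorem bij : Bijective h.q := by
  obtain ⟨l, I, _, φ, s, σ, a, -, b⟩ := h.ex
  refine ⟨h.hol.q_injective fun x _ y _ t ht e => ?_, h.hol.q_surjective fun y hy => ?_⟩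
  · rw [b, b] at e
    obtain ⟨u, hu, -, c⟩ := a.exists_act ht e
    exact ⟨(1, u), Prod.isUnit_iff.2 ⟨isUnit_one, hu⟩,
      Prod.ext (Subsingleton.elim _ _) (congrArg Prod.snd c :)⟩
  · obtain ⟨t, ht, z, c, d⟩ := (a.cone y).1 hy
    obtain ⟨c1, c2⟩ := h.tg.pl.mem_par.1 c
    exact ⟨_, c2, (1, t), Prod.isUnit_iff.2 ⟨isUnit_one, ht⟩, by rw [d, b, ← c1]⟩

theorem pb_eq (c : H (F'.X F'.cone)) : T.pb F'.toWt f T.cone c = H.map h.q c := Wt.pb_eq _ c

theorem map_lc (χ : R' → ℤ) : H.map h.q (F'.lc _ 0 χ) = T.lc _ 0 (chM M χ) :=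
  haveI := h.tg.toGood.fp
  haveI := h.nice.toGood.fp
  Wt.map_lc h.hol.toEqh fun t ht => by
    simp only [chT, Finset.univ_eq_empty, Finset.prod_empty, prod_trM M χ (Prod.isUnit_iff.1 ht).2]

theorem exists_lc (χ : R → ℤ) : ∃ χ', H.map h.q (F'.lc _ 0 χ') = T.lc _ 0 χ := by
  obtain ⟨l, I, _, φ, s, σ, a, -⟩ := h.ex
  obtain ⟨χ', rfl⟩ := a.dual_surj χ
  exact ⟨χ', h.map_lc χ'⟩

theorem is {m : ℤ} (h' : F'.QM F'.cone m) (e : T.dT = m) : PS.Is h.tg.ps h'.ps h.q :=
  h.tg.qm.is h' e h.hol h.bij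

theorem gr_iff {m : ℤ} (h' : F'.QM F'.cone m) (e : T.dT = m) {ν ν'} (p : Cg h.q ν' ν) :
    Wt.Gr h.tg.qm ν ↔ Wt.Gr h' ν' :=
  ⟨fun g => g.comap (h.is h' e) p fun χ' => ⟨_, h.map_lc χ'⟩,
    fun g => g.map (h.is h' e) p h.exists_lc⟩

end Md

end Fam

end Vale.Agent.P269
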