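import Vale.Agent.P269.Coh.Gr
import Vale.Agent.P269.Prj.Geo

/-!
# P269, cohomological packages: recognising projective bundles
-/

set_option linter.unusedSectionVars false
set_option linter.style.haveILetI false

namespace Vale.Agent.P269

open Set Function Topology Filter P291Z Holo Mono Coh Tq Fock

namespace Tq

variable {A A' W W' : Type} [NormedRing A] [NormedAlgebra ℂ A] [NormedAddCommGroup W]
  [NormedSpace ℂ W] [NormedRing A'] [NormedAlgebra ℂ A'] [NormedAddCommGroup W'] [NormedSpace ℂ W']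
  [FiniteDimensional ℂ A] [FiniteDimensional ℂ W] [FiniteDimensional ℂ A'] [FiniteDimensional ℂ W']
  {act : A → W → W} {act' : A' → W' → W'} {S : Set W} {S' : Set W'} {π : W' → W} {θ : A' → A}
  [IsAct act univ] [IsAct act' univ] {n m : ℤ} {r : ℕ} {ξ : A' → ℂ} {χ : Fin (r + 1) → A → ℂ}
  {y : W' → Fin (r + 1) → ℂ}

/-- `π` is the bundle of lines in the sum of the line bundles of the characters `χ l`; `y` are the
fibre coordinates and `ξ` is the character of `O(1)`. -/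
structure IsPB (act' : A' → W' → W') (act : A → W → W) (S' : Set W') (S : Set W) (θ : A' → A)
    (π : W' → W) (ξ : A' → ℂ) (χ : Fin (r + 1) → A → ℂ) (y : W' → Fin (r + 1) → ℂ) : Prop
    extends Hol act' act S' S θ π where
  hξ : Hm ξ
  hχ : ∀ l, Hm (χ l)
  aχ : ∀ l a, IsUnit a → AnalyticAt ℂ (χ l) a
  ay : ∀ x ∈ S', AnalyticAt ℂ y x
  ne : ∀ x ∈ S', y x ≠ 0
  ey : ∀ a, IsUnit a → ∀ x ∈ S', ∀ l, y (act' a x) l = ξ a * χ l (θ a) * y x l
  inj : ∀ x ∈ S', ∀ x' ∈ S', ∀ b, IsUnit b → ∀ s : ℂ, s ≠ 0 → π x' = act b (π x) →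
    (∀ l, y x' l = s * χ l b * y x l) → ∃ a, IsUnit a ∧ x' = act' a x
  surj : ∀ u ∈ S, ∀ v : Fin (r + 1) → ℂ, v ≠ 0 → ∃ x ∈ S', ∃ b, IsUnit b ∧ ∃ s : ℂ,
    u = act b (π x) ∧ ∀ l, v l = s * χ l b * y x l

namespace IsPB

open Ch Polynomial

theorem coeff_mod {B : Type*} [CommRing B] {P : B[X]} (h : Mon (r + 1) P) :
    (X ^ r %ₘ P).coeff r = 1 := by
  rcases subsingleton_or_nontrivial B with _ | _
  · exact Subsingleton.elim _ _
  rw [(modByMonic_eq_self_iff h.monic).2, coeff_X_pow_self]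
  rw [degree_X_pow]
  exact (Nat.cast_lt.2 r.lt_succ_self).trans_le (le_degree_of_ne_zero (h.coeff ▸ one_ne_zero))

variable (φ : IsPB act' act S' S θ π ξ χ y) [FP act S] [FP act' S']

/-- the sum of the line bundles -/
noncomputable abbrev vb : VB (sp act S) := chars fun l => (φ.hχ l).ρ

/-- the comparison with the projective bundle -/
noncomputable def pm : Mor (sp act' S') φ.vb.PS :=
  ⟨φ.hm.ρ.toMonoidHom.prod φ.hξ.ρ.toMonoidHom, fun x => VB.PT.mk (φ.toEqh.mor.f x)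
    (y x.val) trivial (φ.ne _ x.val_mem), φ.hm.ρ.continuous.prodMk φ.hξ.ρ.continuous,
    VB.PT.continuous_mk φ.toEqh.mor.cf (continuous_iff_continuousAt.2 fun x =>
      (φ.ay _ x.val_mem).continuousAt.comp Sp.continuous_val.continuousAt) _ _,
    fun g x => VB.PT.ext (φ.toEqh.mor.eqv g x) (funext fun l =>
      (φ.ey _ g.isUnit _ x.val_mem l).trans (mul_assoc _ _ _))⟩

theorem pm_bij : Bijective φ.pm.map := by
  refine ⟨(sp act' S').surj.forall₂.2 fun x x' e => ?_, φ.vb.PS.surj.forall.2 fun p => ?_⟩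
  · rw [Mor.map_π, Mor.map_π] at e
    obtain ⟨g, k⟩ := (φ.vb.PS.fib _ _).1 e
    obtain ⟨a, ha, k⟩ := φ.inj _ x.val_mem _ x'.val_mem _ g.1.isUnit _ g.2.ne_zero
      (congrArg (fun p : φ.vb.PT => Sp.val (act := act) p.t) k).symm fun l =>
        (congrFun (congrArg VB.PT.w k) l).symm.trans (mul_assoc _ _ _).symm
    exact ((sp act' S').fib _ _).2 ⟨ha.unit, Sp.ext k.symm⟩
  · obtain ⟨x, hx, b, hb, s, k, k'⟩ := φ.surj _ (Sp.val_mem (act := act) p.t) p.w p.ne
    have hs : s ≠ 0 := fun a => p.ne (funext fun l => by rw [k', a, zero_mul, zero_mul]; rfl)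
    refine ⟨_, (Mor.map_π φ.pm (Sp.of act' x hx)).trans ((φ.vb.PS.fib _ _).2
      ⟨(hb.unit, .mk0 s hs), VB.PT.ext (Holo.Sp.ext k.symm) ?_⟩)⟩
    exact _root_.funext fun l => ((k' l).trans (mul_assoc _ _ _)).symm

theorem an_vb [CompleteSpace A] (l) : AnalyticAt ℂ (fun x => ((φ.hχ l).ρ (expU x) : ℂ)) 0 :=
  (φ.aχ l _ (expU 0).isUnit).comp (f := NormedSpace.exp) (exp_an 0)

theorem res_pm [CompleteSpace A] {d : ℕ} (hd : Dim act S d) (hd' : Dim act' S' (d + r))
    (lin : ∀ a, IsUnit a → IsLinearMap ℂ (act a)) (hi : IsOpenEmbedding φ.pm.map) :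
    res φ.pm.map (Grr.psF (U := hd.ho lin) (E := φ.vb) (fun _ => rfl) (Prj.an_chars φ.an_vb) r
      (Fintype.card_fin _)) = fnd act' S' := by
  have := (Grr.ps (hd.ho lin) φ.vb (fun _ => rfl) (Prj.an_chars φ.an_vb) r
    (Fintype.card_fin _)).res_fund_of_mor (F := sp act' S') hd'.holOrb φ.pm hi
    (fun t => (holAt_spv_iff (x := t) (g := fun x => (π x, y x))).2 ?_) (fun t g hg => ?_) (l := 1)
    fun t => Nat.card_eq_one_iff_unique.2 ⟨⟨fun a b => Subtype.ext
      ((FP.free t _ a.2.1).trans (FP.free t _ b.2.1).symm)⟩, ⟨⟨1, one_smul _ _, map_one _⟩⟩⟩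
  · rw [Nat.cast_one, one_smul] at this
    exact this.trans hd'.fnd_eq.symm
  · have ht := Sp.val_mem (act := act') t
    obtain ⟨Φ, h1, h2⟩ := φ.an _ ht
    exact ⟨fun x => (Φ x, y x), h1.prod (φ.ay _ ht), h2.mono fun _ a => Prod.ext a rfl⟩
  · have h1 : g.1 = 1 :=
      FP.free (act := act) (S := S) (φ.toEqh.mor.f t) g.1 (congrArg VB.PT.t hg)
    obtain ⟨l, hl⟩ := ne_iff.1 (φ.ne _ (Sp.val_mem (act := act') t))
    have h2 : (g.2 : ℂ) * ((φ.hχ l).ρ g.1 * y (Sp.val (act := act') t) l) =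
        y (Sp.val (act := act') t) l := congrFun (congrArg VB.PT.w hg) l
    rw [h1, map_one, Units.val_one, one_mul] at h2
    exact ⟨1, one_smul _ _,
      (map_one _).trans (Prod.ext h1 (Units.ext ((mul_eq_right₀ hl).1 h2))).symm⟩

theorem q_eq : φ.toHol.q = φ.vb.pp.map.comp φ.pm.map := by
  rw [← Mor.map_comp, Hol.q, ← φ.toEqh.mor_map]
  exact Mor.map_ext fun _ => rfl

theorem xi_eq : lce act' S' φ.hξ = Hev.map φ.pm.map φ.vb.xi :=
  (congrArg (c1 (Y := sp act' S')) (ContinuousMonoidHom.ext fun _ => Units.ext rfl)).trans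
    (map_c1 φ.pm φ.vb.o1).symm

include φ in
theorem comm (b : H (Quo act' S')) (k : ℕ) : lcq act' S' ξ ^ k * b = b * lcq act' S' ξ ^ k :=
  ((PBA.comm2 (lcq_deg φ.hξ) b).pow_right k).symm

variable {d : ℕ} (hd : Dim act S d) (lin : ∀ a, IsUnit a → IsLinearMap ℂ (act a))
include hd lin

theorem rel : (List.ofFn fun l => lcq act' S' ξ + H.map φ.toHol.q (lcq act S (χ l))).prod = 0 := by
  have := Prj.evP_eq (U := hd.ho lin) φ.q_eq φ.xi_eq φ.vb.chern
  rw [φ.vb.evP_chern, map_zero, chern_chars, map_prod, ← List.prod_ofFn] at this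
  refine Eq.trans ?_ (congrArg Subtype.val this)
  rw [SubmonoidClass.coe_list_prod, List.map_ofFn]
  refine congrArg (fun f => (List.ofFn f).prod) (_root_.funext fun l => ?_)
  rw [comp_apply, map_add, evP_X, evP_C, ← lce_val φ.hξ, ← lce_val (φ.hχ l)]
  rfl

variable [CompactSpace (Quo act' S')]

omit hd lin in
theorem homeo : IsHomeomorph φ.pm.map :=
  isHomeomorph_iff_continuous_bijective.2 ⟨φ.pm.map.continuous, φ.pm_bij⟩

theorem lh : Bijective fun v : Fin (r + 1) → H (Quo act S) =>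
    ∑ k, H.map φ.toHol.q (v k) * lcq act' S' ξ ^ (k : ℕ) := by
  have := Prj.lh_bij (U := hd.ho lin) (Fintype.card_fin _) φ.homeo φ.q_eq φ.xi_eq
  simp only [lce_val, φ.comm] at this
  exact this

theorem int [CompactSpace (Quo act S)] (hd' : Dim act' S' (d + r)) (a : H (Quo act S)) :
    Loc.intg (fnd act' S') (H.map φ.toHol.q a * lcq act' S' ξ ^ r) = Loc.intg (fnd act S) a := by
  haveI := FiniteDimensional.complete ℂ A
  have := Prj.intg_pow (U := hd.ho lin) (Fintype.card_fin _) φ.homeo φ.q_eq φ.xi_eq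
    (φ.res_pm hd hd' lin φ.homeo.isOpenEmbedding) r a
  rw [coeff_mod (Fintype.card_fin (r + 1) ▸ φ.vb.chern_mon), Dim.ho_fund, lce_val, φ.comm] at this
  exact this.trans (congrArg _ (one_mul a))

end IsPB

/-- **projective bundles** -/
theorem IsPB.pb (φ : IsPB act' act S' S θ π ξ χ y) (h : QM act S n) (h' : QM act' S' m)
    (e : m = n + r) : PB h.ps h'.ps (fun l => lcq act S (χ l)) φ.toHol.q (lcq act' S' ξ) := by
  haveI := h.fp
  haveI := h'.fp
  haveI := h.cpt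
  haveI := h'.cpt
  by_cases hn : n < 0
  · haveI : IsEmpty (Quo act S) := ⟨mk_surj.forall.2 fun x => (h.neg hn).subset x.2⟩
    haveI : IsEmpty (Quo act' S') := ⟨fun x => isEmptyElim (φ.toHol.q x)⟩
    exact ⟨e, lcq_deg φ.hξ, fun l => lcq_deg (φ.hχ l), ⟨injective_of_subsingleton _,
      surjective_to_subsingleton _⟩, Subsingleton.elim _ _, fun a => by
        rw [Subsingleton.elim a 0, map_zero, zero_mul, map_zero, map_zero]⟩
  have hd' : Dim act' S' (n.toNat + r) := (show m.toNat = n.toNat + r by omega) ▸ h'.dim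
  exact ⟨e, lcq_deg φ.hξ, fun l => lcq_deg (φ.hχ l), φ.lh h.dim h.lin, φ.rel h.dim h.lin,
    φ.int h.dim h.lin hd'⟩

end Tq

namespace Fam

variable {R J K : Type} [Fintype R] [Fintype J] [Fintype K] [DecidableEq R]
  {F : Fam Empty Empty R J K} {r : ℕ} {a : Fin (r + 1) → R → ℤ} {θ : Option R → ℤ} {n m : ℤ}

theorem Tg.hol_proj (hF : F.Tg) (a : Fin (r + 1) → R → ℤ) (θ : Option R → ℤ) :
    Hol (F.proj a θ).actT F.actT (F.proj a θ).cone F.cone (fun t => (t.1, t.2 ∘ some))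
      fun z => (z.1, z.2 ∘ .inl) :=
  .of_an Prj.hm_some (Prj.eqh hF).maps (fun _ _ => analyticAt_fst.prod
    (analyticAt_pi_iff.2 fun _ => analyticAt_pi_iff.1 analyticAt_snd _)) (Prj.eqh hF).eqv

/-- The projection of a projective bundle. -/
noncomputable abbrev Tg.pj (hF : F.Tg) (a : Fin (r + 1) → R → ℤ) (θ : Option R → ℤ) :
    C((F.proj a θ).X (F.proj a θ).cone, F.X F.cone) := (hF.hol_proj a θ).q

theorem Tg.pb_pj (hF : F.Tg) (c : H (F.X F.cone)) :
    (F.proj a θ).pb F.toWt (fun z => (z.1, z.2 ∘ .inl)) _ c = H.map (hF.pj a θ) c :=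
  Wt.pb_eq (hF.hol_proj a θ).toEqh.toEqv c

theorem Tg.pj_lc (hF : F.Tg) (h' : FP (F.proj a θ).actT (F.proj a θ).cone) (χ : R → ℤ) :
    H.map (hF.pj a θ) (F.lc _ 0 χ) = (F.proj a θ).lc _ 0 fun o => o.elim 0 χ :=
  haveI := hF.toGood.fp
  Wt.map_lc (hF.hol_proj a θ).toEqh fun t _ =>
    ((Prj.chT_elim _ _ 0 χ t).trans (by rw [zpow_zero, one_mul])).symm

theorem Tg.isPB (hF : F.Tg) (a : Fin (r + 1) → R → ℤ) (θ : Option R → ℤ) :
    IsPB (F.proj a θ).actT F.actT (F.proj a θ).cone F.cone (fun t => (t.1, t.2 ∘ some))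
      (fun z => (z.1, z.2 ∘ .inl)) (chT 0 (Pi.single none 1)) (fun l => chT 0 (a l))
      fun z => z.2 ∘ .inr where
  toHol := hF.hol_proj a θ
  hξ := hm_chT _ _
  hχ _ := hm_chT _ _
  aχ _ _ hu := an_chT analyticAt_id hu _ _
  ay _ _ := analyticAt_pi_iff.2 fun _ => analyticAt_pi_iff.1 analyticAt_snd _
  ne _ k := ((Prj.mem_cone hF).1 k).2
  ey t _ z _ l := congrArg (· * z.2 (.inr l)) ((Prj.chT_elim _ 0 1 (a l) t).trans
    (congrArg (· * _) (by simp [chT, Fintype.prod_option])))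
  inj x _ x' _ b hb s hs e e' := ⟨(b.1, fun o => o.elim s b.2),
    isUnit_T.2 ⟨fun i => i.elim, fun o => o.rec hs (isUnit_T.1 hb).2⟩,
    Prod.ext (Subsingleton.elim _ _) (funext fun j => j.rec
      (fun j => (congrFun (congrArg Prod.snd e) j).trans (congrArg (· * x.2 (.inl j))
        ((Prj.chT_elim _ (F.wt j) 0 (F.w j) (b.1, fun o => o.elim s b.2)).trans
          (by rw [zpow_zero, one_mul]; rfl)).symm))
      fun l => (e' l).trans (congrArg (· * x.2 (.inr l))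
        ((Prj.chT_elim _ 0 1 (a l) (b.1, fun o => o.elim s b.2)).trans
          (by rw [zpow_one]; rfl)).symm))⟩
  surj u hu v hv := ⟨(u.1, Sum.elim u.2 v), (Prj.mem_cone hF).2 ⟨hu, hv⟩, 1, isUnit_one, 1,
    (IsAct.one (act := F.actT) u (mem_univ _)).symm, fun l => by
      rw [(hm_chT _ _).one, one_mul, one_mul]; rfl⟩

theorem Tg.pb (hF : F.Tg) (h : F.QM F.cone n) (h' : (F.proj a θ).QM (F.proj a θ).cone m)
    (e : m = n + r) : PB h.ps h'.ps (fun l => F.lc _ 0 (a l)) (hF.pj a θ)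
      ((F.proj a θ).lc _ 0 (Pi.single none 1)) := (hF.isPB a θ).pb h h' e

/-- **lifting gradings** -/
theorem Tg.exists_gr (hF : F.Tg) {h : F.QM F.cone n} (h' : (F.proj a θ).QM (F.proj a θ).cone m)
    (e : m = n + r) {ν} (g : Wt.Gr h ν) : ∃ ν', Wt.Gr h' ν' ∧ Cg (hF.pj a θ) ν ν' := by
  obtain ⟨ν', h1, h2, h3, h4⟩ := (hF.pb h h' e).exists_nu g.nu fun l => g.cm _
  refine ⟨ν', ⟨h1, fun χ => ?_⟩, h2⟩
  have := h'.fp
  have k := Wt.lc_add (F := (F.proj a θ).toWt) (A := (F.proj a θ).cone) (χ none • 0) 0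
    (χ none • Pi.single none 1) fun o => o.elim 0 (χ ∘ some)
  rw [Wt.lc_zsmul, ← hF.pj_lc this, smul_zero, add_zero, show (χ none • Pi.single none 1 +
    fun o : Option R => o.elim 0 (χ ∘ some)) = χ from funext fun o => by cases o <;> simp] at k
  exact k ▸ (h3.zsmul _).add (h4 _ (h.lc_deg 0 _) (g.cm _))

end Fam

end Vale.Agent.P269
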