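import Vale.Agent.P269.Coh.Cap0
import Vale.Agent.P269.Coh.Prj
import Vale.Agent.P269.Coh.Md
import Vale.Agent.P269.Asm.QPres

/-!
# P269, cohomological packages: the caps are projective bundles
-/

set_option linter.unusedSectionVars false

namespace Vale.Agent.P269

open Function P291Z in
theorem Coh.PB.cap {B E : Coh.PS} {c : Fin 2 → H B.X} {π : C(E.X, B.X)} {ξ η : H E.X}
    (h : Coh.PB B E c π ξ) {j : C(B.X, E.X)} (e : ∀ x, π (j x) = x)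
    (hη : η = ξ - H.map π (H.map j ξ)) : Injective (Coh.ml η ∘ₗ Coh.pl π) ∧
      ∀ u, H.map j u = 0 ↔ ∃ z, (Coh.ml η ∘ₗ Coh.pl π) z = u := by
  have a : ∀ z, H.map j (H.map π z) = z := fun z => (H.map_map _ _ _).trans (H.map_id e z)
  have b : ∀ z, (Coh.ml η ∘ₗ Coh.pl π) z =
      ∑ k : Fin 2, H.map π (![-(H.map j ξ * z), z] k) * ξ ^ (k : ℕ) := fun z => by
    change η * H.map π z = _
    rw [Fin.sum_univ_two, hη, sub_mul, ← (Coh.PBA.comm2 h.deg _).eq]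
    simp [neg_add_eq_sub]
  refine ⟨fun z z' k => congrFun (h.lh.1 ((b z).symm.trans (k.trans (b z')))) 1,
    fun u => ⟨fun k => ?_, ?_⟩⟩
  · obtain ⟨v, rfl⟩ := h.lh.2 u
    refine ⟨v 1, (b _).trans (congrArg (fun v : Fin 2 → _ => ∑ k, H.map π (v k) * ξ ^ (k : ℕ))
      (funext (Fin.forall_fin_two.2 ⟨?_, rfl⟩)))⟩
    change H.map j (∑ k : Fin 2, _) = 0 at k
    simp only [Fin.sum_univ_two, map_add, map_mul, a, Fin.val_zero, Fin.val_one, pow_zero,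
      pow_one, mul_one] at k
    exact (congrArg _ (Coh.PBA.comm2 (h.deg.map j) _).eq.symm).trans
      (neg_eq_of_add_eq_zero_left k)
  · rintro ⟨z, rfl⟩
    change H.map j (η * H.map π z) = 0
    rw [map_mul, hη, map_sub, a, sub_self, zero_mul]

end Vale.Agent.P269

namespace Vale.Agent.P269.Pre

open Set Function Topology Filter P291Z Holo Mono Coh Tq Fock MvPolynomial

variable {R J K : Type} [Fintype R] [Fintype J] [Fintype K] [DecidableEq R] {P : Pre R J K}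

namespace Cap1

variable {e e' e₁ e₁' : Bool} {t : ℂ} {Z Z' : Set P.QJ} {z z' : (Option Empty → ℂ) × (P.QJ → ℂ)}
  {a : (Empty → ℂ) × (R ⊕ Bool → ℂ)}

variable (P) in
/-- The point with the old fields `x` and the new fields `q`. -/
noncomputable def pt (t : ℂ) (x : J → ℂ) (q : Fin 4 → ℂ) : (Option Empty → ℂ) × (P.QJ → ℂ) :=
  (lt t, Sum.elim (Sum.elim x q) fun p => ∏ j, Sum.elim x q j ^ p.α j)

theorem pt_mem {x q} (h1 : P.Pt e e' x q) (h2 : q 0 * q 1 = t)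
    (h3 : ∀ j ∈ Z, (pt P t x q).2 j = 0) : pt P t x q ∈ ((P.fam e e').sub (slab univ t) Z).cone :=
  fam_mem.2 ⟨⟨trivial, rfl⟩, h1, h2, h3, fun _ => rfl⟩

theorem bc (hz : z ∈ ((P.fam e e').sub (slab univ t) Z).cone) : z.2 P.b * z.2 P.c = t :=
  (fam_mem.1 hz).2.2.1.trans (fam_mem.1 hz).1.2

theorem act_snd (a z j) : (P.W.actT a z).2 j = chT 0 (P.W.w j) a * z.2 j :=
  congrArg (fun ψ => chT ψ (P.W.w j) a * z.2 j) (Subsingleton.elim _ _)

theorem an (j : P.QJ) : AnalyticAt ℂ (fun z : (Option Empty → ℂ) × (P.QJ → ℂ) => z.2 j) z :=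
  analyticAt_pi_iff.1 analyticAt_snd j

theorem chT_add0 (ha : IsUnit a) (χ χ' : R ⊕ Bool → ℤ) :
    chT 0 (χ + χ') a = chT 0 χ a * chT 0 χ' a := by rw [← chT_add _ _ _ _ ha, add_zero]

theorem chT_bc (ha : IsUnit a) : chT 0 (P.W.w P.b) a * chT 0 (P.W.w P.c) a = 1 := by
  rw [← chT_add0 ha, w_b, neg_add_cancel, chT_zero]

theorem chT_y' (h : P.Ok) (ha : IsUnit a) :
    chT 0 (P.W.w P.y') a = chT 0 (P.W.w P.y) a * chT 0 (P.W.w P.c) a * P.dn a.2 P.η := by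
  rw [h.w_y', chT_add0 ha, chT_add0 ha]
  exact congrArg _ ((chT_up a (P.w P.z)).trans (by rw [h.wz, prod_zpow_single, zpow_one]))

theorem chT_kth (ha : IsUnit a) : chT 0 (P.W.w P.b) (P.kth a) = P.dn a.2 P.η := by
  rw [chT, Fintype.prod_empty, one_mul]
  exact (prod_kt (dn_ne (isUnit_T.1 ha).2) _).trans (by rw [dχ_b, prod_zpow_single, zpow_one])

theorem unit_dn (ha : IsUnit a) : IsUnit (P.dn a.2) := isUnit_pi_iff.2 (dn_ne (isUnit_T.1 ha).2)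

theorem act_z (h : P.Ok) (τ : R → ℂ) (x : J → ℂ) : P.act τ x P.z = τ P.η * x P.z := by
  rw [Tgt.act, h.wz, prod_zpow_single, zpow_one]

theorem act_z' (h : P.Ok) (τ : R → ℂ) (x : J → ℂ) : P.act τ x P.z' = (τ P.η)⁻¹ * x P.z' := by
  rw [Tgt.act, h.wz', ← Pi.single_neg, prod_zpow_single, zpow_neg_one]

/-- points with proportional fields are equivalent -/
theorem exists_rel (hz : z ∈ ((P.fam e e').sub (slab univ t) Z).cone)
    (hz' : z' ∈ ((P.fam e₁ e₁').sub (slab univ t) Z').cone) {τ : R → ℂ} (hτ : IsUnit τ) {s u : ℂ}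
    (hs : s ≠ 0) (hu : u ≠ 0) (ho : z'.2 ∘ P.o = P.act τ (z.2 ∘ P.o))
    (hb : z'.2 P.b = s * z.2 P.b) (hc : z'.2 P.c = s⁻¹ * z.2 P.c) (hy : z'.2 P.y = u * z.2 P.y)
    (hy' : z'.2 P.y' = τ P.η * s⁻¹ * u * z.2 P.y') : ∃ a, IsUnit a ∧ z' = P.W.actT a z := by
  obtain ⟨h1, -, -, -, h5⟩ := fam_mem.1 hz
  obtain ⟨k1, -, -, -, k5⟩ := fam_mem.1 hz'
  obtain ⟨a, ha, e⟩ := QAmp.exists_t (P := P) (S := Empty) (Λ₀ := Empty) Empty.elim Empty.elim
    hτ hs hu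
  have e' : ∀ j, z'.2 (.inl j) =
      ((P.qW (Λ₀ := Empty) Empty.elim Empty.elim).actT (1, a) (z.1, z.2 ∘ .inl)).2 j := by
    rw [e]
    rintro (j | j)
    · exact congrFun ho j
    · fin_cases j
      exacts [hb, hc, hy, hy']
  refine ⟨(1, a), Prod.isUnit_iff.2 ⟨isUnit_one, ha⟩, Prod.ext ?_ (funext fun j => ?_)⟩
  · exact ((slab_eq t).le k1).trans (((slab_eq t).le h1).symm.trans (P.W.actL_one _).symm)
  rcases j with j | p
  · exact e' j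
  · have := (P.qW (Λ₀ := Empty) Empty.elim Empty.elim).mon_act ha (z.1, z.2 ∘ .inl) p.wt
    rw [Wt.actT_snd, chT, Fintype.prod_empty, one_mul, h5, k5]
    exact (Finset.prod_congr rfl fun j _ => congrArg (· ^ p.α j) (e' j)).trans this

theorem nm_old (ha : IsUnit a) (e : P.nm z' = P.W.actT a (P.nm z)) :
    z'.2 ∘ P.o = P.act (P.dn a.2) (z.2 ∘ P.o) :=
  (congrArg (·.2 ∘ P.o) e).trans (old_act (W := P.W) rfl (fun _ => rfl) ha _)

theorem nm_b (h : P.Ok) (ha : IsUnit a) (e : P.nm z' = P.W.actT a (P.nm z)) :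
    chT 0 (P.W.w P.b) a = P.dn a.2 P.η := by
  have a1 : 1 = chT 0 (P.W.w P.y) a * 1 := (congrArg (·.2 P.y) e).trans (act_snd _ _ _)
  have a2 : 1 = chT 0 (P.W.w P.y') a * 1 := (congrArg (·.2 P.y') e).trans (act_snd _ _ _)
  rw [chT_y' h ha] at a2
  linear_combination chT 0 (P.W.w P.b) a * a2 + P.dn a.2 P.η * chT_bc (P := P) ha -
    chT 0 (P.W.w P.b) a * chT 0 (P.W.w P.c) a * P.dn a.2 P.η * a1

theorem exists_nm (h : P.Ok) {C} (hz : z ∈ ((P.fam true true).sub C Z).cone) :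
    ∃ a, IsUnit a ∧ z = P.W.actT a (P.nm z) :=
  let ⟨_, ha, _, e⟩ := h.nm_eq hz
  ⟨_, ha.unit⁻¹.isUnit, by rw [e, ← Wt.actT_mul, ha.val_inv_mul, Wt.actT_one]⟩

/-- **the caps as projective bundles** -/
theorem pb_of (h : P.Ok) (hq : P.W.QM ((P.fam false false).sub (slab univ t) Z).cone (P.n + 1))
    {ξ : R ⊕ Bool → ℤ} {χ : Fin 2 → R ⊕ Bool → ℤ} {y : _ → Fin 2 → ℂ}
    (ay : ∀ x ∈ ((P.fam false false).sub (slab univ t) Z).cone, AnalyticAt ℂ y x ∧ y x ≠ 0)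
    (ey : ∀ a, IsUnit a → ∀ x l, y (P.W.actT a x) l = chT 0 ξ a * chT 0 (χ l) (P.kth a) * y x l)
    (inj : ∀ x ∈ ((P.fam false false).sub (slab univ t) Z).cone,
      ∀ x' ∈ ((P.fam false false).sub (slab univ t) Z).cone,
      ∀ b : (Empty → ℂ) × (R ⊕ Bool → ℂ), IsUnit b → ∀ s : ℂ, s ≠ 0 →
        x'.2 ∘ P.o = P.act (P.dn b.2) (x.2 ∘ P.o) → chT 0 (P.W.w P.b) b = P.dn b.2 P.η →
        (∀ l, y x' l = s * chT 0 (χ l) b * y x l) → ∃ a, IsUnit a ∧ x' = P.W.actT a x)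
    (surj : ∀ x ∈ P.dvs, ∀ v : Fin 2 → ℂ, v 0 ≠ 0 ∨ v 1 ≠ 0 →
      ∃ z ∈ ((P.fam false false).sub (slab univ t) Z).cone, z.2 ∘ P.o = x ∧ ∀ l, y z l = v l) :
    PB h.qD.ps hq.ps (fun l => P.W.lc P.AD 0 (χ l)) (h.nq (toD _ _)) (P.W.lc _ 0 ξ) := by
  refine IsPB.pb (χ := fun l => chT 0 (χ l)) (y := y) ⟨h.hol_nm (toD _ _), hm_chT _ _,
    fun _ => hm_chT _ _, fun _ _ ha => an_chT analyticAt_id ha _ _, fun x hx => (ay x hx).1,
    fun x hx => (ay x hx).2, fun a ha x _ => ey a ha x, fun x hx x' hx' b hb s hs e =>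
      inj x hx x' hx' b hb s hs (nm_old hb e) (nm_b h hb e), fun u hu v hv => ?_⟩ h.qD hq rfl
  obtain ⟨b, hb, e⟩ := exists_nm h ((cone_pD false false true true).le hu)
  obtain ⟨z, hz, k1, k2⟩ := surj _ (old_pD u hu) (fun l => v l / chT 0 (χ l) b)
    ((Fin.exists_fin_two.1 (ne_iff.1 hv)).imp (div_ne_zero · (chT_ne _ _ hb))
      (div_ne_zero · (chT_ne _ _ hb)))
  refine ⟨z, hz, b, hb, 1, e.trans (congrArg (fun x => P.W.actT b (P.sc x)) k1.symm), fun l => ?_⟩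
  rw [k2, one_mul, mul_div_cancel₀ _ (chT_ne _ _ hb)]

theorem lc_b (h : P.Ok) : P.W.lc P.AD 0 (P.W.w P.b) = -P.nc := by rw [w_b, h.qD.lc_neg]

theorem lc_0 (h : P.Ok) : P.W.lc P.AD 0 0 = 0 :=
  haveI := h.qD.fp
  Wt.lc_zero

theorem y_ne (hz : z ∈ P.AL e') : z.2 P.b = 0 ∧ z.2 P.y ≠ 0 :=
  have a := (fam_mem.1 hz).2.2.2.1 _ rfl
  ⟨a, (fam_mem.1 hz).2.1.y.resolve_right fun k => k.2 a⟩

theorem y'_ne (hz : z ∈ P.AR e) : z.2 P.c = 0 ∧ z.2 P.y' ≠ 0 :=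
  have a := (fam_mem.1 hz).2.2.2.1 _ rfl
  ⟨a, (fam_mem.1 hz).2.1.y'.resolve_right fun k => k.2 a⟩

theorem c_eq (h0 : t ≠ 0) (hz : z ∈ P.AX e e' t) (hz' : z' ∈ P.AX e e' t) :
    z.2 P.b ≠ 0 ∧ z'.2 P.b ≠ 0 ∧ z'.2 P.c = (z'.2 P.b / z.2 P.b)⁻¹ * z.2 P.c := by
  have a := left_ne_zero_of_mul ((bc hz).trans_ne h0)
  have b := left_ne_zero_of_mul ((bc hz').trans_ne h0)
  refine ⟨a, b, ?_⟩
  field_simp
  linear_combination bc hz' - bc hz

end Cap1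

open Cap1

variable (h : P.Ok) {t : ℂ} (ht : t ∈ P.Ω) (h0 : t ≠ 0)
include h

/-- The projection to the divisor. -/
noncomputable abbrev Ok.πD (B Z) : C(P.W.X ((P.fam false false).sub B Z).cone, P.W.X P.AD) :=
  h.nq (toD B Z)

/-- The projection to the left component. -/
noncomputable abbrev Ok.πL (e' B Z) : C(P.W.X ((P.fam false e').sub B Z).cone, P.W.X (P.AL true)) :=
  h.nq (toL e' B Z)

/-- The projection to the right component. -/
noncomputable abbrev Ok.πR (e B Z) : C(P.W.X ((P.fam e false).sub B Z).cone, P.W.X (P.AR true)) :=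
  h.nq (toR e B Z)

theorem Ok.pbL : PB h.qD.ps (h.qL false).ps ![-P.nc, 0] (h.πD _ _) (P.W.lc _ 0 (P.W.w P.c)) := by
  rw [show ![-P.nc, 0] = fun l => P.W.lc P.AD 0 (![P.W.w P.b, 0] l) from
    funext (Fin.forall_fin_two.2 ⟨(lc_b h).symm, (lc_0 h).symm⟩)]
  refine pb_of h (h.qL false) (y := fun z => ![z.2 P.y' / z.2 P.y, z.2 P.c]) (fun x hx => ⟨
    analyticAt_pi_iff.2 (Fin.forall_fin_two.2 ⟨(an _).div (an _) (y_ne hx).2, an _⟩), fun e =>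
      (fam_mem.1 hx).2.1.y'.elim (fun a => div_ne_zero a (y_ne hx).2 (congrFun e 0))
        fun a => a.2 (congrFun e 1)⟩) (fun a ha x => Fin.forall_fin_two.2 ⟨?_, ?_⟩)
    (fun x hx x' hx' b hb s hs k1 k2 k3 => ?_) fun x hx v hv => ⟨pt P 0 x ![0, v 1, 1, v 0],
      pt_mem ⟨hx.1, hx.2.1, hx.2.2, .inl one_ne_zero, hv.imp_right fun k => ⟨rfl, k⟩,
        .inl one_ne_zero⟩ (zero_mul _) fun _ (k : _ = _) => k ▸ rfl, rfl,
      Fin.forall_fin_two.2 ⟨div_one _, rfl⟩⟩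
  · change (P.W.actT a x).2 P.y' / (P.W.actT a x).2 P.y =
      _ * chT 0 (P.W.w P.b) (P.kth a) * (x.2 P.y' / x.2 P.y)
    rw [act_snd, act_snd, chT_y' h ha, chT_kth ha, mul_assoc, mul_assoc,
      mul_div_mul_left _ _ (chT_ne _ _ ha), ← mul_assoc, mul_div_assoc]
  · exact (act_snd _ _ _).trans (congrArg (· * _) ((congrArg _ (chT_zero _)).trans (mul_one _)).symm)
  · have a0 : x'.2 P.y' / x'.2 P.y = s * chT 0 (P.W.w P.b) b * (x.2 P.y' / x.2 P.y) := k3 0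
    have a1 : x'.2 P.c = s * chT 0 0 b * x.2 P.c := k3 1
    have a2 := (y_ne hx).2
    have a3 := (y_ne hx').2
    refine exists_rel hx hx' (unit_dn hb) (inv_ne_zero hs) (div_ne_zero a3 a2) k1
      (by rw [(y_ne hx).1, (y_ne hx').1, mul_zero]) (by rw [a1, chT_zero, mul_one, inv_inv])
      (div_mul_cancel₀ _ a2).symm ?_
    rw [(div_eq_iff a3).1 a0, k2, inv_inv]
    ring

theorem Ok.pbR : PB h.qD.ps (h.qR false).ps ![0, -P.nc] (h.πD _ _) (P.W.lc _ 0 (P.W.w P.y)) := by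
  rw [show ![0, -P.nc] = fun l => P.W.lc P.AD 0 (![0, P.W.w P.b] l) from
    funext (Fin.forall_fin_two.2 ⟨(lc_0 h).symm, (lc_b h).symm⟩), show P.W.lc (P.AR false) 0
      (P.W.w P.y) = P.W.lc _ 0 (P.W.w P.y - P.W.w P.y') by
        rw [sub_eq_add_neg, (h.qR false).lc_add, (h.qR false).lc_neg, h.lc_y'_R, neg_zero, add_zero]]
  have q : ∀ a, IsUnit a → chT (0 : Empty → ℤ) (P.W.w P.y - P.W.w P.y') a * chT 0 (P.W.w P.y') a =
      chT 0 (P.W.w P.y) a := fun a ha => by rw [← chT_add0 ha, sub_add_cancel]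
  refine pb_of h (h.qR false) (y := fun z => ![z.2 P.y / z.2 P.y', z.2 P.b]) (fun x hx => ⟨
    analyticAt_pi_iff.2 (Fin.forall_fin_two.2 ⟨(an _).div (an _) (y'_ne hx).2, an _⟩), fun e =>
      (fam_mem.1 hx).2.1.y.elim (fun a => div_ne_zero a (y'_ne hx).2 (congrFun e 0))
        fun a => a.2 (congrFun e 1)⟩) (fun a ha x => Fin.forall_fin_two.2 ⟨?_, ?_⟩)
    (fun x hx x' hx' b hb s hs k1 k2 k3 => ?_) fun x hx v hv => ⟨pt P 0 x ![v 1, 0, v 0, 1],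
      pt_mem ⟨hx.1, hx.2.1, hx.2.2, hv.imp_right fun k => ⟨rfl, k⟩, .inl one_ne_zero,
        .inr one_ne_zero⟩ (mul_zero _) fun _ (k : _ = _) => k ▸ rfl, rfl,
      Fin.forall_fin_two.2 ⟨div_one _, rfl⟩⟩
  · change (P.W.actT a x).2 P.y / (P.W.actT a x).2 P.y' =
      _ * chT 0 0 (P.kth a) * (x.2 P.y / x.2 P.y')
    rw [act_snd, act_snd, ← q a ha, chT_zero, mul_one, mul_right_comm, mul_comm _ (x.2 P.y'),
      mul_div_mul_right _ _ (chT_ne _ _ ha), mul_div_assoc]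
  · change (P.W.actT a x).2 P.b = _ * chT 0 (P.W.w P.b) (P.kth a) * x.2 P.b
    have a1 := q a ha
    rw [chT_y' h ha] at a1
    rw [act_snd, chT_kth ha]
    refine congrArg (· * _) (mul_left_cancel₀ (chT_ne 0 (P.W.w P.y) ha) ?_)
    linear_combination chT 0 (P.W.w P.y - P.W.w P.y') a * chT 0 (P.W.w P.y) a * P.dn a.2 P.η *
      chT_bc (P := P) ha - chT 0 (P.W.w P.b) a * a1
  · have a0 : x'.2 P.y / x'.2 P.y' = s * chT 0 0 b * (x.2 P.y / x.2 P.y') := k3 0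
    have a1 : x'.2 P.b = s * chT 0 (P.W.w P.b) b * x.2 P.b := k3 1
    have a2 := (y'_ne hx).2
    have a3 := (y'_ne hx').2
    have a4 := isUnit_pi_iff.1 (unit_dn (P := P) hb) P.η
    refine exists_rel hx hx' (unit_dn hb) (mul_ne_zero hs a4) (mul_ne_zero hs (div_ne_zero a3 a2)) k1
      (by rw [a1, k2]) (by rw [(y'_ne hx).1, (y'_ne hx').1, mul_zero]) ?_ (by field_simp)
    rw [(div_eq_iff a3).1 a0, chT_zero]
    ring

theorem Ok.πD_jL (x) : h.πD _ _ (h.jL false x) = x :=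
  (h.nq_qinc _ _ x).trans (h.nq_D x)

theorem Ok.πD_jR (x) : h.πD _ _ (h.jR false x) = x :=
  (h.nq_qinc _ _ x).trans (h.nq_D x)

theorem Ok.lc_y'_cap : P.W.lc (P.AL false) 0 (P.W.w P.y') =
    P.W.lc _ 0 (P.W.w P.c) - H.map (h.πD _ _) P.nc := by
  rw [h.nq_lc _ (h.qL false).fp h.qD.fp, dχ_c, ← h.wz', h.w_y', (h.qL false).lc_add,
    (h.qL false).lc_add, h.lc_y_L, zero_add, sub_eq_add_neg, ← (h.qL false).lc_neg]
  refine congrArg (fun χ => _ + P.W.lc _ 0 χ) (funext fun r => ?_)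
  rcases r with r | _ | _ <;> simp [o, qw, up, h.wz, h.wz']

theorem Ok.capKL : Injective
    (ml (P.W.lc (P.AL false) 0 (P.W.w P.y')) ∘ₗ pl (h.πD (slab univ 0) {P.b})) ∧
    ∀ u, H.map (h.jL false) u = 0 ↔
      ∃ z, (ml (P.W.lc (P.AL false) 0 (P.W.w P.y')) ∘ₗ pl (h.πD (slab univ 0) {P.b})) z = u :=
  h.pbL.cap h.πD_jL (h.lc_y'_cap.trans (by rw [Wt.map_qinc_lc h.qD.fp (h.qL false).fp]))

theorem Ok.capKR : Injective
    (ml (P.W.lc (P.AR false) 0 (P.W.w P.y)) ∘ₗ pl (h.πD (slab univ 0) {P.c})) ∧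
    ∀ u, H.map (h.jR false) u = 0 ↔
      ∃ z, (ml (P.W.lc (P.AR false) 0 (P.W.w P.y)) ∘ₗ pl (h.πD (slab univ 0) {P.c})) z = u :=
  h.pbR.cap h.πD_jR (by rw [Wt.map_qinc_lc h.qD.fp (h.qR false).fp, h.lc_y_D, map_zero, sub_zero])

theorem Ok.nulL_inj : Injective
    (ml (P.W.lc (P.AL false) 0 (P.W.w P.y')) ∘ₗ pl (h.πD (slab univ 0) {P.b})) := h.capKL.1

theorem Ok.nulL_ker (u : H (P.W.X (P.AL false))) : H.map (h.jL false) u = 0 ↔
    ∃ z, (ml (P.W.lc (P.AL false) 0 (P.W.w P.y')) ∘ₗ pl (h.πD (slab univ 0) {P.b})) z = u :=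
  h.capKL.2 u

theorem Ok.nulR_inj : Injective
    (ml (P.W.lc (P.AR false) 0 (P.W.w P.y)) ∘ₗ pl (h.πD (slab univ 0) {P.c})) := h.capKR.1

theorem Ok.nulR_ker (u : H (P.W.X (P.AR false))) : H.map (h.jR false) u = 0 ↔
    ∃ z, (ml (P.W.lc (P.AR false) 0 (P.W.w P.y)) ∘ₗ pl (h.πD (slab univ 0) {P.c})) z = u :=
  h.capKR.2 u

theorem Ok.secL (u) : H.map (h.jL false) (pl (h.πD (slab univ 0) {P.b}) u) = u :=
  (H.map_map _ _ _).trans (H.map_id h.πD_jL u)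

theorem Ok.secR (u) : H.map (h.jR false) (pl (h.πD (slab univ 0) {P.c}) u) = u :=
  (H.map_map _ _ _).trans (H.map_id h.πD_jR u)

/-- The divisor in the form of the interface. -/
@[reducible] noncomputable def Ok.dv : Deg.Dv := h.qD.ps.dv h.nc_deg

/-- The left pieces in the form of the interface. -/
@[reducible] noncomputable def Ok.pzL (e' : Bool) : Deg.Pz h.dv 1 := (h.pcL e').pc.pz h.nc_deg

/-- The right pieces in the form of the interface. -/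
@[reducible] noncomputable def Ok.pzR (e : Bool) : Deg.Pz h.dv (-1) := (h.pcR e).pc.pz h.nc_deg

/-- **The left cap.** -/
@[reducible] noncomputable def Ok.czL : Deg.Cz h.dv 1 :=
  (h.pcL false).pc.cz h.nc_deg (isEv_pl _)
    (Deg.isEv_comp (isEv_ml (s := 1) ((h.qL false).lc_deg _ _)) (isEv_pl _)) h.secL h.nulL_inj
    h.nulL_ker

/-- **The right cap.** -/
@[reducible] noncomputable def Ok.czR : Deg.Cz h.dv (-1) :=
  (h.pcR false).pc.cz h.nc_deg (isEv_pl _)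
    (Deg.isEv_comp (isEv_ml (s := 1) ((h.qR false).lc_deg _ _)) (isEv_pl _)) h.secR h.nulR_inj
    h.nulR_ker

theorem Ok.czL_pz : h.czL.toPz = h.pzL false := rfl

theorem Ok.czR_pz : h.czR.toPz = h.pzR false := rfl

theorem Ok.czL_gys (a) : h.czL.gys a = P.W.lc _ 0 (P.W.w P.c) * H.map (h.πD _ _) a :=
  (congrArg _ (h.secL a).symm).trans ((PS.push_map (X := h.qD.ps) (Y := (h.qL false).ps) _ _).trans
    ((congrArg _ (h.push_L false)).trans (PBA.comm2 ((h.qL false).lc_deg _ _) _).eq))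

theorem Ok.czR_gys (a) : h.czR.gys a = P.W.lc _ 0 (P.W.w P.b) * H.map (h.πD _ _) a :=
  (congrArg _ (h.secR a).symm).trans ((PS.push_map (X := h.qD.ps) (Y := (h.qR false).ps) _ _).trans
    ((congrArg _ (h.push_R false)).trans (PBA.comm2 ((h.qR false).lc_deg _ _) _).eq))

theorem Ok.czL_sec (u) : h.czL.sec u = P.W.pb P.W P.kap (P.AL false) u :=
  (h.pb_kap (toD _ _) u).symm

theorem Ok.czR_sec (u) : h.czR.sec u = P.W.pb P.W P.kap (P.AR false) u :=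
  (h.pb_kap (toD _ _) u).symm

theorem Ok.czL_nul (z) : h.czL.nul z =
    P.W.pb P.W P.kap (P.AL false) z * P.W.lc _ 0 (P.W.w P.y') :=
  (PBA.comm2 ((h.qL false).lc_deg _ _) _).eq.symm.trans
    (congrArg (· * _) (h.pb_kap (toD _ _) z).symm)

theorem Ok.czR_nul (z) : h.czR.nul z =
    P.W.pb P.W P.kap (P.AR false) z * P.W.lc _ 0 (P.W.w P.y) :=
  (PBA.comm2 ((h.qR false).lc_deg _ _) _).eq.symm.trans
    (congrArg (· * _) (h.pb_kap (toD _ _) z).symm)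

/-- the hypothesis of `St.G3L` -/
theorem Ok.czL_range (x) : (∃ z, LinearMap.id (R := ℂ) (h.czL.nul z) = x) ↔
    ∃ s, P.W.lc (P.AL false) 0 (P.W.w P.y') * s = x :=
  ⟨fun ⟨_, e⟩ => ⟨_, e⟩, fun ⟨s, e⟩ => (h.nulL_ker x).1 (by
    rw [← e, map_mul, Wt.map_qinc_lc h.qD.fp (h.qL false).fp, h.lc_y'_D, zero_mul])⟩

/-- the hypothesis of `St.G3R` -/
theorem Ok.czR_range (x) : (∃ z, LinearMap.id (R := ℂ) (h.czR.nul z) = x) ↔
    ∃ s, P.W.lc (P.AR false) 0 (P.W.w P.y) * s = x :=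
  ⟨fun ⟨_, e⟩ => ⟨_, e⟩, fun ⟨s, e⟩ => (h.nulR_ker x).1 (by
    rw [← e, map_mul, Wt.map_qinc_lc h.qD.fp (h.qR false).fp, h.lc_y_D, zero_mul])⟩

include ht h0

theorem Ok.pbX : PB h.qD.ps (h.qX ht h0 false false).ps ![0, -P.nc] (h.πD _ _)
    (P.W.lc _ 0 (P.W.w P.y)) := by
  rw [show ![0, -P.nc] = fun l => P.W.lc P.AD 0 (![0, P.W.w P.b] l) from
    funext (Fin.forall_fin_two.2 ⟨(lc_0 h).symm, (lc_b h).symm⟩)]
  refine pb_of h (h.qX ht h0 false false) (y := fun z => ![z.2 P.y, z.2 P.y' * z.2 P.b])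
    (fun x hx => ⟨analyticAt_pi_iff.2 (Fin.forall_fin_two.2 ⟨an _, (an _).mul (an _)⟩), fun e =>
      (fam_mem.1 hx).2.1.yy.elim (fun a => a (congrFun e 0))
        fun a => mul_ne_zero a (c_eq h0 hx hx).1 (congrFun e 1)⟩)
    (fun a ha x => Fin.forall_fin_two.2 ⟨?_, ?_⟩)
    (fun x hx x' hx' b hb s hs k1 k2 k3 => ?_) fun x hx v hv => ⟨pt P t x ![1, t, v 0, v 1],
      pt_mem ⟨hx.1, hx.2.1, hx.2.2, .inr ⟨rfl, one_ne_zero⟩, .inr ⟨rfl, h0⟩, hv⟩ (one_mul _)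
        fun _ k => k.elim, rfl, Fin.forall_fin_two.2 ⟨rfl, mul_one _⟩⟩
  · exact (act_snd _ _ _).trans (congrArg (· * _) ((congrArg _ (chT_zero _)).trans (mul_one _)).symm)
  · change (P.W.actT a x).2 P.y' * (P.W.actT a x).2 P.b =
      _ * chT 0 (P.W.w P.b) (P.kth a) * (x.2 P.y' * x.2 P.b)
    rw [act_snd, act_snd, chT_y' h ha, chT_kth ha]
    linear_combination chT 0 (P.W.w P.y) a * P.dn a.2 P.η * x.2 P.y' * x.2 P.b * chT_bc (P := P) ha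
  · have a0 : x'.2 P.y = s * chT 0 0 b * x.2 P.y := k3 0
    have a1 : x'.2 P.y' * x'.2 P.b = s * chT 0 (P.W.w P.b) b * (x.2 P.y' * x.2 P.b) := k3 1
    obtain ⟨a2, a3, a4⟩ := c_eq h0 hx hx'
    refine exists_rel hx hx' (unit_dn hb) (div_ne_zero a3 a2) hs k1 (div_mul_cancel₀ _ a2).symm a4
      (by rw [a0, chT_zero, mul_one]) ?_
    rw [k2] at a1
    field_simp
    linear_combination a1

/-- the general fibre of `(false, true)` is the left component -/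
theorem Ok.isL : PS.Is (h.qX ht h0 false true).ps (h.qL true).ps (h.πL _ _ _) := by
  refine (h.qX ht h0 false true).is (h.qL true) rfl (h.hol_nm (toL _ _ _))
    ⟨Hol.q_injective _ fun x hx x' hx' b hb e => ?_, Hol.q_surjective _ fun u hu =>
      ⟨pt P t (u.2 ∘ P.o) ![1, t, (u.2 ∘ P.o) P.z' / t, 1], pt_mem
      ⟨(fam_mem.1 hu).2.1.mem, (fam_mem.1 hu).2.1.z, (one_mul _).trans (mul_div_cancel₀ _ h0).symm,
        .inr ⟨rfl, one_ne_zero⟩, .inl one_ne_zero, .inr one_ne_zero⟩ (one_mul _) fun _ k => k.elim,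
      exists_nm h ((cone_pL false true true).le hu)⟩⟩
  obtain ⟨a2, a3, a4⟩ := c_eq h0 hx hx'
  have a5 : x.2 P.y' ≠ 0 := (fam_mem.1 hx).2.1.y'.resolve_right (by simp)
  have a6 : x'.2 P.y' ≠ 0 := (fam_mem.1 hx').2.1.y'.resolve_right (by simp)
  have a7 := isUnit_pi_iff.1 (unit_dn (P := P) hb) P.η
  have a8 : x.2 P.y' * x.2 (P.o P.z') = x.2 P.c * x.2 P.y := (fam_mem.1 hx).2.1.z'
  have a9 : x'.2 P.y' * x'.2 (P.o P.z') = x'.2 P.c * x'.2 P.y := (fam_mem.1 hx').2.1.z'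
  have b1 : x'.2 (P.o P.z') = (P.dn b.2 P.η)⁻¹ * x.2 (P.o P.z') :=
    (congrFun (nm_old hb e) _).trans (act_z' h _ _)
  have b2 := right_ne_zero_of_mul ((bc hx').trans_ne h0)
  refine exists_rel hx hx' (unit_dn hb) (div_ne_zero a3 a2)
    (div_ne_zero (mul_ne_zero a6 a3) (mul_ne_zero a7 (mul_ne_zero a5 a2))) (nm_old hb e)
    (div_mul_cancel₀ _ a2).symm a4 (mul_left_cancel₀ b2 ?_) (by field_simp)
  rw [← a9, b1, a4]
  field_simp
  linear_combination a8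

/-- the general fibre of `(true, false)` is the right component -/
theorem Ok.isR : PS.Is (h.qX ht h0 true false).ps (h.qR true).ps (h.πR _ _ _) := by
  refine (h.qX ht h0 true false).is (h.qR true) rfl (h.hol_nm (toR _ _ _))
    ⟨Hol.q_injective _ fun x hx x' hx' b hb e => ?_, Hol.q_surjective _ fun u hu =>
      ⟨pt P t (u.2 ∘ P.o) ![1, t, 1, (u.2 ∘ P.o) P.z], pt_mem
      ⟨(fam_mem.1 hu).2.1.mem, rfl, (fam_mem.1 hu).2.1.z', .inl one_ne_zero, .inr ⟨rfl, h0⟩,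
        .inl one_ne_zero⟩ (one_mul _) fun _ k => k.elim,
      exists_nm h ((cone_pR true false true).le hu)⟩⟩
  obtain ⟨a2, a3, a4⟩ := c_eq h0 hx hx'
  have a5 : x.2 P.y ≠ 0 := (fam_mem.1 hx).2.1.y.resolve_right (by simp)
  have a6 : x'.2 P.y ≠ 0 := (fam_mem.1 hx').2.1.y.resolve_right (by simp)
  have a8 : x.2 P.y * x.2 (P.o P.z) = x.2 P.b * x.2 P.y' := (fam_mem.1 hx).2.1.z
  have a9 : x'.2 P.y * x'.2 (P.o P.z) = x'.2 P.b * x'.2 P.y' := (fam_mem.1 hx').2.1.z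
  have b1 : x'.2 (P.o P.z) = P.dn b.2 P.η * x.2 (P.o P.z) :=
    (congrFun (nm_old hb e) _).trans (act_z h _ _)
  refine exists_rel hx hx' (unit_dn hb) (div_ne_zero a3 a2) (div_ne_zero a6 a5) (nm_old hb e)
    (div_mul_cancel₀ _ a2).symm a4 (div_mul_cancel₀ _ a5).symm (mul_left_cancel₀ a3 ?_)
  rw [← a9, b1]
  field_simp
  linear_combination P.dn b.2 P.η * a8

end Vale.Agent.P269.Pre
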