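import Vale.Agent.P269.Coh.VG
import Vale.Agent.P269.Br.Hg

/-!
# P269, cohomological packages: complete intersections are Lefschetz spaces
-/

set_option linter.unusedSectionVars false
set_option linter.style.haveILetI false

namespace Vale.Agent.P269

open Set Function Topology Filter P291Z Holo Mono Coh Tq Fock MvPolynomial

/-- admissible gradings commute with the line bundles if these are polynomials in `h` -/
theorem Wt.QM.gr_of_ad {S Λ R J : Type} [Fintype S] [Fintype Λ] [Fintype R] [Fintype J]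
    {W : Wt S Λ R J} {A n} (q : W.QM A n) {h : H (W.X A)} (L : Lf q.ps h) {l ν} (a : Ad q.ps h l ν)
    (hl : ∀ χ, W.lc A 0 χ ∈ amb h) : Wt.Gr q ν := ⟨L.nu a, fun χ => L.cm a (hl χ)⟩

variable {J K J' K' : Type} [Fintype J] [Fintype K] [Fintype J'] [Fintype K']
  {F : K → MvPolynomial J ℂ} {d : K → ℕ}

variable (F d) in
/-- The hyperplane class. -/
noncomputable abbrev hyp : H ((ciF F d).X (ciF F d).cone) := (ciF F d).lc _ 0 1

variable (J d) in
/-- The eigenvalues of the Hodge grading on the primitive cohomology. -/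
noncomputable def eigs : Multiset ℝ := Deg.lP (Fintype.card J - 1) (Finset.univ.val.map d)

theorem dT_ciF : (ciF F d).dT = Fintype.card J - 1 - Fintype.card K := by
  rw [Fam.dT, Fintype.card_unique (α := Unit), Nat.cast_one, sub_right_comm]

namespace CiL

theorem mem_rename (a : J ≃ J') (b : K' ≃ K) {x : J' → ℂ} :
    x ∈ (ciK fun k => MvPolynomial.rename a (F (b k))).cone ↔ x ∘ a ∈ (ciK F).cone := by
  simp only [mem_ciK, eval_rename]
  exact and_congr (not_congr ⟨fun e => e ▸ rfl, fun e => funext (a.surjective.forall.2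
    (congrFun e))⟩) ⟨fun e => b.surjective.forall.2 e, fun e k => e (b k)⟩

theorem comp_mem (a : J ≃ J') (b : K' ≃ K) {x : J → ℂ} (hx : x ∈ (ciK F).cone) :
    x ∘ a.symm ∈ (ciK fun k => MvPolynomial.rename a (F (b k))).cone :=
  (mem_rename a b).2 (by rwa [comp_assoc, a.symm_comp_self, comp_id])

theorem hol (d' : K' → ℕ) (a : J ≃ J') (b : K' ≃ K) :
    Hol (ciF F d).actT (ciF (fun k => MvPolynomial.rename a (F (b k))) d').actT (ciF F d).cone
      (ciF (fun k => MvPolynomial.rename a (F (b k))) d').cone (fun t => t)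
      fun z => (z.1, z.2 ∘ a.symm) :=
  .of_an Hm.id
    (fun _ hz => mem_ciF.2 (comp_mem a b (mem_ciF.1 hz)))
    (fun _ _ => analyticAt_fst.prod (analyticAt_pi_iff.2 fun j =>
      analyticAt_pi_iff.1 analyticAt_snd (a.symm j)))
    fun _ _ _ _ => rfl

theorem pos_map (h : SmCI F d) : ∀ x ∈ Finset.univ.val.map d, 1 ≤ x := fun x hx => by
  obtain ⟨j, -, rfl⟩ := Multiset.mem_map.1 hx
  exact h.pos j

theorem eigs_rename (a : J ≃ J') (b : K' ≃ K) : eigs J' (d ∘ b) = eigs J d := by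
  rw [eigs, eigs, Fintype.card_congr a, ← Multiset.map_map, Multiset.map_univ_val_equiv]

variable [Nonempty J] (h : SmCI F d)
include h

theorem subs (e : (ciF F d).cone = ∅) : Subsingleton (H ((ciF F d).X (ciF F d).cone)) :=
  haveI : IsEmpty ((ciF F d).X (ciF F d).cone) := ⟨mk_surj.forall.2 fun x => e.subset x.2⟩
  inferInstance

theorem cases : ((Fintype.card J - 1 - Fintype.card K : ℕ) : ℤ) = (ciF F d).dT ∨
    (ciF F d).cone = ∅ := by
  have h1 : 0 < Fintype.card J := Fintype.card_pos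
  have h2 := h.tg.qm.neg
  rw [dT_ciF] at h2 ⊢
  by_cases e : (Fintype.card J - 1 - Fintype.card K : ℤ) < 0
  exacts [.inr (h2 e), .inl (by omega)]

theorem norm (m : ℕ) (hm : (m : ℤ) = (ciF F d).dT) : h.tg.ps.J (hyp F d ^ m) ≠ 0 := by
  rw [dT_ciF] at hm
  exact h.tg.qm.J_eq _ ▸ Br.HgB.intX_pow h (by omega)

theorem empty (e : (ciF F d).cone = ∅) :
    Lf h.tg.ps (hyp F d) ∧ ∃ ν, Ad h.tg.ps (hyp F d) (eigs J d) ν := by
  haveI := subs h e
  have L : Lf h.tg.ps (hyp F d) :=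
    ⟨h.tg.qm.lc_deg _ _, fun _ _ x _ => Subsingleton.elim 0 x ▸ zero_mem _, norm h⟩
  have h1 : (ciF F d).dT < 0 := not_le.1 fun a => norm h _ (Int.toNat_of_nonneg a) (by
    rw [Subsingleton.elim (_ ^ _) 0, map_zero])
  have h2 : 0 < Fintype.card J := Fintype.card_pos
  have h3 : eigs J d = 0 := by
    rw [dT_ciF] at h1
    rw [eigs, Deg.lP_eq _ _ (pos_map h), Hdg.eig_of_dm_neg (by
      simp only [Hdg.dm, Multiset.card_map, Finset.card_val, Finset.card_univ]
      omega)]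
  rw [h3]
  exact ⟨L, L.exists_ad rfl Module.finrank_zero_of_subsingleton.symm
    fun _ => Multiset.notMem_zero _⟩

omit [Nonempty J] h in
open Br.Hg Hdg in
theorem fin {N c : ℕ} {d : Fin c → ℕ} {F : Fin c → MvPolynomial (Fin (N + 1)) ℂ} (h : SmCI F d)
    (hne : (ciF F d).cone.Nonempty) :
    Lf h.tg.ps (hyp F d) ∧ ∃ ν, Ad h.tg.ps (hyp F d) (eigs (Fin (N + 1)) d) ν := by
  have hne' : (ci F).cone.Nonempty := hne.elim fun z hz => ⟨z.2, mem_ciF.1 hz⟩
  have hn := card_eq h hne'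
  have L₀ := lf h hne'
  have e : ((N - c : ℕ) : ℤ) = (ciF F d).dT := by
    rw [dT_ciF]
    simp only [Fintype.card_fin] at hn ⊢
    omega
  have L : Lf h.tg.ps (hyp F d) := ⟨L₀.deg, fun k hk => L₀.amb k fun a => hk (a.trans e), norm h⟩
  have h1 := finrank_mid (isCI h) isProj_prj hn fun j hj =>
    L₀.exists_ne (j := j) (Nat.cast_le.2 hj)
  have h2 : eigs (Fin (N + 1)) d = Deg.lP N (Finset.univ.val.map d) := by
    rw [eigs, Fintype.card_fin, Nat.add_sub_cancel]
  have h3 : (Finset.univ.val.map d).card = c := by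
    rw [Multiset.card_map, Finset.card_val, Finset.card_univ, Fintype.card_fin]
  rw [h2]
  refine ⟨L, L.exists_ad (Deg.lP_neg _ _ (pos_map h)) ?_ fun o =>
    Deg.zero_notMem_lP _ _ (pos_map h) ?_ ?_⟩
  · rw [Deg.lP_eq _ _ (pos_map h)]
    exact (add_left_cancel (h1.symm.trans (L.finrank_van e)))
  · rw [Fintype.card_fin] at hn
    omega
  · rw [h3]
    exact (Int.odd_coe_nat _).1 (e ▸ o)

end CiL

namespace SmCI

open CiL

/-- relabelling the variables and the equations -/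
theorem rename (h : SmCI F d) (a : J ≃ J') (b : K' ≃ K) :
    SmCI (fun k => MvPolynomial.rename a (F (b k))) (d ∘ b) where
  hom k := (h.hom (b k)).rename_isHomogeneous
  pos k := h.pos (b k)
  ne k := (map_ne_zero_iff _ (rename_injective a a.injective)).2 (h.ne (b k))
  li x hx := (li_iff_surj _).2 fun c => by
    obtain ⟨η, hη⟩ := (li_iff_surj _).1 (h.li _ ((mem_rename a b).1 hx)) (c ∘ b.symm)
    refine ⟨η ∘ a.symm, fun k => ?_⟩
    rw [← a.sum_comp]
    simp only [pderiv_rename a.injective, eval_rename, comp_apply, Equiv.symm_apply_apply, hη]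

theorem pres_rename [Nonempty J] (h : SmCI F d) (a : J ≃ J') (b : K' ≃ K) :
    (ciF F d).Pres (ciF (fun k => MvPolynomial.rename a (F (b k))) (d ∘ b)) a
      (Empty.elim : Empty → J') (fun _ _ => 1) fun j => MvPolynomial.map C (X (a.symm j)) := by
  classical
  refine Fam.Pl.pres ⟨rfl, rfl, rfl, rfl⟩ ⟨rfl, rfl, rfl, rfl⟩ a.injective
    (fun j => by rw [a.symm_apply_apply]) nofun (fun j α hα _ => ?_)
    (fun n hn => funext fun _ => by simpa using hn ()) (fun n _ => ⟨n, funext fun _ => by simp⟩)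
    (fun _ => ⟨0, nofun⟩) fun z => ⟨fun hz => ⟨1, isUnit_one, (z.1, z.2 ∘ a),
      mem_ciF.2 ((mem_rename a b).1 (mem_ciF.1 hz)), ?_⟩, ?_⟩
  · rw [support_X, Finset.mem_singleton] at hα
    subst hα
    change ∑ i, ((Finsupp.single (a.symm j) 1 i : ℕ) : ℤ) * 1 = ∑ _r : Unit, (1 : ℤ) * 1
    rw [Finset.sum_eq_single (a.symm j) (fun _ _ e => by simp [e]) (by simp)]
    simp
  · rw [ciF_act]
    exact funext fun j => by simp
  · rintro ⟨t, ht, y, hy, e⟩
    have h1 := (h.rename a b).hom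
    refine mem_ciF.2 (e ▸ mem_ciF.1 ((ciF_inv h1).cone_act (t := (1, t))
      (Prod.isUnit_iff.2 ⟨isUnit_one, ht⟩) (mem_ciF.2 ?_)))
    simp only [eval_X]
    exact comp_mem a b (mem_ciF.1 hy)

variable [Nonempty J] (h : SmCI F d)
include h

theorem exists_is [Nonempty J'] (a : J ≃ J') (b : K' ≃ K) :
    ∃ q, PS.Is h.tg.ps (h.rename a b).tg.ps q ∧ H.map q (hyp _ _) = hyp F d := by
  haveI := h.good.fp
  haveI := (h.rename a b).good.fp
  have φ := hol (F := F) (d := d) (d ∘ b) a b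
  refine ⟨φ.q, h.tg.qm.is (h.rename a b).tg.qm ?_ φ ⟨φ.q_injective fun x _ y _ t ht e =>
    ⟨t, ht, Prod.ext (Subsingleton.elim _ _) (funext fun j => ?_)⟩, φ.q_surjective fun y hy =>
      ⟨(y.1, y.2 ∘ a), mem_ciF.2 ((mem_rename a b).1 (mem_ciF.1 hy)), 1, isUnit_one,
        Prod.ext (Subsingleton.elim _ _) ?_⟩⟩, Wt.map_lc φ.toEqh fun _ _ => rfl⟩
  · rw [dT_ciF, dT_ciF, Fintype.card_congr a, Fintype.card_congr b]
  · have := congrFun (congrArg Prod.snd e) (a j)
    rw [ciF_act] at this ⊢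
    simpa using this
  · rw [ciF_act]
    exact funext fun j => by simp

theorem lc_eq (χ : Unit → ℤ) : (ciF F d).lc _ 0 χ = (χ () : ℂ) • hyp F d :=
  haveI := h.good.fp
  Br.HgB.lc_eq 0 χ

theorem lc_mem (χ : Unit → ℤ) : (ciF F d).lc _ 0 χ ∈ amb (hyp F d) := by
  rw [h.lc_eq]
  exact Submodule.smul_mem _ _ (Submodule.subset_span ⟨1, pow_one _⟩)

theorem lf_ad : Lf h.tg.ps (hyp F d) ∧ ∃ ν, Ad h.tg.ps (hyp F d) (eigs J d) ν := by
  rcases (ciF F d).cone.eq_empty_or_nonempty with e | ⟨z, hz⟩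
  · exact empty h e
  obtain ⟨N, hN⟩ : ∃ N, Fintype.card J = N + 1 :=
    ⟨_, (Nat.succ_pred_eq_of_pos Fintype.card_pos).symm⟩
  let a := Fintype.equivFinOfCardEq hN
  let b := (Fintype.equivFin K).symm
  obtain ⟨q, i, e⟩ := h.exists_is a b
  obtain ⟨L, ν, A⟩ := fin (h.rename a b) ⟨_, (hol (d := d) (d ∘ b) a b).maps hz⟩
  obtain ⟨ν', c⟩ := i.exists_map ν
  rw [eigs_rename a b] at A
  exact ⟨e ▸ i.lf_iff.2 L, ν', e ▸ (i.ad_iff c).2 A⟩

/-- **The Lefschetz theorem.** -/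
theorem lf : Lf h.tg.ps (hyp F d) := h.lf_ad.1

theorem card_eigs : (eigs J d).card = Module.finrank ℂ (van (hyp F d) h.tg.ps.J) :=
  h.lf_ad.2.elim fun _ A => h.lf.card_eq A

theorem exists_ad : ∃ ν, Ad h.tg.ps (hyp F d) (eigs J d) ν := h.lf_ad.2

theorem gr {l ν} (a : Ad h.tg.ps (hyp F d) l ν) : Wt.Gr h.tg.qm ν :=
  h.tg.qm.gr_of_ad h.lf a h.lc_mem

theorem vg_of_vci {N : ℕ} {ds : Multiset ℕ} (hV : VCI N ds) (hN : Fintype.card J = N + 1)
    (hd : Finset.univ.val.map d = ds) {ν} (a : Ad h.tg.ps (hyp F d) (eigs J d) ν) :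
    h.tg.VG ν := by
  have g := h.gr a
  obtain ⟨pr, h5, -, h6⟩ := h.lf.exists_prim a (h.tg.qm.lc_deg 0 (ciF F d).κ₁) (g.cm _)
    (h.lc_mem _) (ε := (-1) ^ (Fintype.card J - 1 - Fintype.card K)) (by rw [← mul_pow]; simp)
    fun m hm => by
      have : (m : ℤ) = Fintype.card J - 1 - Fintype.card K := hm.trans (dT_ciF (F := F) (d := d))
      rw [show Fintype.card J - 1 - Fintype.card K = m by omega]
  refine ⟨g, hV J K F d hN hd h _ _ _ (h.tg.std g) ⟨pr, fun v => h5 ▸ Iff.rfl, ?_, h6⟩⟩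
  rcases cases h with e | e
  · rw [PS.one_eq]
    change h.tg.ps.mu0 1 + ν 1 = _
    rw [g.nu.one, PS.mu0_of_deg H.isDeg_one, add_zero]
    change ((_ - ((ciF F d).dT : ℂ)) / 2) • _ = _
    rw [← e]
    simp [neg_div]
  · exact (subs h e).elim _ _

theorem vir_of_vg (hK : St.Kit) (hV : ∀ ν, Ad h.tg.ps (hyp F d) (eigs J d) ν → h.tg.VG ν) {C i vd}
    (s : (ciF F d).Std C i vd) (a : Adm F d C i vd) : (ciF F d).Vir C i vd := by
  obtain ⟨pr, h1, h2, h3⟩ := a
  obtain ⟨ν, A, e⟩ := h.lf.ad_of_prim s.bij (fun a b => (s.η a b).trans (h.tg.qm.J_eq _).symm)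
    s.one pr h1 s.deg (s.lc 1) (by
      rcases cases h with e | e
      · rw [h2, map_smul, s.one]
        change _ = (-((ciF F d).dT : ℂ) / 2) • _
        rw [← e, neg_div, Int.cast_natCast]
      · exact (subs h e).elim _ _)
  exact (hV ν (by rwa [h3] at A)).vir hK s e

end SmCI

end Vale.Agent.P269
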