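import Vale.Agent.P269.Coh.QM

/-!
# P269, cohomological packages: the integral is real
-/

namespace Vale.Agent.P269.Tq

open Set Function Topology Filter Module P291Z Holo Mono Coh
open scoped ComplexConjugate

section Cj

variable {X : Type}

theorem cjC_one : cjC (1 : Coch X) = 1 := Coch.ext fun l => by
  change conj (unit X l) = unit X l
  unfold P291Z.unit
  split_ifs
  exacts [map_one _, map_zero _]

theorem cjC_ofFn_prod {m : ℕ} (a : Fin m → Coch X) :
    cjC (List.ofFn a).prod = (List.ofFn fun i => cjC (a i)).prod := by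
  induction m with
  | zero => simpa using cjC_one
  | succ m ih => rw [List.ofFn_succ, List.ofFn_succ, List.prod_cons, List.prod_cons, cjC_mul, ih]

variable [TopologicalSpace X]

theorem cohom_cjC {A : Set X} {a b : Coch X} (h : Cohom A a b) : Cohom A (cjC a) (cjC b) := by
  obtain ⟨c, h1, h2⟩ := h
  exact ⟨cjC c, by rwa [supp_cjC], by rwa [← cjC_δ, ← cjC_sub, ← cjC_sub, supp_cjC]⟩

theorem cjC_mem_Zc {a : Coch X} (h : a ∈ Zc X) : cjC a ∈ Zc X :=
  ⟨by rw [supp_cjC]; exact h.1, cocycle_cjC h.2⟩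

theorem cjC_mem_Bc {a : Coch X} (h : a ∈ Bc X) : cjC a ∈ Bc X := by
  obtain ⟨c, h1, h2⟩ := h
  exact ⟨cjC c, by rwa [supp_cjC], by rwa [← cjC_δ, ← cjC_sub, supp_cjC]⟩

/-- the conjugate of a Borel-Moore class -/
theorem exists_cjBM (β : BM X) : ∃ β' : BM X, ∀ a, ev β' a = conj (ev β (cjC a)) := by
  obtain ⟨f, hf⟩ := Hc.exists_lift (M := ℂ) (Zc X) LinearMap.id
    ⟨⟨fun a => conj (β (P291Z.cls (cjC a.1))), fun a b => by
        rw [Submodule.coe_add, cjC_add, cls_add (cjC_mem_Zc a.2) (cjC_mem_Zc b.2), map_add,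
          map_add]⟩, fun c a => by
      simp only [Submodule.coe_smul, cjC_smul, cls_smul _ (cjC_mem_Zc a.2), map_smul, smul_eq_mul,
        map_mul, Complex.conj_conj, RingHom.id_apply]⟩
    (fun _ h => h) (fun a ha => ⟨a, ha, by simp⟩) fun a ha => by
      change conj (β (P291Z.cls (cjC a.1))) = 0
      rw [cls_of_mem_Bc (cjC_mem_Bc (a := a.1) ha), map_zero, map_zero]
  refine ⟨f, fun a => ?_⟩
  rw [ev_eq, ev_eq]
  by_cases ha : a ∈ Zc X
  · exact hf ⟨a, ha⟩
  · rw [cls_of_notMem ha, cls_of_notMem fun h => ha (cjC_cjC a ▸ cjC_mem_Zc h), map_zero, map_zero,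
      map_zero]

end Cj

theorem cohom_cj_wind : Cohom {0} (cjC (δ wind)) (δ wind) := by
  refine ⟨cjC wind - wind + δ (fn fun z => (Real.log ‖z‖ : ℂ) / (Real.pi * Complex.I)),
    fun z hz => ?_, ?_⟩
  · by_contra h
    refine IsDeg.van_one (((isDeg_cjC isDeg_wind).sub isDeg_wind).add (isDeg_fn _).δ)
      (compl_singleton_mem_nhds h) (fun u hu v hv => ?_) hz
    have e := Complex.add_conj (Complex.log (v / u))
    rw [Complex.log_re, norm_div, Real.log_div (norm_ne_zero_iff.2 hv) (norm_ne_zero_iff.2 hu)] at e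
    rw [Coch.add_val, Pi.add_apply, Coch.sub_val, Pi.sub_apply, δ_val_pair, fn_val, fn_val]
    change conj (wind.1 [u, v]) - _ + _ = 0
    have hπ : (Real.pi : ℂ) ≠ 0 := Complex.ofReal_ne_zero.2 Real.pi_ne_zero
    rw [wind_val, map_div₀, map_mul, map_mul, Complex.conj_I, Complex.conj_ofReal, map_ofNat,
      eq_sub_of_add_eq' e]
    push_cast
    field_simp
    ring
  · rw [map_add, δ_δ, add_zero, map_sub, cjC_δ, sub_self, supp_zero]

theorem cohom_cj_tau (r : ℕ) : Cohom {0} (cjC (tau r)) (tau r) := by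
  have hc : ∀ i : Fin r, Continuous fun z : Fin r → ℂ => z i := continuous_apply
  have h1 : ∀ i : Fin r, supp (δ (pull (fun z : Fin r → ℂ => z i) (δ wind))) = ∅ := fun i =>
    cocycle_pull (hc i) (cocycle_δ _)
  have h2 : ∀ i : Fin r, supp (pull (fun z : Fin r → ℂ => z i) (δ wind)) ⊆
      (fun z : Fin r → ℂ => z i) ⁻¹' {0} := fun i =>
    (supp_pull (hc i) _).trans (preimage_mono supp_δ_wind)
  rw [tau, cjC_ofFn_prod]
  have h3 : ∀ i : Fin r, Cohom ((fun z : Fin r → ℂ => z i) ⁻¹' {0})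
      (cjC (pull (fun z : Fin r → ℂ => z i) (δ wind))) (pull (fun z => z i) (δ wind)) := fun i => by
    rw [cjC_pull]
    exact cohom_cj_wind.pull (hc i)
  refine (Fl.cohom_prod h3 (fun i => cocycle_cjC (h1 i)) h1
    (fun i => (supp_cjC _).trans_subset (h2 i)) h2).mono fun z hz => funext fun i => ?_
  exact mem_iInter.1 hz i

variable {A W : Type} [NormedRing A] [NormedAlgebra ℂ A] [NormedAddCommGroup W]
  [NormedSpace ℂ W] [FiniteDimensional ℂ A] [FiniteDimensional ℂ W] {act : A → W → W} {S : Set W}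
  [IsAct act univ] {n : ℤ}

omit [FiniteDimensional ℂ A] [FiniteDimensional ℂ W] [IsAct act univ] in
theorem isFund_cj {β β' : BM (Quo act S)} (h : P269.IsFund act S β)
    (e : ∀ a, ev β' a = conj (ev β (cjC a))) : P269.IsFund act S β' := by
  obtain ⟨d, h1, h2⟩ := h
  refine ⟨d, fun j a hj ha => by rw [e, h1 j _ hj (isDeg_cjC ha), map_zero],
    fun d' U φ hc => ⟨(h2 d' U φ hc).1, fun a ha hs hco => ?_⟩⟩
  rw [e, (h2 d' U φ hc).2 _ (cjC_mem_Zc ha) (by rwa [supp_cjC]) ((cohom_cjC hco).trans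
    ((cohom_cj_tau d').pull continuous_subtype_val)), map_one]

theorem QM.re (h : QM act S n) : h.ps.Re := fun x => by
  have := h.fp
  have := h.cpt
  obtain ⟨β, hβ⟩ := exists_cjBM (fnd act S)
  have e : β = fnd act S :=
    (FP.eq_fundQ h.dim.holOrb (isFund_cj h.dim.isFund hβ)).trans h.dim.fnd_eq.symm
  obtain ⟨a, ha, rfl⟩ := hcls_surj x
  change Loc.intg (fnd act S) (cj (hcls a)) = conj (Loc.intg (fnd act S) (hcls a))
  rw [cj_hcls ha, Loc.intg_hcls _ ha, Loc.intg_hcls _ (cocycle_cjC ha), ← e, hβ, cjC_cjC, e]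

end Vale.Agent.P269.Tq
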