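import Vale.Agent.P269.Coh.DPk0
import Vale.Agent.P269.Coh.Re

/-!
# P269, cohomological packages: isotropic classes from the double point degeneration
-/

set_option linter.unusedSectionVars false

namespace Vale.Agent.P269.Coh

open P291Z Set Function Fock Mono PS

/-- isotropic classes from the centre of a blow-up which is the right piece -/
theorem Bl.iso {Z S B E D : PS} {ι : C(S.X, Z.X)} {π : C(B.X, Z.X)} {j : C(E.X, B.X)}
    {p : C(E.X, S.X)} {c : Fin 2 → H S.X} {ξ : H E.X} (b : Bl Z S B E ι π j p c ξ) {n : H D.X}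
    {Y1 : Pc D n 1} {Y2 : Pc D n (-1)} (X : Sk Y1 Y2) {w : H X.W} {e : C(B.X, Y2.X)}
    (i : Is B Y2.toPS e) {x : H Z.X} (hw : H.map e (H.map X.k2 w) = H.map π x) {u : H D.X}
    (hu : H.map Y2.j (H.map X.k2 w) = u) (LD : Lf D u) (hr : ∀ t, H.map Y2.j t ∈ amb u)
    {c' : H S.X} (he : H.map j (H.map e (push Y2.j 1)) = ξ + H.map p c') (rB : B.Re) (rE : E.Re)
    {y : H S.X} (hy : H.map ι x = y) (LS : Lf S y) (hi : Iso S y) :
    Iso X.toPS (H.map X.k w) := by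
  obtain ⟨s, hs, s0, ss, cs⟩ := hi
  have F := LS.isForm (ε := (-1) ^ S.n.toNat) (by rw [← mul_pow]; simp) fun m a => by
    rw [← a, Int.toNat_natCast]
  obtain ⟨s', hs', s1⟩ : ∃ s' ∈ van y S.J, S.J (s * s') ≠ 0 := by
    by_contra! a
    exact s0 (F.nondeg s hs fun v hv => by rw [F.symm v hv s hs, bil_apply, a v hv, mul_zero])
  have k : ∀ a ∈ van y S.J, H.map Y2.j (push e (push j (H.map p a))) = 0 := fun a ha =>
    LD.eq_zero (hr _) fun m => by
      rw [← hu, ← map_pow, ← map_mul, ← mul_one (H.map Y2.j _), ← J_mul_push, ← i.J,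
        map_mul (H.map e), map_mul (H.map e), i.map_push, map_pow, hw, ← mul_push j, J_push_mul,
        he, ← map_pow, BlA.map_sq b.sq, ← map_mul (H.map p), mul_add, map_add,
        ← map_mul (H.map p), BlA.int0 b.pb, ← b.pb.deg.commute even_two, BlA.int1 b.pb, map_pow,
        hy, mem_van.1 ha, add_zero]
  refine X.iso_of_right (k s hs) (k s' hs') (i.bij.1 ?_) ?_ ?_ fun m => ?_
  · rw [← cj_map, i.map_push, rE.push rB, cj_map, cs]
  · rw [← i.J, map_mul, i.map_push, b.J_exc, ss, neg_zero]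
  · rwa [← i.J, map_mul, i.map_push, i.map_push, b.J_exc, neg_ne_zero]
  · rw [← i.J, map_mul, i.map_push, map_pow, hw, ← map_pow, b.orth]

end Vale.Agent.P269.Coh

namespace Vale.Agent.P269.Flag

open Set Function Topology Filter P291Z Holo Mono Coh Tq Fock MvPolynomial

variable {J K : Type} [Fintype J] [Fintype K] [Nonempty J] {f : Flag J K} (h : f.Ok) {Ω : Set ℂ}
  {θ : Option Unit → ℤ} {t : ℂ} {A : Set ℂ}

variable (hP : (f.pD Ω).Ok)
include h hP

theorem Ok.iso_X (s : (f.pD Ω).Sks t A)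
    (i : Iso (s.sk true true).sk.toPS (H.map (s.sk true true).sk.k (f.hq Ω _))) :
    Iso (h.smX hP s.mem s.ne).tg.ps (hyp _ _) := by
  have a := h.isX hP s.mem s.ne
  rw [← h.eX_hq hP s.mem s.ne]
  refine (Iso.map_iff a.bij a.J).2 ?_
  have k := s.sk true true
  have e : H.map k.sk.k (f.hq Ω _) = f.hq Ω _ := Wt.map_qinc_lc k.qX.fp k.fp k.sX _ _
  rwa [e] at i

/-- **tubes** -/
theorem Ok.iso_tube (s : (f.pD Ω).Sks t A) (T : (s.sk true true).sk.Top) (he : Even f.tW.dT)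
    (hl : eigs J f.dD ≠ 0) : Iso (h.smX hP s.mem s.ne).tg.ps (hyp _ _) := by
  refine h.iso_X hP s (T.iso _ (h.lfD hP) ?_ (fun a => hl ?_)
    (fun u => (h.range_jL hP).le ⟨u, rfl⟩) (h.jR_mem hP))
  · show Even ((f.pD Ω).n + 1)
    rwa [n_pD, sub_add_cancel]
  · have := h.D.tg.ps.pd.fin
    rw [← Multiset.card_eq_zero, h.D.card_eigs, Submodule.finrank_eq_zero, eq_bot_iff]
    intro v hv
    obtain ⟨u, rfl⟩ := (h.isD hP).bij.2 v
    rw [← h.eD_hq hP, (h.isD hP).mem_van, a, Submodule.mem_bot] at hv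
    rw [hv, map_zero, Submodule.mem_bot]

/-- **classes from the centre** -/
theorem Ok.iso_exc (s : (f.pD Ω).Sks t A) (i : Iso h.Z.tg.ps (hyp _ _)) :
    Iso (h.smX hP s.mem s.ne).tg.ps (hyp _ _) := by
  obtain ⟨θ, hE⟩ := h.exists_tE
  have k := s.sk true true
  have e : H.map k.sk.k2 (f.hq Ω _) = f.hq Ω _ := Wt.map_qinc_lc k.r.qA.fp k.fp k.s2 _ _
  refine h.iso_X hP s ((h.bl hE).iso k.sk (h.isB hP) ((congrArg _ e).trans (h.eR_hq hP))
    ((congrArg _ e).trans (Wt.map_qinc_lc k.r.qD.fp k.r.qA.fp k.r.sub _ _)) (h.lfD hP)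
    (h.jR_mem hP) (c' := f.tZ.lc _ 0 fun _ => f.a) ?_ h.tB.qm.re hE.qm.re h.ιZ_hyp h.Z.lf i)
  refine (congrArg _ ((congrArg _ (hP.push_R true)).trans
    ((h.mB hP).q_lc _ (hP.qR true).fp _))).trans ((h.jE_lc hE _).trans ?_)
  rw [h.Z.tg.pj_lc hE.qm.fp, ← Wt.QM.lc_add hE.qm, Pre.dχ_b, chM_single]
  congr 1
  funext o
  cases o <;> simp [chM, Flag.mB, mB', wv, pD]

end Vale.Agent.P269.Flag
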