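import Vale.Agent.P269.Coh.Ml0
import Vale.Agent.P269.Coh.Cap
import Vale.Agent.P269.Coh.BlG
import Vale.Agent.P269.Asm.DPre

/-!
# P269, cohomological packages: the spaces of the double point degeneration
-/

set_option linter.unusedSectionVars false

namespace Vale.Agent.P269.Flag

open Set Function Topology Filter P291Z Holo Mono Coh Tq Fock MvPolynomial

variable {J K : Type} [Fintype J] [Fintype K] [Nonempty J] {f : Flag J K} (h : f.Ok) {Ω : Set ℂ}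
  {θ : Option Unit → ℤ} {t : ℂ} {A : Set ℂ}

theorem n_pD : (f.pD Ω).n = f.tW.dT - 1 := by
  simp only [Pre.n, Fam.dT, Fintype.card_sum, Fintype.card_fin, Fintype.card_option,
    Fintype.card_bool, Fintype.card_unit]
  push_cast
  ring

theorem κD_D : chM (fun r (_ : Unit) => wv 1 (-1) r) (f.pD Ω).κ₀ = f.tD.κ₁ := by
  rw [Pre.κ₀, κ_pD, κ_ciF]
  funext r
  simp [chM, wv, dD]
  ring

theorem κD_Y : chM (fun r (_ : Unit) => wv 1 (-1) r) ((f.pD Ω).κ₀ - Pi.single (f.pD Ω).η 1) =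
    f.tY.κ₁ := by
  rw [Pre.κ₀, κ_pD, κ_ciF]
  funext r
  simp [chM, wv, dD, pD]
  ring

theorem κD_B : chM f.mB ((f.pD Ω).κ₀ + Pi.single (f.pD Ω).η 1) = f.tB.κ₁ := by
  rw [Pre.κ₀, κ_pD, κ_tB]
  funext r
  cases r <;> simp [chM, wv, mB, pD]

theorem κD_X : chM (fun r (_ : Unit) => wv 1 0 r) (f.pD Ω).κ₀ = (f.tX t).κ₁ := by
  rw [Pre.κ₀, κ_pD, κ_ciF]
  funext r
  simp [chM, wv, dX]
  ring

theorem θD_B (d) : f.gB.deg d = ∑ r, chM f.mB ((f.pD Ω).θ + Pi.single (f.pD Ω).η 1) r * d r := by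
  rw [show f.gB.deg d = ∑ r, f.θB r * d r from rfl]
  refine Finset.sum_congr rfl fun r _ => congrArg (· * d r) ?_
  cases r <;> simp [chM, wv, mB, pD, θB] <;> ring

theorem exists_gX : ∃ g₀ : Deg.Grd (Unit → ℤ), g₀.deg 1 ≠ 0 ∧ ∀ d, g₀.deg d =
    ∑ r, chM (fun r (_ : Unit) => wv 1 0 r) ((f.pD Ω).θ + Pi.single (f.pD Ω).η 1) r * d r := by
  refine ⟨⟨(AddMonoidHom.mulLeft (3 * f.a + 7 : ℤ)).comp (Pi.evalAddMonoidHom _ ()), 0⟩, ?_,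
    fun d => ?_⟩
  · simp
    omega
  · simp [chM, wv, pD]

theorem DP0.ch_h (q : ℤ) : chM (fun r (_ : Unit) => wv 1 q r)
    ((f.pD Ω).dχ ((f.pD Ω).up (wv 1 0))) = 1 := by
  rw [Pre.dχ_up]
  funext r
  simp [chM, wv]

theorem DP0.ch_B : chM f.mB ((f.pD Ω).dχ ((f.pD Ω).up (wv 1 0))) = wv 1 1 := by
  rw [Pre.dχ_up]
  funext r
  simp [chM, wv, mB]

variable (f Ω) in
/-- The hyperplane class. -/
noncomputable abbrev hq (B : Set ((Option Empty → ℂ) × ((f.pD Ω).QJ → ℂ))) : P291Z.H ((f.pD Ω).W.X B) :=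
  (f.pD Ω).W.lc B 0 ((f.pD Ω).up (wv 1 0))

variable (hP : (f.pD Ω).Ok)
include h hP

theorem Ok.mD : (f.pD Ω).Ml (f.pD Ω).dvs f.tD (fun r _ => wv 1 (-1) r) f.σD :=
  ⟨hP, h.D.tg, fun _ a => a.1, _, inferInstance, _, _, h.pres_D⟩

theorem Ok.mY : (f.pD Ω).Ml (f.pD Ω).lft f.tY (fun r _ => wv 1 (-1) r) f.σY :=
  ⟨hP, h.smY.tg, fun _ a => a.1, _, inferInstance, _, _, h.pres_Y⟩

theorem Ok.mB : (f.pD Ω).Ml ((f.pD Ω).mem false 0) f.tB f.mB σB :=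
  ⟨hP, h.tB, fun _ a => a.1, _, inferInstance, _, _, h.pres_B⟩

theorem Ok.mX (ht : t ∈ Ω) (h0 : t ≠ 0) :
    (f.pD Ω).Ml ((f.pD Ω).mem true t) (f.tX t) (fun r _ => wv 1 0 r) (f.σX t) :=
  ⟨hP, (h.smX hP ht h0).tg, fun _ a => a.1, _, inferInstance, _, _, h.pres_X h0⟩

theorem Ok.isD : PS.Is h.D.tg.ps hP.qD.ps (h.mD hP).eD :=
  (h.mD hP).isD (dT_D.trans n_pD.symm)

theorem Ok.isY : PS.Is h.smY.tg.ps (hP.qL true).ps (h.mY hP).eL :=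
  (h.mY hP).isL (by rw [dT_Y, n_pD, sub_add_cancel])

theorem Ok.isB : PS.Is h.tB.ps (hP.qR true).ps (h.mB hP).eR :=
  (h.mB hP).isR (by rw [dT_B, n_pD, sub_add_cancel])

theorem Ok.isX (ht : t ∈ Ω) (h0 : t ≠ 0) :
    PS.Is (h.smX hP ht h0).tg.ps (hP.qX ht h0 true true).ps (h.mX hP ht h0).eX :=
  (h.mX hP ht h0).isX ht h0 (by rw [dT_X, n_pD, sub_add_cancel])

theorem Ok.eD_hq : H.map (h.mD hP).eD (f.hq Ω _) = hyp _ _ :=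
  ((h.mD hP).q_lc _ hP.qD.fp _).trans (congrArg (f.tD.lc _ 0) (DP0.ch_h _))

theorem Ok.eL_hq : H.map (h.mY hP).eL (f.hq Ω _) = hyp _ _ :=
  ((h.mY hP).q_lc _ (hP.qL true).fp _).trans (congrArg (f.tY.lc _ 0) (DP0.ch_h _))

theorem Ok.eR_hq : H.map (h.mB hP).eR (f.hq Ω _) = H.map f.πB (hyp _ _) :=
  (((h.mB hP).q_lc _ (hP.qR true).fp _).trans (congrArg (f.tB.lc _ 0) DP0.ch_B)).trans
    (h.πB_lc 1).symm

theorem Ok.eX_hq (ht : t ∈ Ω) (h0 : t ≠ 0) :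
    H.map (h.mX hP ht h0).eX (f.hq Ω _) = hyp _ _ :=
  ((h.mX hP ht h0).q_lc _ (hP.qX ht h0 true true).fp _).trans
    (congrArg ((f.tX t).lc _ 0) (DP0.ch_h _))

theorem Ok.lfD : Lf hP.qD.ps (f.hq Ω _) :=
  (h.isD hP).lf_iff.1 ((h.eD_hq hP).symm ▸ h.D.lf)

theorem Ok.lfL : Lf (hP.qL true).ps (f.hq Ω _) :=
  (h.isY hP).lf_iff.1 ((h.eL_hq hP).symm ▸ h.smY.lf)

theorem Ok.lfX (ht : t ∈ Ω) (h0 : t ≠ 0) : Lf (hP.qX ht h0 true true).ps (f.hq Ω _) :=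
  (h.isX hP ht h0).lf_iff.1 ((h.eX_hq hP ht h0).symm ▸ (h.smX hP ht h0).lf)

theorem DP0.lcD (χ) : (f.pD Ω).W.lc (f.pD Ω).AD 0 χ ∈ amb (f.hq Ω _) :=
  (h.isD hP).mem_amb.1 (by
    rw [h.eD_hq hP]
    exact ((h.mD hP).q_lc _ hP.qD.fp χ).symm ▸ h.D.lc_mem _)

theorem DP0.lcL (χ) : (f.pD Ω).W.lc ((f.pD Ω).AL true) 0 χ ∈ amb (f.hq Ω _) :=
  (h.isY hP).mem_amb.1 (by
    rw [h.eL_hq hP]
    exact ((h.mY hP).q_lc _ (hP.qL true).fp χ).symm ▸ h.smY.lc_mem _)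

theorem DP0.lcX (ht : t ∈ Ω) (h0 : t ≠ 0) (χ) :
    (f.pD Ω).W.lc ((f.pD Ω).AX true true t) 0 χ ∈ amb (f.hq Ω _) :=
  (h.isX hP ht h0).mem_amb.1 (by
    rw [h.eX_hq hP ht h0]
    exact ((h.mX hP ht h0).q_lc _ (hP.qX ht h0 true true).fp χ).symm ▸ (h.smX hP ht h0).lc_mem _)

omit h in
theorem DP0.jL_hq : H.map (hP.jL true) (f.hq Ω _) = f.hq Ω _ :=
  Wt.map_qinc_lc hP.qD.fp (hP.qL true).fp _ _ _

omit h in
theorem DP0.jR_hq : H.map (hP.jR true) (f.hq Ω _) = f.hq Ω _ :=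
  Wt.map_qinc_lc hP.qD.fp (hP.qR true).fp _ _ _

theorem Ok.grD {l ν} (a : Ad hP.qD.ps (f.hq Ω _) l ν) : Wt.Gr hP.qD ν :=
  hP.qD.gr_of_ad (h.lfD hP) a (DP0.lcD h hP)

theorem Ok.grL {l ν} (a : Ad (hP.qL true).ps (f.hq Ω _) l ν) : Wt.Gr (hP.qL true) ν :=
  (hP.qL true).gr_of_ad (h.lfL hP) a (DP0.lcL h hP)

theorem Ok.grX (ht : t ∈ Ω) (h0 : t ≠ 0) {l ν} (a : Ad (hP.qX ht h0 true true).ps (f.hq Ω _) l ν) :
    Wt.Gr (hP.qX ht h0 true true) ν :=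
  (hP.qX ht h0 true true).gr_of_ad (h.lfX hP ht h0) a (DP0.lcX h hP ht h0)

theorem Ok.lcD_mem (χ) : (f.pD Ω).W.lc (f.pD Ω).AD 0 χ ∈ amb (f.hq Ω _) :=
  DP0.lcD h hP χ

theorem Ok.lcX_mem (ht : t ∈ Ω) (h0 : t ≠ 0) (χ) :
    (f.pD Ω).W.lc ((f.pD Ω).AX true true t) 0 χ ∈ amb (f.hq Ω _) :=
  DP0.lcX h hP ht h0 χ

theorem Ok.range_jL : LinearMap.range (pl (hP.jL true)) = amb (f.hq Ω _) := by
  have := (h.lfL hP).range_res (D := hP.qD.ps) (hP.jL true) rfl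
    ((DP0.jL_hq hP).symm ▸ h.lfD hP)
  rwa [DP0.jL_hq hP] at this

theorem Ok.jR_mem (u) : H.map (hP.jR true) u ∈ amb (f.hq Ω _) := by
  obtain ⟨θ, hE⟩ := h.exists_tE
  have hB : ∀ z ∈ (f.pD Ω).AR true, z.2 ∘ (f.pD Ω).o ∈ (f.pD Ω).mem false 0 := fun z hz =>
    Pre.sc_mem_R.1 (Pre.toR _ _ _ hz)
  have e1 : ∀ v, H.map (h.ret_B.q hB) (H.map (h.mB hP).eR v) = v := fun v =>
    (h.isB hP).bij.1 ((congrFun (GrA.map_eq (k := .id _) (h.ret_B.q_emb hB (h.mB hP) _)) _).trans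
      (H.map_id (fun _ => rfl) _))
  have e2 : ∀ v, H.map ((h.ret_B.q hB).comp (hP.jR true)) v =
      H.map (hP.jR true) (H.map (h.ret_B.q hB) v) := fun v => (H.map_map _ _ v).symm
  have e3 : H.map ((h.ret_B.q hB).comp (hP.jR true)) (H.map f.πB (hyp _ _)) = f.hq Ω _ := by
    rw [e2, ← h.eR_hq hP, e1, DP0.jR_hq hP]
  have := (h.bl hE).map_mem_amb (D := hP.qD.ps) ((h.ret_B.q hB).comp (hP.jR true))
    (show f.tB.dT = (f.pD Ω).n + 1 by rw [dT_B, n_pD, sub_add_cancel]) (x := hyp _ _)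
    (e3.symm ▸ (h.lfD hP).amb) h.W.lf.amb (h.ιZ_hyp.symm ▸ h.Z.lf.amb)
    (by rw [e3, h.push_jE hE, e2, h.ret_B.q_lc hB (hP.qR true).fp h.tB.qm.fp,
          Wt.map_qinc_lc hP.qD.fp (hP.qR true).fp]
        exact h.lcD_mem hP _) (H.map (h.mB hP).eR u)
  rwa [e3, e2, e1] at this

theorem Ok.jL_nu {ν} (g : Wt.Gr (hP.qL true) ν) (u) : H.map (hP.jL true) (ν u) = 0 :=
  (hP.pcL true).pc.res_nu g.nu ((hP.qL true).lc_deg 0 _) (g.cm ((f.pD Ω).up (wv 1 0)))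
    ((hP.push_L true).symm ▸ g.cm _)
    (fun v => (DP0.jL_hq hP).symm ▸ (h.range_jL hP).le ⟨v, rfl⟩)
    (fun _ => (DP0.jL_hq hP).symm ▸ (h.lfD hP).eq_zero) u

theorem Ok.jR_nu {ν} (g : Wt.Gr (hP.qR true) ν) (u) : H.map (hP.jR true) (ν u) = 0 :=
  (hP.pcR true).pc.res_nu g.nu ((hP.qR true).lc_deg 0 _) (g.cm ((f.pD Ω).up (wv 1 0)))
    ((hP.push_R true).symm ▸ g.cm _)
    (fun v => (DP0.jR_hq hP).symm ▸ h.jR_mem hP v)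
    (fun _ => (DP0.jR_hq hP).symm ▸ (h.lfD hP).eq_zero) u

theorem Ok.cp_jL {ν νD} (g : Wt.Gr (hP.qL true) ν) (gD : Wt.Gr hP.qD νD) :
    Cg (hP.jL true) ν νD := fun b =>
  (h.jL_nu hP g b).trans (PAA.nu_amb gD.nu (gD.cm _) ((h.range_jL hP).le ⟨b, rfl⟩)).symm

theorem Ok.cp_jR {ν νD} (g : Wt.Gr (hP.qR true) ν) (gD : Wt.Gr hP.qD νD) :
    Cg (hP.jR true) ν νD := fun b =>
  (h.jR_nu hP g b).trans (PAA.nu_amb gD.nu (gD.cm _) (h.jR_mem hP b)).symm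

end Vale.Agent.P269.Flag
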