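import Vale.Agent.P269.Coh.PA
import Vale.Agent.P269.Deg.Num
import Vale.Agent.P269.Deg.Avg

/-!
# P269, cohomological packages: Lefschetz spaces
-/

set_option linter.unusedSectionVars false

namespace Vale.Agent.P269.Coh

open P291Z Set Function Fock Mono PS

/-- All classes outside the middle degree are multiples of powers of `h`. The space may be finite or
empty. -/
structure Lf (Y : PS) (h : H Y.X) : Prop where
  deg : H.IsDeg 2 h
  amb : ∀ k, k ≠ Y.n → ∀ x, H.IsDeg k x → x ∈ amb h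
  norm : ∀ m : ℕ, (m : ℤ) = Y.n → Y.J (h ^ m) ≠ 0

/-- `ν` acts on the primitive cohomology with the eigenvalues `l`. -/
structure Ad (Y : PS) (h : H Y.X) (l : Multiset ℝ) (ν : Module.End ℂ (H Y.X)) : Prop where
  skew : Inv.Skew (bil Y.J) (van h Y.J) ν
  eig : ∃ (m : ℕ) (e f : Fin m → H Y.X) (a : Fin m → ℝ), Inv.Frame (bil Y.J) (van h Y.J) e f ∧
    (∀ b, Y.J (e b * f b) = 1) ∧ (∀ b, ν (e b) = (a b : ℂ) • e b) ∧ Finset.univ.val.map a = l

namespace LfA

variable {X : Type} [TopologicalSpace X] {h x y : H X}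

theorem comp_amb (hh : H.IsDeg 2 h) (hx : x ∈ amb h) (k : ℤ) : H.comp k x ∈ amb h :=
  Submodule.span_mono (image_subset_range _ _) (mem_span_deg (isDeg_pow hh) hx)

theorem mul_pow_amb (hx : x ∈ amb h) (m : ℕ) : x * h ^ m ∈ amb h := by
  induction hx using Submodule.span_induction with
  | mem x hx =>
    obtain ⟨j, rfl⟩ := hx
    exact pow_add h j m ▸ pow_mem_amb h _
  | zero => simp
  | add x y _ _ hx hy => exact add_mul x y _ ▸ add_mem hx hy
  | smul c x _ hx => exact smul_mul_assoc c x _ ▸ Submodule.smul_mem _ c hx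

theorem mul_amb (hx : x ∈ amb h) (hy : y ∈ amb h) : x * y ∈ amb h := by
  induction hy using Submodule.span_induction with
  | mem y hy =>
    obtain ⟨j, rfl⟩ := hy
    exact mul_pow_amb hx j
  | zero => simp
  | add y z _ _ hy hz => exact mul_add x y z ▸ add_mem hy hz
  | smul c y _ hy => exact mul_smul_comm c x y ▸ Submodule.smul_mem _ c hy

theorem mul_comp (Y : PS) {k : ℤ} {y : H Y.X} (hy : H.IsDeg k y) (x : H Y.X) :
    Y.J (y * H.comp (2 * Y.n - k) x) = Y.J (y * x) := by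
  refine H.induction_deg (P := fun x => Y.J (y * H.comp (2 * Y.n - k) x) = Y.J (y * x)) x (by simp)
    (fun a b ha hb => by rw [map_add, mul_add, mul_add, map_add, map_add, ha, hb]) fun j => ?_
  rcases eq_or_ne (2 * Y.n - k) j with rfl | hj
  · rw [(H.isDeg_comp _ _).comp_eq]
  · rw [(H.isDeg_comp _ _).comp_ne hj, mul_zero, map_zero,
      Y.pd.deg _ (by omega) _ (hy.mul (H.isDeg_comp _ _))]

end LfA

namespace Lf

variable {Y Y' : PS} {h : H Y.X} (L : Lf Y h)
include L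

theorem lef {m : ℕ} (hm : (m : ℤ) = Y.n) (h1 : 1 ≤ m) : Lef m h ((Y.J (h ^ m))⁻¹ • Y.J) :=
  have h0 := L.norm m hm
  ⟨h1, L.deg, fun k hk x hx => by simp [Y.pd.deg k (hm ▸ hk) x hx], by simp [h0],
    fun x hx => Y.pd.nondeg x fun y => by simpa [h0] using hx y, fun k hk => L.amb k (hm ▸ hk),
    Y.pd.fin⟩

theorem map {f : C(Y'.X, Y.X)} (hb : Bijective (H.map f)) (hn : Y'.n = Y.n)
    (hJ : ∀ a, Y'.J (H.map f a) = Y.J a) : Lf Y' (H.map f h) := by
  refine ⟨L.deg.map f, fun k hk x hx => ?_, fun m hm => ?_⟩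
  · obtain ⟨y, rfl⟩ := hb.2 x
    rw [← hx.comp_eq, H.comp_map]
    exact map_amb f (L.amb k (hn ▸ hk) _ (H.isDeg_comp k y))
  · rw [← map_pow, hJ]
    exact L.norm m (hm.trans hn)

theorem pow_eq_zero {j : ℕ} (hj : Y.n < j) : h ^ j = 0 :=
  Y.eq_zero_of_lt (by omega) (isDeg_pow L.deg j)

theorem pow_ne_zero {j : ℕ} (hj : (j : ℤ) ≤ Y.n) : h ^ j ≠ 0 := fun h0 => by
  obtain ⟨i, hi⟩ : ∃ i : ℕ, ((i + j : ℕ) : ℤ) = Y.n := ⟨(Y.n - j).toNat, by omega⟩
  exact L.norm _ hi (by rw [pow_add, h0, mul_zero, map_zero])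

theorem comp_eq_zero {x : H Y.X} (hx : x ∈ van h Y.J) {k : ℤ} (hk : H.comp k x ∈ Mono.amb h) :
    H.comp k x = 0 := by
  rcases amb_deg L.deg hk (H.isDeg_comp k x) with e | ⟨j, c, rfl, e⟩
  · exact e
  rcases lt_or_ge Y.n j with hj | hj
  · rw [e, L.pow_eq_zero hj, smul_zero]
  obtain ⟨i, hi⟩ : ∃ i : ℕ, ((i + j : ℕ) : ℤ) = Y.n := ⟨(Y.n - j).toNat, by omega⟩
  have := LfA.mul_comp Y (isDeg_pow L.deg i) x
  rw [mem_van.1 hx, show 2 * Y.n - 2 * i = 2 * j by omega, e,
    mul_smul_comm, ← pow_add, map_smul, smul_eq_mul] at this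
  rw [e, (mul_eq_zero.1 this).resolve_right (L.norm _ hi), zero_smul]

theorem eq_zero {x : H Y.X} (hx : x ∈ Mono.amb h) (h0 : ∀ m : ℕ, Y.J (h ^ m * x) = 0) : x = 0 :=
  H.ext_comp fun k => by
    rw [L.comp_eq_zero (mem_van.2 h0) (LfA.comp_amb L.deg hx k), map_zero]

theorem van_deg {x : H Y.X} (hx : x ∈ van h Y.J) : H.IsDeg Y.n x := by
  rw [show x = H.comp Y.n x from H.ext_comp fun k => ?_]
  · exact H.isDeg_comp _ _
  rcases eq_or_ne k Y.n with rfl | hk
  · rw [(H.isDeg_comp _ _).comp_eq]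
  · rw [(H.isDeg_comp _ _).comp_ne hk, L.comp_eq_zero hx (L.amb k hk _ (H.isDeg_comp _ _))]

theorem isCompl : IsCompl (Mono.amb h) (van h Y.J) := by
  constructor
  · exact Submodule.disjoint_def.2 fun x h1 h2 => L.eq_zero h1 (mem_van.1 h2)
  · refine codisjoint_iff.2 (eq_top_iff.2 fun x _ => ?_)
    refine H.induction_deg (P := fun x => x ∈ Mono.amb h ⊔ van h Y.J) x (zero_mem _)
      (fun a b => add_mem) fun k => ?_
    have hx := H.isDeg_comp k x
    generalize H.comp k x = y at hx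
    rcases eq_or_ne k Y.n with rfl | hk
    · by_cases h1 : ∃ j : ℕ, ((j + j : ℕ) : ℤ) = Y.n
      · obtain ⟨j, hj⟩ := h1
        rw [← add_sub_cancel ((Y.J (h ^ j * y) / Y.J (h ^ (j + j))) • h ^ j) y]
        refine Submodule.add_mem_sup (Submodule.smul_mem _ _ (pow_mem_amb h j))
          (mem_van.2 fun i => ?_)
        rcases eq_or_ne i j with rfl | hi
        · rw [mul_sub, mul_smul_comm, ← pow_add, map_sub, map_smul, smul_eq_mul,
            div_mul_cancel₀ _ (L.norm _ hj), sub_self]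
        · refine Y.pd.deg _ ?_ _ ((isDeg_pow L.deg i).mul ((H.deg Y.X _).sub_mem hx
            ((H.deg Y.X _).smul_mem _ ?_)))
          · omega
          · rw [show Y.n = 2 * j by omega]
            exact isDeg_pow L.deg j
      · exact Submodule.mem_sup_right (mem_van.2 fun i =>
          Y.pd.deg _ (fun e => h1 ⟨i, by omega⟩) _ ((isDeg_pow L.deg i).mul hx))
    · exact Submodule.mem_sup_left (L.amb k hk y hx)

theorem exists_add (x : H Y.X) : ∃ a ∈ Mono.amb h, ∃ v ∈ van h Y.J, a + v = x :=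
  Submodule.mem_sup.1 (L.isCompl.sup_eq_top ▸ Submodule.mem_top)

theorem mul_van {x : H Y.X} (hx : x ∈ van h Y.J) : h * x = 0 :=
  L.eq_zero (L.amb _ (by omega) _ (L.deg.mul (L.van_deg hx))) fun m => by
    rw [← mul_assoc, ← pow_succ]
    exact mem_van.1 hx _

theorem isForm {ε : ℂ} (hε : ε * ε = 1) (e : ∀ m : ℕ, (m : ℤ) = Y.n → ε = (-1) ^ m) :
    Inv.IsForm (bil Y.J) (van h Y.J) ε := by
  refine ⟨hε, fun u hu v hv => ?_, fun u hu h0 => Y.pd.nondeg u fun y => ?_⟩
  · have h1 := L.van_deg hu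
    have h2 := L.van_deg hv
    rcases lt_or_ge Y.n 0 with hn | hn
    · simp [h1.eq_zero hn]
    obtain ⟨m, hm⟩ := Int.eq_ofNat_of_zero_le hn
    rw [bil_apply, bil_apply, h1.comm h2, map_smul, smul_eq_mul, e m hm.symm, hm, ← Nat.cast_mul,
      zpow_natCast]
    rcases Nat.even_or_odd m with e | e
    · rw [e.neg_one_pow, (e.mul_right m).neg_one_pow]
    · rw [e.neg_one_pow, (e.mul e).neg_one_pow]
  · obtain ⟨a, ha, v, hv, rfl⟩ := L.exists_add y
    rw [add_mul, map_add, ← bil_apply, ← bil_apply, h0 v hv, hu a ha, add_zero]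

theorem finrank_van {m : ℕ} (hm : (m : ℤ) = Y.n) : Module.finrank ℂ (H.deg Y.X m) =
    (if Even m then 1 else 0) + Module.finrank ℂ (van h Y.J) := by
  have h1 : van h Y.J ≤ H.deg Y.X m := fun x hx => hm ▸ L.van_deg hx
  have h2 : van h Y.J ⊔ Mono.amb h ⊓ H.deg Y.X m = H.deg Y.X m := by
    rw [← sup_inf_assoc_of_le _ h1, L.isCompl.symm.sup_eq_top, top_inf_eq]
  have h3 := Submodule.finrank_sup_add_finrank_inf_eq (van h Y.J) (Mono.amb h ⊓ H.deg Y.X m)
  rw [h2, ← inf_assoc, L.isCompl.symm.inf_eq_bot, bot_inf_eq, finrank_bot, add_zero] at h3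
  rw [h3, add_comm]
  congr 1
  split_ifs with he
  · obtain ⟨j, rfl⟩ := he
    have h4 : H.IsDeg (j + j : ℕ) (h ^ j) := by
      rw [show ((j + j : ℕ) : ℤ) = 2 * j by omega]
      exact isDeg_pow L.deg j
    rw [← finrank_span_singleton (K := ℂ) (L.pow_ne_zero (j := j) (by omega))]
    refine congrArg (fun S : Submodule ℂ (H Y.X) => Module.finrank ℂ S) (le_antisymm ?_ ?_)
    · rintro x ⟨hx, hx'⟩
      rcases amb_deg L.deg hx hx' with rfl | ⟨i, c, hi, rfl⟩
      · exact zero_mem _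
      · obtain rfl : i = j := by omega
        exact Submodule.smul_mem _ _ (Submodule.mem_span_singleton_self _)
    · exact (Submodule.span_singleton_le_iff_mem _ _).2 ⟨pow_mem_amb h j, h4⟩
  · refine Submodule.finrank_eq_zero.2 (eq_bot_iff.2 ?_)
    rintro x ⟨hx, hx'⟩
    rcases amb_deg L.deg hx hx' with rfl | ⟨i, c, hi, rfl⟩
    · exact zero_mem _
    · exact absurd ⟨i, by omega⟩ he

theorem finrank_deg_le {k : ℤ} (hk : k ≠ Y.n) : Module.finrank ℂ (H.deg Y.X k) ≤ 1 := by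
  have h1 : H.deg Y.X k ≤ Submodule.span ℂ {h ^ (k / 2).toNat} := fun x hx => by
    rcases amb_deg L.deg (L.amb k hk x hx) hx with rfl | ⟨i, c, hi, rfl⟩
    · exact zero_mem _
    · rw [show (k / 2).toNat = i by omega]
      exact Submodule.smul_mem _ _ (Submodule.mem_span_singleton_self _)
  refine (Submodule.finrank_mono h1).trans ?_
  rcases eq_or_ne (h ^ (k / 2).toNat) 0 with e | e
  · rw [e, Submodule.span_zero_singleton, finrank_bot]
    exact zero_le_one
  · exact (finrank_span_singleton e).le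

theorem exists_ne {j : ℕ} (hj : (j : ℤ) ≤ Y.n) : ∃ c : H Y.X, H.IsDeg (2 * j : ℕ) c ∧ c ≠ 0 :=
  ⟨h ^ j, by simpa using isDeg_pow L.deg j, L.pow_ne_zero hj⟩

/-- restriction to a Lefschetz divisor -/
theorem range_res {D : PS} (j : C(D.X, Y.X)) (hn : Y.n = D.n + 1) (L' : Lf D (H.map j h)) :
    LinearMap.range (pl j) = Mono.amb (H.map j h) := by
  refine le_antisymm ?_ (amb_le_range j h)
  rintro _ ⟨x, rfl⟩
  refine H.induction_deg (P := fun x => pl j x ∈ Mono.amb (H.map j h)) x (by simp)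
    (fun a b ha hb => by rw [map_add]; exact add_mem ha hb) fun k => ?_
  rcases eq_or_ne k Y.n with rfl | hk
  · exact L'.amb _ (by omega) _ ((H.isDeg_comp _ x).map j)
  · exact map_amb j (L.amb k hk _ (H.isDeg_comp k x))

/-- primitive classes restrict to zero, if the class of the subspace is a polynomial in `h` -/
theorem map_van {D : PS} (j : C(D.X, Y.X)) (hn : D.n < Y.n) (L' : Lf D (H.map j h))
    (he : push j 1 ∈ Mono.amb h) {x : H Y.X} (hx : x ∈ van h Y.J) : H.map j x = 0 :=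
  L'.eq_zero (L'.amb _ hn.ne' _ ((L.van_deg hx).map j)) fun m => by
    rw [← map_pow, ← map_mul, ← one_mul (H.map j _), ← J_push_mul, ← mul_assoc]
    exact hx _ (LfA.mul_pow_amb he m)

theorem exists_ad {l : Multiset ℝ} (h1 : l.map (fun x => -x) = l)
    (h2 : l.card = Module.finrank ℂ (van h Y.J)) (h3 : Odd Y.n → (0 : ℝ) ∉ l) :
    ∃ ν, Ad Y h l ν := by
  obtain ⟨ν, m, e, f, a, k1, k2, k3, k4, k5⟩ := Deg.exists_adm
    (L.isForm (ε := (-1) ^ Y.n.natAbs) (by rw [← mul_pow]; simp) fun m hm => by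
      rw [← hm, Int.natAbs_natCast]) l h1 h2 fun e => h3 (by
    rw [← Int.natAbs_odd, ← Nat.not_even_iff_odd]
    intro he
    rw [he.neg_one_pow] at e
    norm_num at e)
  exact ⟨ν, k1, m, e, f, a, k2, k3, k4, k5⟩

end Lf

end Vale.Agent.P269.Coh
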