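import Vale.Agent.P269.Coh.Md
import Vale.Agent.P269.Coh.Prj

/-!
# P269, cohomological packages: the Virasoro constraints of graded targets
-/

set_option linter.unusedSectionVars false

namespace Vale.Agent.P269.Fam

open Set Function Topology Filter P291Z Holo Mono Coh Tq Fock MvPolynomial

variable {Λ R R' J J' K K' : Type} [Fintype Λ] [Fintype R] [Fintype R'] [Fintype J] [Fintype J']
  [Fintype K] [Fintype K'] [DecidableEq R] [DecidableEq R'] {T : Fam Empty Empty R J K}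
  {ν : Module.End ℂ (H (T.X T.cone))} {g₀ : Deg.Grd (R → ℤ)}

/-- The Virasoro constraints for the grading `μ₀ + ν`. -/
def Tg.VG (h : T.Tg) (ν : Module.End ℂ (H (T.X T.cone))) : Prop :=
  ∃ g : Wt.Gr h.qm ν, T.Vir h.ps.coh .id (g.vd T.κ₁)

/-- The Virasoro constraints for the sums over the classes of given degree. -/
def Tg.VS (h : T.Tg) (g₀ : Deg.Grd (R → ℤ)) (ν : Module.End ℂ (H (T.X T.cone))) : Prop :=
  ∃ g : Wt.Gr h.qm ν, ∀ k, T.Big k → Deg.VirD g₀ (g.vd T.κ₁) (T.serA k T.ex0 h.ps.coh.p .id)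

theorem Tg.VS.vg {T : Fam Empty Empty Unit J K} {h : T.Tg} {g₀ ν} (v : h.VS g₀ ν)
    (hg : g₀.deg 1 ≠ 0) : h.VG ν := v.imp fun _ => vir_of_virD hg

/-- **projective bundles** -/
theorem Tg.VG.proj (hJ : St.Proj) {h : T.Tg} (v : h.VG ν) {r : ℕ} {a : Fin (r + 1) → R → ℤ} {θ}
    (h' : (T.proj a θ).Tg) (hr : 0 < r) {ν'} (g : Wt.Gr h'.qm ν') (p : Cg (h.pj a θ) ν ν') :
    h'.VG ν' := by
  obtain ⟨g₁, H⟩ := v
  refine ⟨g, hJ T a θ h hr h'.toGood _ _ _ (h.std g₁) H _ _ _ (h'.std g) fun v v' u' e1 e2 => ?_⟩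
  rw [h.pb_pj] at e1 e2
  have e3 : ∀ {X : Type} [TopologicalSpace X] (x : P291Z.H X), P291Z.H.map (.id X) x = x :=
    P291Z.H.map_id fun _ => rfl
  exact PS.mu_proj (Y := h.ps) (Y' := h'.ps) (q := .id _) (q' := .id _) (p := h.pj a θ)
    (fun _ => rfl) (fun x y e => (e3 x).symm.trans (e.trans (e3 y))) (T.dT_proj a θ) p v v' u'
    (by rw [e3, e3]; exact e1) (by rw [e3, e3]; exact e2)

/-- any model of the cohomology -/
theorem Tg.VG.vir (hK : St.Kit) {h : T.Tg} (v : h.VG ν) {C : Deg.Coh}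
    {i : C.H →ₗ[ℂ] H (T.X T.cone)} {d : VD C.fr} (s : T.Std C i d)
    (e : ∀ x, i (d.μ x) = (h.ps.mu0 + ν) (i x)) : T.Vir C i d := by
  obtain ⟨g, H⟩ := v
  refine Vir.congr hK h.nice T.cp_empty (h.std g).toIsCoh s.toIsCoh (fun v v' e' => ?_)
    (fun v v' e' => ?_) H
  · rw [e, ← e']
    rfl
  · rw [(h.std g).ρ, s.ρ, e']

namespace Md

variable {F' : Fam Empty Λ R' J' K'} {M : R' → R → ℤ}
  {f : (Empty → ℂ) × (J → ℂ) → (Λ → ℂ) × (J' → ℂ)} (h : T.Md F' M f) (hK : St.Kit) {m : ℤ}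
  {h' : F'.QM F'.cone m} (e : T.dT = m) {ν' : Module.End ℂ (H (F'.X F'.cone))} (g : Wt.Gr h' ν')
  (p : Cg h.q ν' ν) {χ : R' → ℤ} (hχ : chM M χ = T.κ₁) {k : ℕ} (hk : F'.Big k)
  {g₁ : Deg.Grd (R' → ℤ)}

include e p in
theorem pl_μ (g₂ : Wt.Gr h.tg.qm ν) (v v') (a : v = H.map h.q v') :
    (g₂.vd T.κ₁).μ v = H.map h.q ((g.vd χ).μ v') := by
  subst a
  exact ((map_add (H.map h.q) _ _).trans
    (congrArg₂ (· + ·) ((h.is h' e).map_mu0 v') (p v'))).symm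

include hχ in
theorem pl_ρ (g₂ : Wt.Gr h.tg.qm ν) (v v') (a : v = H.map h.q v') :
    (g₂.vd T.κ₁).ρ v = H.map h.q ((g.vd χ).ρ v') := by
  subst a
  exact ((map_mul (H.map h.q) _ _).trans (by rw [h.map_lc, hχ]; rfl)).symm

include hK e p hχ hk

theorem virD_of_vg (v : h.tg.VG ν)
    (hf : ∀ n, {β | g₁.deg β = n ∧ F'.serA k F'.ex0 h'.ps.coh.p .id β ≠ 0}.Finite) :
    Deg.VirD g₁ (g.vd χ) (F'.serA k F'.ex0 h'.ps.coh.p .id) := by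
  obtain ⟨g₂, H⟩ := v
  exact h.virD hK subset_rfl (isCoh h').ev (fun v => (h.pb_eq v).symm)
    (Vir.congr (d := g₂.vd T.κ₁) (d' := g.vd χ) hK h.tg.nice T.cp_empty (isCoh h.tg.qm)
      (isCoh_pl h.tg.qm (h.is h' e))
      (h.pl_μ e g p g₂) (h.pl_ρ g hχ g₂) H) hk hf

theorem vs_iff (hg : ∀ d, g₁.deg (fun r' => ∑ r, M r' r * d r) = g₀.deg d) :
    h.tg.VS g₀ ν ↔ Deg.VirD g₁ (g.vd χ) (F'.serA k F'.ex0 h'.ps.coh.p .id) := by
  have a : ∀ (g₂ : Wt.Gr h.tg.qm ν) k₀, T.Big k₀ →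
      (Deg.VirD g₀ (g₂.vd T.κ₁) (T.serA k₀ T.ex0 h.tg.ps.coh.p .id) ↔
        Deg.VirD g₁ (g.vd χ) (F'.serA k F'.ex0 h'.ps.coh.p .id)) := fun g₂ k₀ hk₀ =>
    (virD_congr (d := g₂.vd T.κ₁) (d' := g.vd χ) hK h.tg.nice T.cp_empty subset_rfl
      (isCoh_iff.1 (isCoh h.tg.qm))
      (isCoh_iff.1 (isCoh_pl h.tg.qm (h.is h' e))) (h.pl_μ e g p g₂) (h.pl_ρ g hχ g₂) hk₀).trans
      (h.virD_iff hK subset_rfl (isCoh h').ev (fun v => (h.pb_eq v).symm) hk₀ hk hg)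
  obtain ⟨k₀, hk₀⟩ := h.tg.exists_big
  exact ⟨fun ⟨g₂, H⟩ => (a g₂ k₀ hk₀).1 (H k₀ hk₀),
    fun H => ⟨(h.gr_iff h' e p).2 g, fun k₁ hk₁ => (a _ k₁ hk₁).2 H⟩⟩

end Md

end Vale.Agent.P269.Fam
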