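import Vale.Agent.P269.Coh.Ml1
import Vale.Agent.P269.Coh.Cap
import Vale.Agent.P269.Coh.VG

/-!
# P269, cohomological packages: the Virasoro constraints of the general fibres
-/

set_option linter.unusedSectionVars false

namespace Vale.Agent.P269.Pre.Ml

open Set Function Topology Filter P291Z Holo Mono Coh Tq Fock MvPolynomial

variable {R J K R₀ J₀ K₀ : Type} [Fintype R] [Fintype J] [Fintype K] [Fintype R₀] [Fintype J₀]
  [Fintype K₀] [DecidableEq R] [DecidableEq R₀] {P : Pre R J K}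

variable {A : Set (J → ℂ)} {T : Fam Empty Empty R₀ J₀ K₀} {M : R → R₀ → ℤ}
  {σ : J → MvPolynomial J₀ ℂ} {B B₁ : Set ((Option Empty → ℂ) × (P.QJ → ℂ))} {t : ℂ}

variable (ht : t ∈ P.Ω) (h0 : t ≠ 0)
include ht h0

variable [DecidableEq P.QJ] (hK : St.Kit) {νT : Module.End ℂ (H (T.X T.cone))}
  {g₀ : Deg.Grd (R₀ → ℤ)}
include hK

/-- **the general fibre of the family of caps** -/
theorem virC (hJ : St.Proj) (m : P.Ml P.dvs T M σ) (e : T.dT = P.n) (hκ : chM M P.κ₀ = T.κ₁)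
    {νD ν} (c : Cg m.eD νD νT) (g : Wt.Gr (m.ok.qX ht h0 false false) ν)
    (p : Cg (m.ok.πD _ _) νD ν) (v : m.tg.VG νT) : Deg.VirD P.g (g.vd (P.κ false false))
      (P.sX false false t (m.ok.qX ht h0 false false).ps.coh.p .id) := by
  obtain ⟨a, θ, M', f, k, h1, h2⟩ := exists_mdC ht h0 m
  have e' : (T.proj a θ).dT = P.n + 1 := by rw [Fam.dT_proj, e, Nat.cast_one]
  obtain ⟨ν', h3⟩ := (k.is (m.ok.qX ht h0 false false) e').exists_map ν
  have h4 : Cg (m.tg.pj a θ) νT ν' := Cg.of_surj (k := m.eD.comp (m.tg.pj a θ)) (p.comp h3 h1) c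
    (fun _ => rfl) (m.isD e).bij.2
  exact k.virD_of_vg hK e' g h3 (h2 hκ) (m.ok.bigX _ _ ht)
    (v.proj hJ k.tg one_pos ((k.gr_iff _ e' h3).2 g) h4) (m.ok.abs hK ht h0 fun _ => rfl).fin

section L

variable (m : P.Ml P.lft T M σ) (e : T.dT = P.n + 1)
  (hκ : chM M (P.κ₀ - Pi.single P.η 1) = T.κ₁) {ν₁ ν} (c : Cg m.eL ν₁ νT)
  (g : Wt.Gr (m.ok.qX ht h0 false true) ν) (p : Cg (m.ok.πL _ _ _) ν₁ ν)
include e hκ c p

theorem virL (v : m.tg.VG νT) : Deg.VirD P.g (g.vd (P.κ false true))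
    (P.sX false true t (m.ok.qX ht h0 false true).ps.coh.p .id) := by
  obtain ⟨M', f, k, h1, h2, -⟩ := exists_mdL ht h0 m
  exact k.virD_of_vg hK e g (c.of_surj p h1 (m.ok.isL ht h0).bij.2) (h2.trans hκ)
    (m.ok.bigX _ _ ht) v (m.ok.abs hK ht h0 fun _ => rfl).fin

theorem virL_iff (hg : ∀ d, g₀.deg d = ∑ r, chM M (P.θ - Pi.single P.η 1) r * d r) :
    m.tg.VS g₀ νT ↔ Deg.VirD P.g (g.vd (P.κ false true))
      (P.sX false true t (m.ok.qX ht h0 false true).ps.coh.p .id) := by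
  obtain ⟨M', f, k, h1, h2, h3⟩ := exists_mdL ht h0 m
  exact k.vs_iff hK e g (c.of_surj p h1 (m.ok.isL ht h0).bij.2) (h2.trans hκ)
    (m.ok.bigX _ _ ht) fun d => (Fam.sum_sum_mul P.θ₀ M' d).symm.trans
      ((congrArg (fun χ : R₀ → ℤ => ∑ r, χ r * d r) h3).trans (hg d).symm)

end L

section R

variable (m : P.Ml (P.mem false 0) T M σ) (e : T.dT = P.n + 1)
  (hκ : chM M (P.κ₀ + Pi.single P.η 1) = T.κ₁) {ν₂ ν} (c : Cg m.eR ν₂ νT)
  (g : Wt.Gr (m.ok.qX ht h0 true false) ν) (p : Cg (m.ok.πR _ _ _) ν₂ ν)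
include e hκ c p

theorem virR (v : m.tg.VG νT) : Deg.VirD P.g (g.vd (P.κ true false))
    (P.sX true false t (m.ok.qX ht h0 true false).ps.coh.p .id) := by
  obtain ⟨M', f, k, h1, h2, -⟩ := exists_mdR ht h0 m
  exact k.virD_of_vg hK e g (c.of_surj p h1 (m.ok.isR ht h0).bij.2) (h2.trans hκ)
    (m.ok.bigX _ _ ht) v (m.ok.abs hK ht h0 fun _ => rfl).fin

theorem virR_iff (hg : ∀ d, g₀.deg d = ∑ r, chM M (P.θ + Pi.single P.η 1) r * d r) :
    m.tg.VS g₀ νT ↔ Deg.VirD P.g (g.vd (P.κ true false))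
      (P.sX true false t (m.ok.qX ht h0 true false).ps.coh.p .id) := by
  obtain ⟨M', f, k, h1, h2, h3⟩ := exists_mdR ht h0 m
  exact k.vs_iff hK e g (c.of_surj p h1 (m.ok.isR ht h0).bij.2) (h2.trans hκ)
    (m.ok.bigX _ _ ht) fun d => (Fam.sum_sum_mul P.θ₀ M' d).symm.trans
      ((congrArg (fun χ : R₀ → ℤ => ∑ r, χ r * d r) h3).trans (hg d).symm)

end R

section X

variable (m : P.Ml (P.mem true t) T M σ) (e : T.dT = P.n + 1) (hκ : chM M P.κ₀ = T.κ₁) {ν}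
  (c : Cg m.eX ν νT) (g : Wt.Gr (m.ok.qX ht h0 true true) ν)
include e hκ c

theorem virX (v : m.tg.VG νT) : Deg.VirD P.g (g.vd (P.κ true true))
    (P.sX true true t (m.ok.qX ht h0 true true).ps.coh.p .id) := by
  obtain ⟨M', f, k, h1, h2, -⟩ := exists_mdX ht h0 m
  exact k.virD_of_vg hK e g (c.congr fun x => (h1 x).symm) (h2.trans hκ)
    (m.ok.bigX _ _ ht) v (m.ok.abs hK ht h0 fun _ => rfl).fin

theorem virX_iff (hg : ∀ d, g₀.deg d = ∑ r, chM M (P.θ + Pi.single P.η 1) r * d r) :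
    m.tg.VS g₀ νT ↔ Deg.VirD P.g (g.vd (P.κ true true))
      (P.sX true true t (m.ok.qX ht h0 true true).ps.coh.p .id) := by
  obtain ⟨M', f, k, h1, h2, h3⟩ := exists_mdX ht h0 m
  exact k.vs_iff hK e g (c.congr fun x => (h1 x).symm) (h2.trans hκ)
    (m.ok.bigX _ _ ht) fun d => (Fam.sum_sum_mul P.θ₀ M' d).symm.trans
      ((congrArg (fun χ : R₀ → ℤ => ∑ r, χ r * d r) h3).trans (hg d).symm)

end X

end Vale.Agent.P269.Pre.Ml
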