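import Vale.Agent.P269.Coh.Cap1

/-!
# P269, cohomological packages: small models of the spaces of the four degenerations
-/

set_option linter.unusedSectionVars false
set_option linter.style.haveILetI false

namespace Vale.Agent.P269.Pre

open Set Function Topology Filter P291Z Holo Mono Coh Tq Fock MvPolynomial

variable {R J K R₀ J₀ K₀ : Type} [Fintype R] [Fintype J] [Fintype K] [Fintype R₀] [Fintype J₀]
  [Fintype K₀] [DecidableEq R] [DecidableEq R₀] (P : Pre R J K)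

/-- The map from a small model. -/
noncomputable def emb (σ : J → MvPolynomial J₀ ℂ) (z : (Empty → ℂ) × (J₀ → ℂ)) :
    (Option Empty → ℂ) × (P.QJ → ℂ) := P.sc fun j => eval z.2 (σ j)

/-- `T` is a small model of the invariant subset `A`. -/
structure Ml (A : Set (J → ℂ)) (T : Fam Empty Empty R₀ J₀ K₀) (M : R → R₀ → ℤ)
    (σ : J → MvPolynomial J₀ ℂ) : Prop where
  ok : P.Ok
  tg : T.Tg
  sub : A ⊆ P.cone
  ex : ∃ (I : Type) (_ : Fintype I) (φ : J₀ → J) (s : I → J),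
    T.Pres (P.lev A) φ s M fun j => MvPolynomial.map C (σ j)

/-- The character `κ₁` of the total space. -/
noncomputable abbrev κ₀ : R → ℤ := (P.lev univ).κ₁

variable {P} {A : Set (J → ℂ)} {T : Fam Empty Empty R₀ J₀ K₀} {M : R → R₀ → ℤ}
  {σ : J → MvPolynomial J₀ ℂ} {B B₁ : Set ((Option Empty → ℂ) × (P.QJ → ℂ))} {t : ℂ}

namespace MlA

theorem hm_kt : Hm fun τ : R → ℂ => ((1 : Empty → ℂ), P.kt τ) := by
  refine ⟨Prod.ext rfl (funext fun i => ?_), fun a b _ _ => Prod.ext (mul_one _).symm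
    (funext fun i => ?_), fun a _ =>
      (continuous_const.prodMk (continuous_pi fun i => ?_)).continuousAt⟩
  · rcases i with r | _ | _ <;> simp [kt]
  · rcases i with r | _ | _ <;> simp [kt, mul_pow]
    split_ifs <;> simp
  · rcases i with r | _ | _
    · simp only [kt, Sum.elim_inl]
      split_ifs
      exacts [continuous_const, continuous_apply r]
    · exact continuous_apply _
    · exact (continuous_apply _).pow _

theorem hm_snd : Hm (Prod.snd : (Empty → ℂ) × (R₀ → ℂ) → R₀ → ℂ) :=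
  ⟨rfl, fun _ _ _ _ => rfl, fun _ _ => continuousAt_snd⟩

theorem lev_act (t z) : ((P.lev A).actT t z).2 = P.act t.2 z.2 := funext fun j => by
  rw [Wt.actT_snd, chT, Fintype.prod_empty, one_mul]
  rfl

end MlA

open MlA

namespace Ml

section gen

variable (m : P.Ml A T M σ)
include m

theorem mem_iff {x : J → ℂ} : x ∈ A ↔
    ∃ τ, IsUnit τ ∧ ∃ z ∈ T.cone, x = P.act τ fun j => eval z.2 (σ j) := by
  obtain ⟨I, _, φ, s, h⟩ := m.ex
  refine ((Fam.mem_lev m.sub (z := (Empty.elim, x))).symm.trans (h.cone _)).trans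
    (exists_congr fun τ => and_congr_right fun _ => exists_congr fun z => and_congr_right
      fun _ => ?_)
  rw [evσ_C, Prod.ext_iff, lev_act]
  exact and_iff_right (Subsingleton.elim _ _)

theorem maps {z} (hz : z ∈ T.cone) : (fun j => eval z.2 (σ j)) ∈ A :=
  m.mem_iff.2 ⟨1, isUnit_one, z, hz, funext fun j => by simp [Tgt.act]⟩

theorem eval_act {t : (Empty → ℂ) × (R₀ → ℂ)} (ht : IsUnit t) (z) :
    (fun j => eval (T.actT t z).2 (σ j)) = P.act (trM M t.2) fun j => eval z.2 (σ j) := by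
  obtain ⟨I, _, φ, s, h⟩ := m.ex
  have := congrArg Prod.snd (h.evσ_act (Prod.isUnit_iff.1 ht).2 z)
  rw [evσ_C, evσ_C, lev_act, Subsingleton.elim 1 t.1] at this
  exact this

theorem hol (hB : ∀ x ∈ A, P.sc x ∈ B) :
    Hol T.actT P.W.actT T.cone B (fun t => (1, P.kt (trM M t.2))) (P.emb σ) :=
  .of_an ((hm_snd.comp (hm_trM M)).comp hm_kt) (fun _ hz => hB _ (m.maps hz))
    (fun z _ => (an_sc _).comp (analyticAt_pi_iff.2 fun j =>
      (AnalyticOnNhd.eval_mvPolynomial (σ j) z.2 trivial).comp analyticAt_snd))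
    fun _ ht z _ => (congrArg P.sc (m.eval_act ht z)).trans
      (m.ok.sc_act ((hm_trM M).isUnit (Prod.isUnit_iff.1 ht).2) _)

/-- The map of the quotients. -/
noncomputable abbrev q (hB : ∀ x ∈ A, P.sc x ∈ B) : C(T.X T.cone, P.W.X B) := (m.hol hB).q

theorem q_lc (hB : ∀ x ∈ A, P.sc x ∈ B) (h : FP P.W.actT B) (χ : R ⊕ Bool → ℤ) :
    H.map (m.q hB) (P.W.lc B 0 χ) = T.lc _ 0 (chM M (P.dχ χ)) :=
  haveI := m.tg.qm.fp
  Wt.map_lc (m.hol hB).toEqh fun t ht => by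
    have a := (Prod.isUnit_iff.1 ht).2
    simp only [chT, Finset.univ_eq_empty, Finset.prod_empty]
    rw [prod_kt (isUnit_pi_iff.1 ((hm_trM M).isUnit a)), prod_trM _ _ a]

theorem exists_lc (hB : ∀ x ∈ A, P.sc x ∈ B) (h : FP P.W.actT B) (χ : R₀ → ℤ) :
    ∃ χ', H.map (m.q hB) (P.W.lc B 0 (P.up χ')) = T.lc _ 0 χ := by
  obtain ⟨I, _, φ, s, k⟩ := m.ex
  obtain ⟨χ', rfl⟩ := k.dual_surj χ
  exact ⟨χ', by rw [m.q_lc hB h, dχ_up]; rfl⟩

theorem qinc_q (hB : ∀ x ∈ A, P.sc x ∈ B) (e : B ⊆ B₁) (x) :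
    qinc _ e (m.q hB x) = m.q (fun x a => e (hB x a)) x := by
  obtain ⟨x, rfl⟩ := mk_surj x
  rfl

theorem bij (hB : ∀ x, P.sc x ∈ B ↔ x ∈ A) {C Z} (e : B = ((P.fam true true).sub C Z).cone) :
    Bijective (m.q fun x => (hB x).2) := by
  refine ⟨Hol.q_injective _ fun x _ y _ b hb k => ?_, Hol.q_surjective _ fun y hy => ?_⟩
  · obtain ⟨I, _, φ, s, h⟩ := m.ex
    have a := (congrArg (fun z => z.2 ∘ P.o) k).trans
      (old_act (W := P.W) rfl (fun _ => rfl) hb (P.emb σ x))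
    obtain ⟨u, c, -, d⟩ := h.exists_act (z := x) (z' := y) (t := (1, P.dn b.2))
      (isUnit_T.2 ⟨fun _ => one_ne_zero, dn_ne (isUnit_T.1 hb).2⟩) (by
        rw [evσ_C, evσ_C]
        exact Prod.ext (Subsingleton.elim _ _) (a.trans (lev_act (A := A) (1, P.dn b.2)
          (x.1, fun j => eval x.2 (σ j))).symm))
    exact ⟨_, Prod.isUnit_iff.2 ⟨isUnit_one, c⟩, d⟩
  · subst e
    obtain ⟨_, ⟨g, rfl⟩, -, k⟩ := m.ok.nm_eq hy
    obtain ⟨h1, h2, -, h4, -⟩ := fam_mem.1 hy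
    have a : P.sc (y.2 ∘ P.o) ∈ ((P.fam true true).sub C Z).cone := fam_mem.2
      ⟨mem_of_eq_of_mem ((congrArg Prod.fst k).trans ((congrArg (P.W.actL · y.1)
        (Subsingleton.elim _ 1)).trans (P.W.actL_one _))) h1,
        ⟨h2.mem, mul_comm _ _, mul_comm _ _, .inl one_ne_zero, .inl one_ne_zero,
          .inl one_ne_zero⟩, rfl, fun j hj => (congrFun (congrArg Prod.snd k) j).trans
          (mul_eq_zero_of_right _ (h4 j hj)), fun _ => rfl⟩
    obtain ⟨τ, c, z, d, f⟩ := m.mem_iff.1 ((hB _).1 a)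
    refine ⟨z, d, _, g⁻¹.isUnit.mul ((hm_kt (P := P)).isUnit c), ?_⟩
    rw [Wt.actT_mul, emb, ← m.ok.sc_act c, ← f, ← nm, k, ← Wt.actT_mul, Units.inv_mul,
      Wt.actT_one]

theorem gr_iff {n : ℤ} {h : P.W.QM B n} {hB : ∀ x ∈ A, P.sc x ∈ B} (i : PS.Is m.tg.ps h.ps (m.q hB))
    {ν ν'} (p : Cg (m.q hB) ν' ν) : Wt.Gr m.tg.qm ν ↔ Wt.Gr h ν' :=
  ⟨fun g => g.comap i p fun χ => ⟨_, m.q_lc hB h.fp χ⟩,
    fun g => g.map i p fun χ => (m.exists_lc hB h.fp χ).elim fun _ e => ⟨_, e⟩⟩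

end gen

/-- The model of the divisor. -/
noncomputable abbrev eD (m : P.Ml P.dvs T M σ) : C(T.X T.cone, P.W.X P.AD) :=
  m.q fun _ => sc_mem_D.2

/-- The model of the left component. -/
noncomputable abbrev eL (m : P.Ml P.lft T M σ) : C(T.X T.cone, P.W.X (P.AL true)) :=
  m.q fun _ => sc_mem_L.2

/-- The model of the right component. -/
noncomputable abbrev eR (m : P.Ml (P.mem false 0) T M σ) : C(T.X T.cone, P.W.X (P.AR true)) :=
  m.q fun _ => sc_mem_R.2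

/-- The model of the general member. -/
noncomputable abbrev eX (m : P.Ml (P.mem true t) T M σ) :
    C(T.X T.cone, P.W.X (P.AX true true t)) := m.q fun _ => sc_mem_X.2

theorem isD (m : P.Ml P.dvs T M σ) (e : T.dT = P.n) : PS.Is m.tg.ps m.ok.qD.ps m.eD :=
  m.tg.qm.is m.ok.qD e _ (m.bij (fun _ => sc_mem_D) (cone_pD false false true true))

theorem isL (m : P.Ml P.lft T M σ) (e : T.dT = P.n + 1) :
    PS.Is m.tg.ps (m.ok.qL true).ps m.eL :=
  m.tg.qm.is (m.ok.qL true) e _ (m.bij (fun _ => sc_mem_L) (cone_pL false true true))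

theorem isR (m : P.Ml (P.mem false 0) T M σ) (e : T.dT = P.n + 1) :
    PS.Is m.tg.ps (m.ok.qR true).ps m.eR :=
  m.tg.qm.is (m.ok.qR true) e _ (m.bij (fun _ => sc_mem_R) (cone_pR true false true))

variable (ht : t ∈ P.Ω) (h0 : t ≠ 0)
include ht h0

theorem isX (m : P.Ml (P.mem true t) T M σ) (e : T.dT = P.n + 1) :
    PS.Is m.tg.ps (m.ok.qX ht h0 true true).ps m.eX :=
  m.tg.qm.is (m.ok.qX ht h0 true true) e _ (m.bij (fun _ => sc_mem_X) rfl)

end Ml

/-! Retractions -/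

section ret

variable {M' : R₀ → R → ℤ} {r : J₀ → MvPolynomial J ℂ} (hr : P.Ret A T σ M' r)
  (hB : ∀ z ∈ B, z.2 ∘ P.o ∈ A)
include hr hB

theorem Ret.hol : Hol P.W.actT T.actT B T.cone
    (fun t => (1, trM M' (P.dn t.2))) (P.ret r) :=
  ⟨hr.eqh hB, fun _ _ => ⟨_, analyticAt_const.prod (analyticAt_pi_iff.2 fun j =>
    (AnalyticOnNhd.eval_mvPolynomial (r j) _ trivial).comp (f := fun y : _ × _ => y.2 ∘ P.o)
      (analyticAt_pi_iff.2 fun i => analyticAt_pi_iff.1 analyticAt_snd (P.o i))),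
    .of_forall fun _ => rfl⟩⟩

/-- The retraction on the quotients. -/
noncomputable abbrev Ret.q : C(P.W.X B, T.X T.cone) := (hr.hol hB).q

theorem Ret.q_lc (h₁ : FP P.W.actT B) (h₂ : FP T.actT T.cone) (χ : R₀ → ℤ) :
    H.map (hr.q hB) (T.lc _ 0 χ) = P.W.lc B 0 (P.up (chM M' χ)) :=
  (Wt.pb_eq _ _).symm.trans (hr.pb_lc hB χ)

theorem Ret.q_qinc (e : B₁ ⊆ B) (x) :
    hr.q hB (qinc _ e x) = hr.q (fun z a => hB z (e a)) x := by
  obtain ⟨x, rfl⟩ := mk_surj x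
  rfl

theorem Ret.q_nq (h : P.Ok) (hA : MapsTo P.nm B₁ B) (hB₁ : ∀ z ∈ B₁, z.2 ∘ P.o ∈ A) (x) :
    hr.q hB (h.nq hA x) = hr.q hB₁ x := by
  obtain ⟨x, rfl⟩ := mk_surj x
  rfl

theorem Ret.q_emb {A₁ : Set (J → ℂ)} (m : P.Ml A₁ T M σ) (h₁ : ∀ x ∈ A₁, P.sc x ∈ B) (x) :
    hr.q hB (m.q h₁ x) = x := by
  obtain ⟨x, rfl⟩ := mk_surj x
  exact congrArg (Quo.mk _) (Subtype.ext (Prod.ext (Subsingleton.elim _ _) (funext fun j =>
    (eval_aeval σ x.1.2 (r j)).symm.trans (by rw [hr.inv, eval_X]))))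

end ret

end Vale.Agent.P269.Pre
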