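import Vale.Agent.P269.Coh.PA1

/-!
# P269, cohomological packages: pieces and smoothings
-/

set_option linter.unusedSectionVars false

namespace Vale.Agent.P269.Coh

open P291Z Set Function Fock Mono

namespace PAA

/-- every functional is the pairing with a class -/
theorem bil_surj (Y : PS) : Surjective (bil Y.J) :=
  (LinearMap.injective_iff_surjective_of_finrank_eq_finrank
    (Subspace.dual_finrank_eq (K := ℂ) (V := H Y.X)).symm).1
    fun _ _ h => Y.ext_left fun b => LinearMap.congr_fun h b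

theorem pl_mu0 {Y : PS} {W : Type} [TopologicalSpace W] (k : C(Y.X, W)) {n : ℤ} (hn : Y.n = n)
    (u : H W) : pl k ((1 / 2 : ℂ) • (dg W u - (n : ℂ) • u)) = Y.mu0 (pl k u) := by
  have h := dg_shift (f := pl k) (s := 0) (fun j x hx => by rw [add_zero]; exact hx.map k) u
  rw [Int.cast_zero, zero_smul, add_zero] at h
  rw [map_smul, map_sub, map_smul, ← h, ← hn]
  rfl

theorem exists_amb {X Y : Type} [TopologicalSpace X] [TopologicalSpace Y] (f : C(X, Y)) {h : H Y}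
    {x : H X} (hx : x ∈ amb (H.map f h)) : ∃ p ∈ amb h, H.map f p = x := by
  have : amb (H.map f h) ≤ (amb h).map (pl f) := by
    rw [amb, Submodule.span_le]
    rintro _ ⟨j, rfl⟩
    exact ⟨h ^ j, pow_mem_amb h j, map_pow (H.map f) h j⟩
  exact this hx

theorem nu_amb {Y : PS} {ν : Module.End ℂ (H Y.X)} (hν : Y.Nu ν) {h x : H Y.X} (hm : Cm ν h)
    (hx : x ∈ amb h) : ν x = 0 := by
  have := hm.amb hx 1
  rwa [mul_one, hν.one, mul_zero] at this

end PAA

/-- A piece which contains the divisor `D`. -/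
structure Pc (D : PS) (c : H D.X) (ε : ℂ) extends PS where
  /-- the inclusion of the divisor -/
  j : C(D.X, X)
  dim : n = D.n + 1
  si : ∀ x, H.map j (PS.push (Y := toPS) j x) = ε • (c * x)

variable {D : PS} {c : H D.X} {ε : ℂ}

namespace Pc

variable (Y : Pc D c ε) (hc : H.IsDeg 2 c)

/-- The piece in the form of the interface. -/
@[reducible] noncomputable def pz : Deg.Pz (D.dv hc) ε where
  toCoh := Y.coh
  res := pl Y.j
  gys := PS.push Y.j
  hres := isEv_pl _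
  hgys := PS.isEv_push _
  adj := fun x t => by rw [PS.η_eq, PS.η_eq]; exact PS.J_push_mul _ x t
  res_gys := Y.si
  res_one := by rw [PS.one_eq, PS.one_eq]; exact map_one (H.mapA Y.j)

theorem cmp {ν : Module.End ℂ (H Y.X)} (hν : Y.Nu ν) {ρ : H Y.X} (hρ : H.IsDeg 2 ρ) (hm : Cm ν ρ)
    {ν' : Module.End ℂ (H D.X)} (hν' : D.Nu ν') {ρ' : H D.X} (hρ' : H.IsDeg 2 ρ') (hm' : Cm ν' ρ')
    (e : ∀ t, H.map Y.j (ν t) = ν' (H.map Y.j t)) (e' : H.map Y.j ρ = ρ') :
    (Y.pz hc).Cmp (PS.vd hν hρ hm) (PS.vd hν' hρ' hm') := by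
  refine ⟨fun t => ?_, fun t => ?_⟩
  · have h := PS.mu0_shift (X := Y.toPS) (Y := D) (f := pl Y.j) (s := 0)
      (fun k x hx => by rw [add_zero]; exact hx.map Y.j) t
    have hn : (((0 : ℤ) : ℂ) + Y.n - D.n) / 2 = 1 / 2 := by
      rw [Y.dim]; push_cast; ring
    rw [hn] at h
    change pl Y.j (Y.mu0 t + ν t) = D.mu0 (pl Y.j t) + ν' (pl Y.j t) - (1 / 2 : ℂ) • pl Y.j t
    rw [map_add, h, show pl Y.j (ν t) = ν' (pl Y.j t) from e t]
    abel
  · change H.map Y.j (ρ * t) = ρ' * H.map Y.j t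
    rw [map_mul, e']

set_option linter.unusedVariables false in
/-- if the restrictions are polynomials in `h`, then `ν` dies on the divisor -/
theorem res_nu {ν : Module.End ℂ (H Y.X)} (hν : Y.Nu ν) {h : H Y.X} (hh : H.IsDeg 2 h) (hm : Cm ν h)
    (hg : Cm ν (PS.push Y.j 1)) (hr : ∀ t, H.map Y.j t ∈ amb (H.map Y.j h))
    (nd : ∀ x ∈ amb (H.map Y.j h), (∀ m : ℕ, D.J (H.map Y.j h ^ m * x) = 0) → x = 0) (t : H Y.X) :
    H.map Y.j (ν t) = 0 := by
  refine nd _ (hr _) fun m => ?_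
  have h0 : ν (PS.push Y.j 1 * h ^ m) = 0 := by
    have := (hg.mul (hm.pow m)) 1
    rwa [mul_one, hν.one, mul_zero] at this
  have h1 := hν.skew (PS.push Y.j 1 * h ^ m) t
  rw [h0, zero_mul, map_zero, mul_assoc, PS.J_push_mul, one_mul, map_mul, map_pow] at h1
  exact neg_eq_zero.1 h1.symm

end Pc

/-- A smoothing: `W` is the total space. -/
structure Sk (Y1 : Pc D c 1) (Y2 : Pc D c (-1)) extends PS where
  /-- the total space -/
  W : Type
  [tW : TopologicalSpace W]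
  /-- the inclusion of the left piece -/
  k1 : C(Y1.X, W)
  /-- the inclusion of the right piece -/
  k2 : C(Y2.X, W)
  /-- the inclusion of the general fibre -/
  k : C(X, W)
  dim : n = D.n + 1
  sq : ∀ x, k1 (Y1.j x) = k2 (Y2.j x)
  mv : ∀ t1 t2, H.map Y1.j t1 = H.map Y2.j t2 → ∃ w, H.map k1 w = t1 ∧ H.map k2 w = t2
  int : ∀ w, J (H.map k w) = Y1.J (H.map k1 w) + Y2.J (H.map k2 w)

attribute [instance] Sk.tW

namespace Sk

variable {Y1 : Pc D c 1} {Y2 : Pc D c (-1)} (X : Sk Y1 Y2) (hc : H.IsDeg 2 c)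

theorem mat' (w : H X.W) : H.map Y1.j (H.map X.k1 w) = H.map Y2.j (H.map X.k2 w) := by
  rw [H.map_map, H.map_map, show X.k1.comp Y1.j = X.k2.comp Y2.j from ContinuousMap.ext X.sq]

theorem int' (w w' : H X.W) : X.J (H.map X.k w * H.map X.k w') =
    Y1.J (H.map X.k1 w * H.map X.k1 w') + Y2.J (H.map X.k2 w * H.map X.k2 w') := by
  rw [← map_mul, ← map_mul, ← map_mul, X.int]

/-- The smoothing in the form of the interface. -/
@[reducible] noncomputable def sm : Deg.Sm (Y1.pz hc) (Y2.pz hc) where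
  toCoh := X.coh
  W := H X.W
  pw := parH X.W
  θ1 := pl X.k1
  θ2 := pl X.k2
  sp := pl X.k
  h1 := isEv_pl _
  h2 := isEv_pl _
  hsp := isEv_pl _
  mat := X.mat'
  mv := X.mv
  int := fun w w' => by
    rw [PS.η_eq, PS.η_eq, PS.η_eq]
    exact X.int' w w'
  one := ⟨1, by rw [PS.one_eq]; exact map_one (H.mapA X.k1),
    by rw [PS.one_eq]; exact map_one (H.mapA X.k2), by rw [PS.one_eq]; exact map_one (H.mapA X.k)⟩

/-- classes which die on the general fibre come from the divisor -/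
theorem exists_gys {w : H X.W} (h : H.map X.k w = 0) :
    ∃ a, H.map X.k1 w = PS.push Y1.j a ∧ H.map X.k2 w = -PS.push Y2.j a := by
  let R : H Y1.X × H Y2.X →ₗ[ℂ] H D.X := (pl Y1.j).coprod (-pl Y2.j)
  let φ : Module.Dual ℂ (H Y1.X × H Y2.X) :=
    (bil Y1.J (H.map X.k1 w)).coprod (bil Y2.J (H.map X.k2 w))
  have hφ : φ ∈ (LinearMap.ker R).dualAnnihilator := by
    rw [Submodule.mem_dualAnnihilator]
    rintro ⟨t1, t2⟩ ht
    obtain ⟨u, rfl, rfl⟩ := X.mv t1 t2 (add_neg_eq_zero.1 ht)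
    have := X.int' w u
    rw [h, zero_mul, map_zero] at this
    exact this.symm
  rw [← LinearMap.range_dualMap_eq_dualAnnihilator_ker] at hφ
  obtain ⟨ψ, hψ⟩ := hφ
  obtain ⟨a, rfl⟩ := PAA.bil_surj D ψ
  refine ⟨a, Y1.ext_left fun b => ?_, Y2.ext_left fun b => ?_⟩
  · have := LinearMap.congr_fun hψ (b, 0)
    simp only [R, φ, LinearMap.dualMap_apply, LinearMap.coprod_apply, map_zero, add_zero,
      bil_apply] at this
    rw [PS.J_push_mul, ← this]
    rfl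
  · have := LinearMap.congr_fun hψ (0, b)
    simp only [R, φ, LinearMap.dualMap_apply, LinearMap.coprod_apply, map_zero, zero_add,
      bil_apply, LinearMap.neg_apply, map_neg] at this
    rw [neg_mul, map_neg, PS.J_push_mul, ← this]
    rfl

/-- the classes from the divisor lift to the total space -/
theorem exists_lift (a : H D.X) :
    ∃ w, H.map X.k1 w = PS.push Y1.j a ∧ H.map X.k2 w = -PS.push Y2.j a :=
  X.mv _ _ (by rw [map_neg, Y1.si, Y2.si, neg_smul, neg_neg])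

/-- their specialisations are orthogonal to all specialisations -/
theorem J_gys {w : H X.W} {a : H D.X} (e1 : H.map X.k1 w = PS.push Y1.j a)
    (e2 : H.map X.k2 w = -PS.push Y2.j a) (u : H X.W) : X.J (H.map X.k w * H.map X.k u) = 0 := by
  rw [X.int', e1, e2, neg_mul, map_neg, PS.J_push_mul, PS.J_push_mul, X.mat', add_neg_cancel]

theorem rel_add {U : Submodule ℂ (H X.W)} {A1 B1 : Module.End ℂ (H Y1.X)}
    {A2 B2 : Module.End ℂ (H Y2.X)} {A B : Module.End ℂ (H X.X)} (h : (X.sm hc).Rel U A1 A2 A)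
    (h' : (X.sm hc).Rel U B1 B2 B) : (X.sm hc).Rel U (A1 + B1) (A2 + B2) (A + B) := fun w hw => by
  obtain ⟨u, a1, a2, a⟩ := h w hw
  obtain ⟨u', b1, b2, b⟩ := h' w hw
  exact ⟨u + u', by rw [map_add, a1, b1]; rfl, by rw [map_add, a2, b2]; rfl,
    by rw [map_add, a, b]; rfl⟩

theorem rel_ml {ρ1 : H Y1.X} {ρ2 : H Y2.X} {ρ : H X.X} (w : H X.W) (e1 : H.map X.k1 w = ρ1)
    (e2 : H.map X.k2 w = ρ2) (e : H.map X.k w = ρ) : (X.sm hc).Rel ⊤ (ml ρ1) (ml ρ2) (ml ρ) := by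
  subst e1 e2 e
  exact fun u _ => ⟨w * u, map_mul (H.map X.k1) w u, map_mul (H.map X.k2) w u,
    map_mul (H.map X.k) w u⟩

theorem rel_mu0 : (X.sm hc).Rel ⊤ Y1.mu0 Y2.mu0 X.mu0 := fun u _ =>
  ⟨(1 / 2 : ℂ) • (dg X.W u - ((D.n + 1 : ℤ) : ℂ) • u), PAA.pl_mu0 X.k1 Y1.dim u,
    PAA.pl_mu0 X.k2 Y2.dim u, PAA.pl_mu0 X.k X.dim u⟩

variable {ν1 : Module.End ℂ (H Y1.X)} {ν2 : Module.End ℂ (H Y2.X)} {ν : Module.End ℂ (H X.X)}
  {νD : Module.End ℂ (H D.X)} (h1 : Y1.Nu ν1) (h2 : Y2.Nu ν2) (hD : D.Nu νD)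
include h1 h2 hD

/-- **the criterion for compatible gradings**: enough classes `F z` on the total space -/
theorem rel_of_lift (e1 : ∀ t, H.map Y1.j (ν1 t) = νD (H.map Y1.j t))
    (e2 : ∀ t, H.map Y2.j (ν2 t) = νD (H.map Y2.j t)) {Z : Type} (F : Z → H X.W) (m : Z → Z)
    (surj : ∀ x, ∃ z, H.map X.k (F z) = x)
    (f1 : ∀ z, H.map X.k1 (F (m z)) = ν1 (H.map X.k1 (F z)))
    (f2 : ∀ z, H.map X.k2 (F (m z)) = ν2 (H.map X.k2 (F z)))
    (f : ∀ z, H.map X.k (F (m z)) = ν (H.map X.k (F z))) :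
    (X.sm hc).Rel ⊤ (Y1.mu0 + ν1) (Y2.mu0 + ν2) (X.mu0 + ν) := by
  refine X.rel_add hc (X.rel_mu0 hc) fun w _ => ?_
  obtain ⟨z, hz⟩ := surj (H.map X.k w)
  obtain ⟨a, a1, a2⟩ := X.exists_gys (w := w - F z) (by rw [map_sub, hz, sub_self])
  obtain ⟨u, u1, u2⟩ := X.exists_lift (νD a)
  have u0 : H.map X.k u = 0 := X.ext_left fun b => by
    obtain ⟨y, rfl⟩ := surj b
    rw [X.J_gys u1 u2, zero_mul, map_zero]
  rw [map_sub, sub_eq_iff_eq_add'] at a1 a2
  refine ⟨F (m z) + u, ?_, ?_, ?_⟩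
  · change H.map X.k1 (F (m z) + u) = ν1 (H.map X.k1 w)
    rw [map_add, f1, u1, a1, map_add, h1.push hD e1]
  · change H.map X.k2 (F (m z) + u) = ν2 (H.map X.k2 w)
    rw [map_add, f2, u2, a2, map_add, map_neg, h2.push hD e2]
  · change H.map X.k (F (m z) + u) = ν (H.map X.k w)
    rw [map_add, f, u0, add_zero, hz]

omit hD in
/-- the ambient classes -/
theorem rel_amb (e1 : ∀ t, H.map Y1.j (ν1 t) = 0) (e2 : ∀ t, H.map Y2.j (ν2 t) = 0) {w : H X.W}
    (c1 : Cm ν1 (H.map X.k1 w)) (c2 : Cm ν2 (H.map X.k2 w)) (hν : ∀ x ∈ amb (H.map X.k w), ν x = 0) :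
    (X.sm hc).Rel ((amb (H.map X.k w)).comap (pl X.k)) (Y1.mu0 + ν1) (Y2.mu0 + ν2) (X.mu0 + ν) := by
  refine X.rel_add hc (fun u _ => X.rel_mu0 hc u trivial) fun u hu => ?_
  have hu' : H.map X.k u ∈ amb (H.map X.k w) := hu
  obtain ⟨p, hp, e⟩ := PAA.exists_amb X.k hu'
  obtain ⟨a, a1, a2⟩ := X.exists_gys (w := u - p) (by rw [map_sub, e, sub_self])
  rw [map_sub, sub_eq_iff_eq_add'] at a1 a2
  refine ⟨0, ?_, ?_, ?_⟩
  · change H.map X.k1 0 = ν1 (H.map X.k1 u)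
    rw [map_zero, a1, map_add, PAA.nu_amb h1 c1 (map_amb _ hp), ← h1.push PS.Nu.zero e1,
      LinearMap.zero_apply, map_zero, add_zero]
  · change H.map X.k2 0 = ν2 (H.map X.k2 u)
    rw [map_zero, a2, map_add, map_neg, PAA.nu_amb h2 c2 (map_amb _ hp), ← h2.push PS.Nu.zero e2,
      LinearMap.zero_apply, map_zero, neg_zero, add_zero]
  · change H.map X.k 0 = ν (H.map X.k u)
    rw [map_zero, hν _ hu']

end Sk

end Vale.Agent.P269.Coh
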