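import Vale.Agent.P269.Gen.Ser
import Vale.Agent.P269.Mono.WL

/-!
# P269, cohomological packages: degrees and parity
-/

set_option linter.unusedSectionVars false

namespace Vale.Agent.P269.Coh

open P291Z Set Function Fock Mono

section pd

variable {X Y : Type} [TopologicalSpace X] [TopologicalSpace Y]

/-- Poincare duality in complex dimension `n` for the integral `J`. -/
structure PD (X : Type) [TopologicalSpace X] (n : ℤ) (J : H X →ₗ[ℂ] ℂ) : Prop where
  deg : ∀ k, k ≠ 2 * n → ∀ x, H.IsDeg k x → J x = 0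
  nondeg : ∀ x, (∀ y, J (y * x) = 0) → x = 0
  fin : FiniteDimensional ℂ (H X)

/-- Pull-back as a linear map. -/
noncomputable abbrev pl (f : C(X, Y)) : H Y →ₗ[ℂ] H X := (H.mapA f).toLinearMap

/-- Multiplication by a class. -/
noncomputable abbrev ml (x : H X) : Module.End ℂ (H X) := LinearMap.mul ℂ (H X) x

theorem parH_of_deg {k : ℤ} {x : H X} (hx : H.IsDeg k x) :
    (parH X).σ x = (k.negOnePow : ℂ) • x := by
  obtain ⟨a, ha, h1, rfl⟩ := H.isDeg_iff.1 hx
  rw [parH_hcls ha, h1.par_eq, hcls_smul _ ha, Int.cast_negOnePow]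

theorem PA0.induction {P : H X → Prop} (h0 : P 0) (hadd : ∀ b c, P b → P c → P (b + c))
    (h : ∀ k x, H.IsDeg k x → P x) (c : H X) : P c :=
  H.induction_deg c h0 hadd fun k => h k _ (H.isDeg_comp k c)

theorem parH_mul (x y : H X) : (parH X).σ (x * y) = (parH X).σ x * (parH X).σ y := by
  induction x using PA0.induction with
  | h0 => simp
  | hadd a b ha hb => simp only [add_mul, map_add, ha, hb]
  | h k x hx =>
    induction y using PA0.induction with
    | h0 => simp
    | hadd a b ha hb => simp only [mul_add, map_add, ha, hb]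
    | h l y hy =>
      rw [parH_of_deg (hx.mul hy), parH_of_deg hx, parH_of_deg hy, smul_mul_smul_comm,
        Int.negOnePow_add, Units.val_mul, Int.cast_mul]

theorem parH_one : (parH X).σ 1 = 1 := by rw [parH_of_deg H.isDeg_one]; simp

/-- maps which shift the degree by an even number are even -/
theorem isEv_of_deg {f : H X →ₗ[ℂ] H Y} {s : ℤ}
    (h : ∀ k x, H.IsDeg k x → H.IsDeg (k + 2 * s) (f x)) : IsEv (parH X) (parH Y) f := fun x => by
  induction x using PA0.induction with
  | h0 => simp
  | hadd a b ha hb => simp only [map_add, ha, hb]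
  | h k x hx =>
    rw [parH_of_deg (h k x hx), parH_of_deg hx, map_smul, Int.negOnePow_add,
      Int.negOnePow_two_mul, mul_one]

theorem isEv_pl (f : C(X, Y)) : IsEv (parH Y) (parH X) (pl f) :=
  isEv_of_deg (s := 0) fun k x hx => by
    rw [mul_zero, add_zero]
    exact hx.map f

theorem isEv_ml {x : H X} {s : ℤ} (hx : H.IsDeg (2 * s) x) : IsEv (parH X) (parH X) (ml x) :=
  isEv_of_deg (s := s) fun k _ hy => add_comm (2 * s) k ▸ hx.mul hy

theorem PA0.fin_comp (x : H X) : (support fun k : ℤ => (k : ℂ) • H.comp k x).Finite := by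
  obtain ⟨N, hN⟩ := H.exists_sum_comp x
  refine ((finite_lt_nat N).image Nat.cast).subset fun k hk => by_contra fun h => hk ?_
  show (k : ℂ) • H.comp k x = 0
  rw [← hN N le_rfl, map_sum, Finset.sum_eq_zero fun j hj => (H.isDeg_comp _ x).comp_ne
    fun e => h ⟨j, Finset.mem_range.1 hj, e.symm⟩, smul_zero]

theorem exists_dg : ∃ d : Module.End ℂ (H X), ∀ (k : ℤ) x, H.IsDeg k x → d x = (k : ℂ) • x :=
  ⟨{ toFun := fun x => ∑ᶠ k : ℤ, (k : ℂ) • H.comp k x
     map_add' := fun x y => by
      rw [← finsum_add_distrib (PA0.fin_comp x) (PA0.fin_comp y)]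
      simp only [map_add, smul_add]
     map_smul' := fun c x => by
      rw [RingHom.id_apply, smul_finsum' c (PA0.fin_comp x)]
      simp only [map_smul, smul_comm c] }, fun k x hx =>
    (finsum_eq_single _ k fun j hj => by rw [hx.comp_ne hj, smul_zero]).trans (by rw [hx.comp_eq])⟩

variable (X) in
/-- The degree operator. -/
noncomputable def dg : Module.End ℂ (H X) := exists_dg.choose

theorem dg_of_deg {k : ℤ} {x : H X} (hx : H.IsDeg k x) : dg X x = (k : ℂ) • x :=
  exists_dg.choose_spec k x hx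

/-- two linear maps which agree on homogeneous classes are equal -/
theorem ext_deg {M : Type*} [AddCommGroup M] [Module ℂ M] {f g : H X →ₗ[ℂ] M}
    (h : ∀ k x, H.IsDeg k x → f x = g x) : f = g :=
  LinearMap.ext (PA0.induction (by simp) (fun a b ha hb => by rw [map_add, map_add, ha, hb]) h)

theorem dg_shift {f : H X →ₗ[ℂ] H Y} {s : ℤ} (h : ∀ k x, H.IsDeg k x → H.IsDeg (k + s) (f x))
    (x : H X) : dg Y (f x) = f (dg X x) + (s : ℂ) • f x :=
  LinearMap.congr_fun (ext_deg (f := dg Y ∘ₗ f) (g := f ∘ₗ dg X + (s : ℂ) • f) fun k x hx => by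
    show dg Y (f x) = f (dg X x) + (s : ℂ) • f x
    rw [dg_of_deg (h k x hx), dg_of_deg hx, map_smul, Int.cast_add, add_smul]) x

/-- a nondegenerate supersymmetric pairing has a frame -/
theorem PA0.exists_frame {V : Type} [AddCommGroup V] [Module ℂ V] [FiniteDimensional ℂ V]
    {p : Par ℂ V} {η : V →ₗ[ℂ] Module.Dual ℂ V} (hs : η ∈ SymB p)
    (nd : ∀ x, (∀ y, η y x = 0) → x = 0) {u : V} (hu : p.σ u = u) :
    ∃ (m : ℕ) (fr : Frame p (Fin m)), fr.η = η ∧ fr.one = u := by
  classical
  obtain ⟨T, h1, h2, h3⟩ := exists_linearIndependent ℂ {v | p.σ v = v ∨ p.σ v = -v}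
  let b₀ : Module.Basis T ℂ V := Module.Basis.mk h3 fun v _ => by
    rw [Subtype.range_coe, h2, ← p.ev_add_od v]
    exact add_mem (Submodule.subset_span (.inl (p.σ_ev v)))
      (Submodule.subset_span (.inr (p.σ_od v)))
  let b := b₀.reindex (b₀.indexEquiv (Module.finBasis ℂ V))
  let π : Fin (Module.finrank ℂ V) → ℕ := fun a => if p.σ (b a) = b a then 0 else 1
  have he : ∀ a, p.σ (b a) = (-1 : ℂ) ^ π a • b a := fun a => by
    have h4 : b a ∈ T := by
      rw [Module.Basis.reindex_apply, Module.Basis.mk_apply]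
      exact Subtype.prop _
    by_cases h5 : p.σ (b a) = b a
    · simp only [π, if_pos h5, pow_zero, one_smul, h5]
    · simp only [π, if_neg h5, pow_one, neg_smul, one_smul, (h1 h4).resolve_left h5]
  have hi : Injective η := (injective_iff_map_eq_zero _).2 fun x hx => by
    rw [← p.inv x, nd (p.σ x) fun y => by rw [hs y, p.inv, hx, LinearMap.zero_apply], map_zero]
  choose f hf using fun a => (LinearMap.injective_iff_surjective_of_finrank_eq_finrank
    Subspace.dual_finrank_eq.symm).1 hi (b.coord a)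
  refine ⟨_, ⟨η, hs, b, f, π, he, fun a => hi (b.ext fun c => ?_), fun v => ?_, u, hu⟩, rfl, rfl⟩
  · rw [← SymB.comp_σ hs, map_smul, hf, LinearMap.comp_apply, he, map_smul, LinearMap.smul_apply,
      Module.Basis.coord_apply, b.repr_self, Finsupp.single_apply]
    split_ifs with h
    · rw [h]
    · rw [smul_zero, smul_zero]
  · simp only [hf, Module.Basis.coord_apply, b.sum_repr]

theorem PD.symB {n : ℤ} {J : H X →ₗ[ℂ] ℂ} (h : PD X n J) : bil J ∈ SymB (parH X) := fun v w => by
  induction v using PA0.induction with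
  | h0 => simp
  | hadd a b ha hb => simp only [map_add, LinearMap.add_apply, ha, hb]
  | h k x hx =>
    induction w using PA0.induction with
    | h0 => simp
    | hadd a b ha hb => simp only [map_add, LinearMap.add_apply, ha, hb]
    | h l y hy =>
      rw [bil_apply, bil_apply, hx.comm hy, parH_of_deg hy, smul_mul_assoc, map_smul, map_smul]
      rcases eq_or_ne (l + k) (2 * n) with e | e
      · rw [← Int.cast_negOnePow, show k * l = l + 2 * (n * l) - l * (l + 1) by
          rw [show k = 2 * n - l by omega]; ring, Int.negOnePow_sub, Int.negOnePow_add,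
          Int.negOnePow_two_mul, Int.negOnePow_even _ (Int.even_mul_succ_self l), mul_one, mul_one]
      · rw [h.deg _ e _ (hy.mul hx), smul_zero, smul_zero]

theorem PD.exists_fr {n : ℤ} {J : H X →ₗ[ℂ] ℂ} (h : PD X n J) :
    ∃ (m : ℕ) (fr : Frame (parH X) (Fin m)), fr.η = bil J ∧ fr.one = 1 :=
  haveI := h.fin
  PA0.exists_frame h.symB h.nondeg parH_one

/-- The operator `ν` commutes with the multiplication by `x`. -/
def Cm (ν : Module.End ℂ (H X)) (x : H X) : Prop := ∀ a, ν (x * a) = x * ν a

namespace Cm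

variable {ν : Module.End ℂ (H X)} {x y : H X}

theorem one : Cm ν 1 := fun a => by rw [one_mul, one_mul]
theorem zero : Cm ν 0 := fun a => by rw [zero_mul, zero_mul, map_zero]
theorem add (h : Cm ν x) (h' : Cm ν y) : Cm ν (x + y) := fun a => by
  rw [add_mul, add_mul, map_add, h, h']
theorem neg (h : Cm ν x) : Cm ν (-x) := fun a => by rw [neg_mul, neg_mul, map_neg, h]
theorem sub (h : Cm ν x) (h' : Cm ν y) : Cm ν (x - y) := fun a => by
  rw [sub_mul, sub_mul, map_sub, h, h']
theorem mul (h : Cm ν x) (h' : Cm ν y) : Cm ν (x * y) := fun a => by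
  rw [mul_assoc, h, h', mul_assoc]
theorem smul (c : ℂ) (h : Cm ν x) : Cm ν (c • x) := fun a => by
  rw [smul_mul_assoc, smul_mul_assoc, map_smul, h]
theorem zsmul (c : ℤ) (h : Cm ν x) : Cm ν (c • x) := fun a => by
  rw [smul_mul_assoc, smul_mul_assoc, map_zsmul, h]
theorem pow (h : Cm ν x) (m : ℕ) : Cm ν (x ^ m) := by
  induction m with
  | zero => exact (pow_zero x).symm ▸ one
  | succ m ih => exact (pow_succ x m).symm ▸ ih.mul h
theorem sum {ι : Type*} (s : Finset ι) {f : ι → H X} (h : ∀ i ∈ s, Cm ν (f i)) :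
    Cm ν (∑ i ∈ s, f i) := Finset.sum_induction f (Cm ν) (fun _ _ => add) zero h
theorem amb (h : Cm ν x) (hy : y ∈ amb x) : Cm ν y := by
  induction hy using Submodule.span_induction with
  | mem _ hz => obtain ⟨j, rfl⟩ := hz; exact h.pow j
  | zero => exact zero
  | add _ _ _ _ ha hb => exact ha.add hb
  | smul c _ _ ha => exact ha.smul c

end Cm

end pd

end Vale.Agent.P269.Coh
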