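import Vale.Agent.P269.Asm.Flg
import Vale.Agent.P269.Kit.Smo
import Vale.Agent.P269.Coh.QM
import Vale.Agent.P269.Mono.Main
import Vale.Agent.P269.Br.HgB

/-!
# P269, cohomological packages: the universal family of complete intersections
-/

set_option linter.unusedSectionVars false
set_option linter.style.haveILetI false

namespace Vale.Agent.P269.Mono.CI

open Set Topology Filter P291Z P291Z.Fl Holo Coh Tq MvPolynomial Br.HgB
open Function hiding eval

variable {Λ J K : Type} [Fintype Λ] [Fintype J] [Fintype K] (S : CI (Λ → ℂ) J K)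
  {B B' : Set (Λ → ℂ)} {u v : Λ → ℂ} {z : (Λ → ℂ) × (J → ℂ)}

open Classical in
/-- The universal equations. -/
noncomputable def ug (k : K) : MvPolynomial J (MvPolynomial Λ ℂ) :=
  ∑ a, C (.X a) * MvPolynomial.map C (S.F (Pi.single a 1) k)

theorem map_ug (l : Λ → ℂ) (k : K) : MvPolynomial.map (eval l) (S.ug k) = S.F l k := by
  classical
  have e : ∀ f : MvPolynomial J ℂ, MvPolynomial.map (eval l) (MvPolynomial.map C f) = f := fun f => by
    rw [MvPolynomial.map_map]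
    exact (congrArg (MvPolynomial.map · f) (RingHom.ext fun _ => eval_C _)).trans
      (MvPolynomial.map_id f)
  conv_rhs => rw [pi_eq_sum_univ' l, map_sum, Finset.sum_apply]
  simp only [ug, map_sum, map_mul, map_C, eval_X, e, map_smul, Pi.smul_apply, smul_eq_C_mul]

theorem hom_ug (k : K) : (S.ug k).IsHomogeneous (S.d k) :=
  IsHomogeneous.sum _ _ _ fun _ _ => ((S.hom _ k).map _).C_mul _

variable (Λ J) in
/-- The weights of the universal family. -/
def uw : Wt Empty Λ Unit J := ⟨fun _ _ => 1, fun _ => Empty.elim, fun _ => Empty.elim⟩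

/-- The universal family over `B`. -/
@[reducible] noncomputable def uf (B : Set (Λ → ℂ)) : P269.Fam Empty Λ Unit J K where
  toWt := uw Λ J
  θ := fun _ => 3
  χ := fun k _ => S.d k
  wk := fun _ => Empty.elim
  G := S.ug
  B := B
  U := {z | z.2 ≠ 0}
  E := univ
  mov := univ
  zer := ∅

theorem uf_fib (l : Λ → ℂ) (k : K) : ((S.uf B).fib l).F k = S.F l k := S.map_ug l k

theorem uf_eqn (k : K) : (S.uf B).eqn z k = S.ev z.1 z.2 k := congrArg (eval z.2) (S.uf_fib _ k)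

theorem uw_actL (t : Empty → ℂ) (l : Λ → ℂ) : (uw Λ J).actL t l = l :=
  funext fun a => by simp [Wt.actL]

theorem uw_act (t : (Empty → ℂ) × (Unit → ℂ)) (z : (Λ → ℂ) × (J → ℂ)) :
    (uw Λ J).actT t z = (z.1, t.2 () • z.2) :=
  Prod.ext (uw_actL _ _) (funext fun j => by simp [Wt.actT, uw])

variable {S}

theorem mem_uf : z ∈ (S.uf B).cone ↔ z.1 ∈ B ∧ z.2 ≠ 0 ∧ S.ev z.1 z.2 = 0 := by
  simp only [Fam.mem_cone, uf_eqn, funext_iff (f := S.ev _ _)]
  exact ⟨fun h => ⟨h.1.1, h.2⟩, fun h => ⟨⟨h.1, trivial, fun _ h => h.elim⟩, h.2⟩⟩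

theorem uf_mono (h : B ⊆ B') : (S.uf B).cone ⊆ (S.uf B').cone := fun _ hz =>
  mem_uf.2 ⟨h (mem_uf.1 hz).1, (mem_uf.1 hz).2⟩

theorem uf_inv (lc : IsLocallyClosed B) : (S.uf B).Inv where
  hom k α hα _ := by
    have h2 := S.hom_ug k (mem_support_iff.1 hα)
    rw [Finsupp.weight_apply, Finsupp.sum_fintype _ _ (by simp)] at h2
    change ∑ j, (α j : ℤ) * 1 = (S.d k : ℤ)
    simpa using congrArg (Nat.cast : ℕ → ℤ) h2
  homS _ _ _ _ _ i := i.elim
  openU := isOpen_compl_singleton.preimage continuous_snd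
  invU t ht z hz := by
    rw [uw_act]
    exact smul_ne_zero (isUnit_pi_iff.1 (Prod.isUnit_iff.1 ht).2 _) hz
  closedE := isClosed_univ
  invE _ _ _ _ := trivial
  baseE _ _ _ _ _ := trivial
  zer_base := empty_disjoint _
  lcB := lc
  invB _ _ _ h := mem_of_eq_of_mem (uw_actL _ _) h

theorem uf_ample : (S.uf B).Ample 1 1 :=
  ⟨rfl, one_pos, fun c hc z hz =>
    ciF_ample.2.2 c hc (0, z.2) (mem_PJ.2 (mem_uf.1 hz).2.1)⟩

theorem uf_big {k : ℕ} (hk : 30 ≤ k) : (S.uf B).Big k := ⟨1, 1, uf_ample, hk⟩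

theorem fderiv_ev (x η : J → ℂ) (k : K) :
    fderiv ℂ (S.ev u) x η k = ∑ j, eval x (pderiv j (S.F u k)) * η j :=
  ((Vir.hasDerivAt_eval _ x η).unique (hasDerivAt_pi.1
    ((S.diff_ev u x).hasFDerivAt.hasLineDerivAt η) k)).symm

theorem mem_U (h : SmCI (S.F u) S.d) : u ∈ S.U := fun x hx => hx.2.2 fun c =>
  ((li_iff_surj _).1 (h.li x ⟨hx.1, congrFun hx.2.1⟩) c).imp fun η e =>
    funext fun k => (fderiv_ev x η k).trans (e k)

theorem uf_reg (hB : B ⊆ S.U) : (S.uf B).Reg univ := Fam.reg_univ fun z hz c => by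
  obtain ⟨h1, h2, h3⟩ := mem_uf.1 hz
  obtain ⟨η, e⟩ := not_not.1 (fun e => hB h1 z.2 ⟨h2, h3, e⟩) c
  exact ⟨η, fun _ h => (h trivial).elim, fun k => by
    simp only [Fam.jac, uf_fib, ← fderiv_ev, e]⟩

variable [Nonempty J]

theorem uf_good (lc : IsLocallyClosed B) : (S.uf B).Good where
  toInv := uf_inv lc
  deg k := by
    obtain ⟨a, ha⟩ := S.exists_ev
    rw [(S.hom_ug k).totalDegree fun e => one_ne_zero ((congrFun ha k).symm.trans
      (by rw [ev, ← map_ug, e, map_zero, map_zero]))]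
    exact (S.pos k).ne'
  freeB _ _ _ _ _ := Subsingleton.elim _ _
  properB _ _ _ _ _ _ _ _ _ _ := ⟨0, fun _ i => i.elim⟩
  free t _ z hz e := by
    have h1 := congrArg Prod.snd e
    rw [uw_act] at h1
    have h2 : (t () - 1) • z.2 = 0 := by rw [sub_smul, one_smul]; exact sub_eq_zero.2 h1
    exact funext fun _ => sub_eq_zero.1 ((smul_eq_zero.1 h2).resolve_right (mem_uf.1 hz).2.1)
  proper t z z' ht hz hz' y hy H := (sm_PJ (J := J)).good.proper t (0, z.2) (0, z'.2) ht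
    (mem_PJ.2 (mem_uf.1 hz).2.1) (mem_PJ.2 (mem_uf.1 hz').2.1) y hy H
  cpt C h hC := by
    refine ⟨{z | z.1 ∈ C ∧ ‖z.2‖ = 1 ∧ S.ev z.1 z.2 = 0}, fun z hz => mem_uf.2
      ⟨h hz.1, norm_ne_zero_iff.1 (by rw [hz.2.1]; exact one_ne_zero), hz.2.2⟩, ?_,
      fun z hz h1 => ?_⟩
    · exact (hC.prod (isCompact_sphere 0 1)).of_isClosed_subset
        ((hC.isClosed.preimage continuous_fst).inter
          ((isClosed_eq continuous_snd.norm continuous_const).inter
            (isClosed_eq (S.continuous_ev continuous_fst continuous_snd) continuous_const)))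
        fun z hz => ⟨hz.1, mem_sphere_zero_iff_norm.2 hz.2.1⟩
    · have h0 : ‖z.2‖ ≠ 0 := norm_ne_zero_iff.2 (mem_uf.1 hz).2.1
      refine ⟨fun _ => ((‖z.2‖⁻¹ : ℝ) : ℂ), isUnit_pi_iff.2 fun _ => by simpa using h0, ?_⟩
      rw [uw_act]
      exact ⟨h1, by simp [norm_smul, inv_mul_cancel₀ h0], S.ev_smul_of (mem_uf.1 hz).2.2 _⟩
  ample := ⟨1, 1, uf_ample⟩
  mov_ne := univ_nonempty

theorem uf_nice (hB : B ⊆ S.U) (lc : IsLocallyClosed B) {b : ℕ} (sm : ∀ l ∈ B, MfdAt B b l) :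
    (S.uf B).Nice 0 where
  toGood := uf_good lc
  reg := ⟨_, uf_reg hB⟩
  sm := ⟨b, fun l => (sm _ l.2).isMfd l.2⟩
  pol := ⟨∅, by simp, by simp⟩
  sh := ⟨0, Fin.elim0, fun _ => 0, fun _ _ => 1, fun i => i.elim0, linearIndependent_empty_type,
    fun _ i => i.elim0, by simp, fun _ _ _ => ⟨analyticAt_const, one_ne_zero⟩,
    by simp, by simp, by simp, fun _ _ => rfl⟩

omit [Nonempty J] in
theorem mfdAt_pt (l : Λ → ℂ) (h : l ∈ ({u} : Set (Λ → ℂ))) : MfdAt {u} 0 l :=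
  ⟨h, fun _ => ⟨l, h⟩, .of_map_nhds (.of_forall fun _ => continuousAt_const)
    (.of_forall fun _ => continuous_subtype_val.continuousAt) analyticAt_const
    (injective_of_subsingleton _) fun _ a => mem_of_superset univ_mem fun y _ =>
      Subsingleton.elim ⟨l, h⟩ y ▸ (mem_of_mem_nhds a :), rfl⟩

theorem nice_pt (hu : u ∈ S.U) : (S.uf {u}).Nice 0 :=
  uf_nice (singleton_subset_iff.2 hu) isClosed_singleton.isLocallyClosed mfdAt_pt

theorem nice_open (hB : B ⊆ S.U) (ho : IsOpen B) : (S.uf B).Nice 0 :=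
  uf_nice hB ho.isLocallyClosed fun l hl => (MfdAt.univ l).congr
    (mem_of_superset (ho.mem_nhds hl) fun _ h => iff_of_true trivial h)

omit [Nonempty J]

theorem cp_pt : (S.uf {u}).Cp := Fam.cp_of_subsingleton subsingleton_singleton

theorem prj_act {t : (Empty → ℂ) × (Unit → ℂ)} (ht : IsUnit t) (z : (Λ → ℂ) × (J → ℂ)) :
    prj ((uw Λ J).actT t z).2 = prj z.2 := by
  rw [uw_act]
  exact prj_smul ((isUnit_T.1 ht).2 _) _

variable (S B) in
/-- The comparison with the space of projectors. -/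
noncomputable def pj : C((uw Λ J).X (S.uf B).cone, S.XS B) :=
  ⟨Quot.lift (fun z => ⟨(⟨z.1.1, (mem_uf.1 z.2).1⟩, prj z.1.2),
      _, (mem_uf.1 z.2).2.1, (mem_uf.1 z.2).2.2, rfl⟩) fun _ _ ⟨_, h1, h2⟩ => Subtype.ext (Prod.ext
        (Subtype.ext ((congrArg Prod.fst h2).trans (uw_actL _ _)).symm)
        ((congrArg (fun z : (Λ → ℂ) × (J → ℂ) => prj z.2) h2).trans (prj_act h1 _)).symm),
    continuous_quot_lift _ (.subtype_mk (.prodMk (.subtype_mk (by fun_prop) _)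
      (continuous_iff_continuousAt.2 fun z =>
        continuousAt_prj (by fun_prop) (mem_uf.1 z.2).2.1)) _)⟩

variable (S u) in
/-- The same for one member. -/
noncomputable def pu : C((uw Λ J).X (S.uf {u}).cone, S.X u) :=
  ⟨fun x => ⟨(S.pj {u} x).1.2, (congrArg S.X (S.pj {u} x).1.1.2).subset (S.pj {u} x).2⟩,
    by fun_prop⟩

theorem pu_mk (z : (S.uf {u}).cone) : (S.pu u (Quo.mk _ z)).1 = prj z.1.2 := rfl

theorem rs_pu (hu : u ∈ B) (e : H (S.XS B)) : H.map (S.pu u) (H.map (S.rs B u hu) e) =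
    (uw Λ J).rs (uf_mono (singleton_subset_iff.2 hu)) (H.map (S.pj B) e) := by
  rw [Wt.rs_eq, H.map_map, H.map_map]
  exact congrArg (H.map · e) (ContinuousMap.ext (mk_surj.forall.2 fun z =>
    Subtype.ext (Prod.ext (Subtype.ext (mem_uf.1 z.2).1.symm) rfl)))

theorem bij_pu : Bijective (S.pu u) := by
  refine ⟨mk_surj.forall₂.2 fun x y e => ?_, fun ⟨_, x, h1, h2, rfl⟩ =>
    ⟨Quo.mk _ ⟨(u, x), mem_uf.2 ⟨rfl, h1, h2⟩⟩, rfl⟩⟩
  obtain ⟨c, hc⟩ := exists_smul_of_prj (mem_uf.1 y.2).2.1 (congrArg Subtype.val e)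
  refine Quot.sound ⟨(1, fun _ => c), isUnit_T.2 ⟨fun _ => one_ne_zero, fun _ h => ?_⟩, ?_⟩
  · exact (mem_uf.1 y.2).2.1 (by rw [hc, show c = 0 from h, zero_smul])
  · rw [uw_act]
    exact Prod.ext ((mem_uf.1 y.2).1.trans (mem_uf.1 x.2).1.symm) hc

/-- **The correlators are deformation invariant.** -/
theorem defInv_cor [Nonempty J] (hK : St.Kit) (hD : St.Def) {k : ℕ} (hk : 30 ≤ k) (β : Unit → ℤ)
    (j : ℤ) (l₂ : List (ℕ × ℕ)) {r : ℕ} (m : Fin r → ℕ) :
    S.DefInv fun u (x : Fin r → H (S.X u)) => (S.uf {u}).cor k (uw Λ J).ex0 0 (S.uf {u}).cone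
      (S.uf {u}).cone β j (List.ofFn fun i => (m i, H.map (S.pu u) (x i))) l₂ [] := by
  intro W ho hc hU u v hu hv e
  have key : ∀ u (hu : u ∈ W), (S.uf {u}).cor k (uw Λ J).ex0 0 (S.uf {u}).cone (S.uf {u}).cone β j
      (List.ofFn fun i => (m i, H.map (S.pu u) (H.map (S.rs W u hu) (e i)))) l₂ [] =
      (S.uf {u}).cor k (uw Λ J).ex0 0 (S.uf W).cone (S.uf W).cone β j
        (List.ofFn fun i => (m i, H.map (S.pj W) (e i))) l₂ [] := fun u hu => by
    have n := nice_pt (hU hu)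
    have s : (S.uf {u}).cone ⊆ (S.uf W).cone := uf_mono (singleton_subset_iff.2 hu)
    rw [hK.res (S.uf {u}) 0 k _ s ((Fam.dvs_subset _ 0).trans s) n cp_pt (uf_big hk)
      (Fam.exOk0 hK.selC n.toGood (uf_big hk)), List.map_ofFn]
    simp only [rs_pu]
    exact Fam.cor_nil _ _ _ _ _ _
  refine (key u hu).trans (Eq.trans ?_ (key v hv).symm)
  exact hD (S.uf W) k 1 u v (nice_open hU ho) (uf_big hk) subset_rfl
    ((hc.isPathConnected ⟨u, hu⟩).joinedIn u hu v hv) β j _ l₂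

end Vale.Agent.P269.Mono.CI
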