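import Vale.Agent.P269.Coh.TrA
import Vale.Agent.P269.Inv.Group

/-!
# P269, cohomological packages: parallel transport of the integral and of the correlators
-/

set_option linter.unusedSectionVars false
set_option linter.style.haveILetI false

namespace Vale.Agent.P269.Mono.CI

open Set Topology Filter P291Z P291Z.Fl Holo Coh Tq MvPolynomial Module Br.HgB
open Function hiding eval

variable {Λ J K : Type} [Fintype Λ] [Fintype J] [Fintype K] {S : CI (Λ → ℂ) J K}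
  {B B' : Set (Λ → ℂ)} {u v : Λ → ℂ} {z : (Λ → ℂ) × (J → ℂ)}

theorem tan_line {W : Type} [NormedAddCommGroup W] [NormedSpace ℂ W] {A : Set W} {x w : W}
    (hx : x ∈ A) (h : ∀ᶠ ε : ℂ in 𝓝 0, x + ε • w ∈ A) : w ∈ tan (Subtype.val : A → W) ⟨x, hx⟩ := by
  have := Arc.mem_tan (S := A) (a := x) (c := fun ε => x + ε • w)
    ⟨analyticAt_const.add (analyticAt_id.smul analyticAt_const), by simp, h⟩ hx
  rwa [(((hasDerivAt_id' (0 : ℂ)).smul_const w).const_add x).deriv, one_smul] at this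

/-- the total cone is a manifold and vector fields on the base lift -/
theorem mfd_uf (hB : B ⊆ S.U) (hz : z ∈ (S.uf B).cone) {b : ℕ} (hb : MfdAt B b z.1) :
    ∃ n, n + Fintype.card K = b + Fintype.card J ∧ MfdAt (S.uf B).cone n z ∧
      ∀ w, (∀ᶠ ε : ℂ in 𝓝 0, z.1 + ε • w ∈ B) →
        ∃ η, (w, η) ∈ tan (Subtype.val : (S.uf B).cone → _) ⟨z, hz⟩ := by
  obtain ⟨h1, h2, h3⟩ := mem_uf.1 hz
  have hs : Surjective (fderiv ℂ (S.ev z.1) z.2) := not_not.1 fun e => hB h1 z.2 ⟨h2, h3, e⟩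
  have hΦ : AnalyticAt ℂ (fun p : (Λ → ℂ) × (J → ℂ) => S.ev p.1 p.2) z :=
    S.contDiff_ev.contDiffAt.analyticAt
  have e : (S.uf B).cone ⊆ B ×ˢ univ := fun x hx => ⟨(mem_uf.1 hx).1, trivial⟩
  have hm : MfdAt (B ×ˢ (univ : Set (J → ℂ))) _ z := hb.prod (.univ z.2)
  have ht : ∀ w η, (∀ᶠ ε : ℂ in 𝓝 0, z.1 + ε • w ∈ B) →
      (w, η) ∈ tan (Subtype.val : B ×ˢ (univ : Set (J → ℂ)) → _) ⟨z, e hz⟩ := fun w η h =>
    tan_line _ (h.mono fun _ k => ⟨k, trivial⟩)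
  have hc : Fintype.card K ≤ Fintype.card J := by
    simpa using LinearMap.finrank_le_finrank_of_surjective
      (f := (fderiv ℂ (S.ev z.1) z.2).toLinearMap) hs
  obtain ⟨k1, k2⟩ := IsMfd.sub (ι := (Subtype.val : B ×ˢ (univ : Set (J → ℂ)) → _))
    (j := inclusion e) (IsEmbedding.inclusion e) (z := ⟨z, hz⟩) (n := b + Fintype.card J -
      Fintype.card K) hm.2 hΦ (fun c => (hs c).elim fun η k => ⟨(0, η), ht 0 η (by simp [h1]),
        (fderiv_inr hΦ η).symm.trans k⟩)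
    ((ContinuousAt.eventually_ne (g := fun y : B ×ˢ (univ : Set (J → ℂ)) => y.1.2)
      (x := ⟨z, e hz⟩) (by fun_prop) h2).mono fun y k =>
      ⟨fun ⟨x, hx⟩ => hx ▸ (mem_uf.1 x.2).2.2, fun k' => ⟨⟨y, mem_uf.2 ⟨y.2.1, k, k'⟩⟩, rfl⟩⟩)
    (by simp; omega)
  refine ⟨_, by omega, ⟨hz, k1⟩, fun w hw => ?_⟩
  obtain ⟨η, hη⟩ := hs (-fderiv ℂ (fun l => S.ev l z.2) z.1 w)
  exact ⟨η, k2.ge ⟨ht w η hw, (fderiv_prod_apply hΦ w η).trans (by
    rw [show (fun y => S.ev z.1 y) = S.ev z.1 from rfl, hη, add_neg_cancel])⟩⟩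

theorem finrank_tor : finrank ℂ ((Empty → ℂ) × (Unit → ℂ)) = 1 := by simp

variable [Nonempty J]

theorem qm_cpt : CompactSpace ((uw Λ J).X (S.uf {u}).cone) :=
  (uf_good isClosed_singleton.isLocallyClosed).compact cp_pt

theorem qm_pt (hu : u ∈ S.U) : (uw Λ J).QM (S.uf {u}).cone
    (Fintype.card J - Fintype.card K - Fintype.card Unit) := by
  haveI : FP (uw Λ J).actT (S.uf {u}).cone := (uf_good isClosed_singleton.isLocallyClosed).fp
  haveI := qm_cpt (S := S) (u := u)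
  refine QM.of_mfd (Wt.lin_actT _) fun x hx => ?_
  obtain ⟨n, h1, h2, -⟩ := mfd_uf (singleton_subset_iff.2 hu) hx (mfdAt_pt _ (mem_uf.1 hx).1)
  exact ⟨n, by rw [finrank_tor, Fintype.card_unit]; omega, h2⟩

/-- **The integral is deformation invariant.** -/
theorem defInv_J : S.DefInv fun u (x : Unit → H (S.X u)) =>
    Loc.intg (fnd (uw Λ J).actT (S.uf {u}).cone) (H.map (S.pu u) (x ())) := by
  intro W _ hc hU u v hu hv e
  rcases eq_or_ne v u with rfl | hne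
  · rfl
  have qu := qm_pt (hU hu)
  have qv := qm_pt (hU hv)
  by_cases hn : (Fintype.card J - Fintype.card K - Fintype.card Unit : ℤ) < 0
  · have := qu.ps.subsingleton hn
    have := qv.ps.subsingleton hn
    exact (congrArg _ (Subsingleton.elim _ 0)).trans ((map_zero _).trans
      ((congrArg _ (Subsingleton.elim _ 0)).trans (map_zero _)).symm)
  obtain ⟨ℓ, hℓ⟩ := SeparatingDual.exists_eq_one (R := ℂ) (sub_ne_zero.2 hne)
  let γ : ℂ → Λ → ℂ := fun s => u + s • (v - u)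
  have cγ : Continuous γ := by fun_prop
  have f1 : ∀ s, ℓ (γ s - u) = s := fun s => by simp only [γ, add_sub_cancel_left, map_smul, hℓ,
    smul_eq_mul, mul_one]
  have γ0 : γ 0 = u := by simp [γ]
  have γ1 : γ 1 = v := by simp [γ]
  have hs : γ '' segment ℝ 0 1 ⊆ W := by
    rintro _ ⟨_, ⟨a, b, h1, h2, h3, rfl⟩, rfl⟩
    refine mem_of_eq_of_mem ?_ (hc hu hv h1 h2 h3)
    simp only [γ, smul_zero, zero_add, smul_assoc, one_smul, eq_sub_of_add_eq h3, sub_smul, smul_sub]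
    abel
  have lc : IsLocallyClosed (S.U ∩ range γ) := S.isOpen_U'.isLocallyClosed.inter (by
    rw [show range γ = {l | l = γ (ℓ (l - u))} from
      Set.ext fun l => ⟨fun ⟨s, h⟩ => by rw [← h, mem_ofPred_eq, f1], fun h => ⟨_, h.symm⟩⟩]
    exact (isClosed_eq continuous_id (by fun_prop)).isLocallyClosed)
  have hm : ∀ l ∈ S.U ∩ range γ, MfdAt (S.U ∩ range γ) 1 l := by
    rintro _ ⟨h, s, rfl⟩
    have := (MfdAt.univ s).iso (S' := range γ) (F := γ) (G := fun l => ℓ (l - u))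
      (analyticAt_const.add (analyticAt_id.smul analyticAt_const))
      ((ℓ.analyticAt _).comp (analyticAt_id.sub analyticAt_const))
      (.of_forall fun s _ => ⟨⟨s, rfl⟩, f1 s⟩)
      (.of_forall fun _ ⟨s, h⟩ => ⟨trivial, by rw [← h, f1]⟩)
    rw [finrank_self] at this
    exact this.congr (mem_of_superset (S.isOpen_U'.mem_nhds h) fun _ k => (and_iff_right k).symm)
  have hK := (isCompact_segment (0 : ℂ) 1).image cγ
  have g := uf_good (S := S) hK.isClosed.isLocallyClosed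
  haveI : FP (uw Λ J).actT (S.uf (S.U ∩ range γ)).cone := (uf_good lc).fp
  haveI : FP (uw Λ J).actT (S.uf (γ '' segment ℝ 0 1)).cone := g.fp
  haveI := qu.fp
  haveI := qv.fp
  haveI := qu.cpt
  haveI := qv.cpt
  haveI : FP (uw Λ J).actT ∅ := g.fp_of (empty_subset _) (fun _ _ _ h => h.elim)
    isClosed_empty.isLocallyClosed
  haveI : IsEmpty (Quo (uw Λ J).actT ∅) := ⟨mk_surj.forall.2 fun x => x.2⟩
  haveI : CompactSpace (γ '' segment ℝ 0 1) := isCompact_iff_compactSpace.1 hK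
  haveI : CompactSpace (Quo (uw Λ J).actT (S.uf (γ '' segment ℝ 0 1)).cone) :=
    g.compact Quot.compactSpace
  have d0 : Dim (uw Λ J).actT ∅ (Fintype.card J - Fintype.card K - Fintype.card Unit : ℤ).toNat :=
    fun _ h => h.elim
  have iu : (S.uf {u}).cone ⊆ (S.uf (γ '' segment ℝ 0 1)).cone :=
    uf_mono (singleton_subset_iff.2 ⟨0, left_mem_segment _ _ _, γ0⟩)
  have iv : (S.uf {v}).cone ⊆ (S.uf (γ '' segment ℝ 0 1)).cone :=
    uf_mono (singleton_subset_iff.2 ⟨1, right_mem_segment _ _ _, γ1⟩)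
  have pt : ∀ s w, γ s = w → w ∈ W → ∀ x, x ∈ (S.uf {w}).cone ↔
      x ∈ (S.uf (S.U ∩ range γ)).cone ∧ ℓ (x.1 - u) = s := by
    rintro s _ rfl hw x
    simp only [mem_uf]
    exact ⟨fun ⟨a, b⟩ => ⟨⟨a ▸ ⟨hU hw, s, rfl⟩, b⟩, by rw [a, f1]⟩,
      fun ⟨⟨⟨_, t, a⟩, b⟩, c⟩ => ⟨by rw [← a, f1] at c; rw [← a, c]; rfl, b⟩⟩
  have key := push_eq_add (act := (uw Λ J).actT) (X := (S.uf (S.U ∩ range γ)).cone) (Y₂ := ∅)
    (D := ∅) (n := (Fintype.card J - Fintype.card K - Fintype.card Unit : ℤ).toNat)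
    (f := fun x => ℓ (x.1 - u)) (t := 1) (C₁ := {x | ℓ (x.1 - u) = 0}) (C₂ := ∅)
    (fun x => by
      obtain ⟨n, h1, h2, -⟩ := mfd_uf inter_subset_left x.val_mem (hm _ (mem_uf.1 x.val_mem).1)
      rw [finrank_tor, show 1 + ((Fintype.card J - Fintype.card K - Fintype.card Unit : ℤ).toNat + 1)
        = n by rw [Fintype.card_unit] at hn ⊢; omega]
      exact h2.2)
    (fun x => (ℓ.analyticAt _).comp (analyticAt_fst.sub analyticAt_const))
    (fun a _ x _ => by rw [uw_act])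
    (fun x => by
      simp only [mem_uf]
      exact ⟨fun ⟨⟨s, a, b⟩, c⟩ => ⟨⟨⟨hU (hs ⟨s, a, b⟩), s, b⟩, c⟩, by rwa [← b, f1]⟩,
        fun ⟨⟨⟨_, t, a⟩, b⟩, c⟩ => ⟨⟨t, by rwa [← a, f1] at c, a⟩, b⟩⟩)
    (pt 1 v γ1 hv) (fun x => (or_iff_left id).trans (pt 0 u γ0 hu x))
    (fun x => ⟨False.elim, fun h => h.2⟩) (isClosed_eq (by fun_prop) continuous_const)
    isClosed_empty (fun x hx => (pt 0 u γ0 hu x).trans (and_iff_right hx)) (fun _ _ => Iff.rfl)
    (uf_inv lc).lc_cone (fun x _ => by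
      obtain ⟨⟨a, s, b⟩, -⟩ := mem_uf.1 x.val_mem
      obtain ⟨n, -, -, h⟩ := mfd_uf inter_subset_left x.val_mem (hm _ ⟨a, s, b⟩)
      obtain ⟨η, h⟩ := h (v - u) (((by fun_prop : Continuous fun ε : ℂ =>
        x.val.1 + ε • (v - u)).continuousAt.eventually_mem
          (S.isOpen_U'.mem_nhds (by simpa using a))).mono fun ε k =>
            ⟨k, s + ε, by rw [← b, add_assoc, ← add_smul]⟩)
      have := ℓ.hasFDerivAt.comp x.val ((hasFDerivAt_fst (𝕜 := ℂ) (p := x.val)).sub_const u)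
      exact ⟨_, h, (DFunLike.congr_fun this.fderiv _).trans hℓ⟩)
    (.of_isEmpty _) qv.isFund qu.isFund d0.isFund qu.dim.deg d0.deg iv iu (empty_subset _)
  rw [Orb.BM_eq_of_isEmpty (fnd _ ∅) 0, map_zero, add_zero] at key
  show Loc.intg _ (H.map _ (H.map _ _)) = Loc.intg _ (H.map _ (H.map _ _))
  rw [rs_pu, rs_pu, ← Wt.rs_rs iu (uf_mono hs), ← Wt.rs_rs iv (uf_mono hs), Wt.rs_eq iu,
    Wt.rs_eq iv, ← Loc.intg_push, ← Loc.intg_push, key]

theorem homeo_pu : IsHomeomorph (S.pu u) :=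
  haveI := (qm_cpt (S := S) (u := u))
  isHomeomorph_iff_continuous_bijective.2 ⟨(S.pu u).continuous, bij_pu⟩

/-- the two hyperplane classes are proportional -/
theorem exists_hyp : ∃ c : ℂ, ∀ u,
    (uw Λ J).lc (S.uf {u}).cone 0 1 = c • H.map (S.pu u) (S.h u) := by
  let P : CI (Λ → ℂ) J Empty := ⟨0, Empty.elim, nofun, fun _ => nofun,
    fun _ _ => ⟨0, Subsingleton.elim _ _⟩⟩
  haveI : FP (uw Λ J).actT (P.uf {0}).cone := (uf_good isClosed_singleton.isLocallyClosed).fp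
  obtain ⟨c, hc⟩ : ∃ c : ℂ, (uw Λ J).lc (P.uf {0}).cone 0 1 = c • H.map (P.pu 0) (P.h 0) := by
    obtain ⟨y, hy⟩ := (H.map_bijective_of_homeomorph (homeo_pu.homeomorph _)).2
      ((uw Λ J).lc (P.uf {0}).cone 0 1)
    rcases amb_deg ((P.h_deg 0).map (P.pu 0)) (hy ▸ map_amb _ (P.mem_amb_of_linear nofun 0 y))
      (Wt.lc_deg 0 1) with e | ⟨j, c, h, e⟩
    · exact ⟨0, e.trans (zero_smul _ _).symm⟩
    · exact ⟨c, by rw [e, show j = 1 by omega, pow_one]⟩
  refine ⟨c, fun u => ?_⟩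
  haveI : FP (uw Λ J).actT (S.uf {u}).cone := (uf_good isClosed_singleton.isLocallyClosed).fp
  have φ : Eqh (uw Λ J).actT (uw Λ J).actT (S.uf {u}).cone (P.uf {0}).cone (fun t => t)
      fun z => (0, z.2) := ⟨Hm.id, fun z hz => mem_uf.2 ⟨rfl, (mem_uf.1 hz).2.1,
        Subsingleton.elim _ _⟩, by fun_prop, fun _ _ _ _ => by simp only [uw_act]⟩
  rw [← Wt.map_lc φ fun _ _ => rfl, hc, H.map_smulC, H.map_map, h, h,
    map_xc _ continuous_subtype_val fun a => P.X_sub a.2,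
    map_xc _ continuous_subtype_val fun a => S.X_sub a.2]
  exact congrArg (c • xc ·) (funext (mk_surj.forall.2 fun _ => rfl))

omit [Nonempty J] in
theorem mem_ci {z : (Empty → ℂ) × (J → ℂ)} :
    z ∈ (ciF (S.F u) S.d).cone ↔ (u, z.2) ∈ (S.uf {u}).cone :=
  mem_ciF.trans (mem_uf.trans ⟨fun h => ⟨h.2.1, congrFun h.2.2⟩,
    fun h => ⟨rfl, h.1, funext h.2⟩⟩).symm

omit [Nonempty J] in
variable (S u) in
theorem hol_ci : Hol (ciF (S.F u) S.d).actT (uw Λ J).actT (ciF (S.F u) S.d).cone (S.uf {u}).cone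
    (fun t => t) fun z => (u, z.2) :=
  .of_an Hm.id (fun _ => mem_ci.1) (fun _ _ => analyticAt_const.prod analyticAt_snd)
    fun _ _ _ _ => by rw [uw_act, ciF_act]

omit [Nonempty J] in
theorem bij_ci : Bijective (S.hol_ci u).q :=
  ⟨(S.hol_ci u).q_injective fun x _ y _ b hb e => ⟨b, hb, Prod.ext (Subsingleton.elim _ _)
      ((congrArg Prod.snd (e.trans (uw_act _ _))).trans (ciF_act b x).symm)⟩,
    (S.hol_ci u).q_surjective fun y hy => ⟨(0, y.2), mem_ci.2 ((mem_uf.1 hy).1 ▸ hy), 1, isUnit_one,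
      by rw [Wt.actT_one, ← (mem_uf.1 hy).1]⟩⟩

omit [Nonempty J] in
variable (S u) in
/-- The complete intersection as a member of the linear system. -/
noncomputable def pc : C((ciF (S.F u) S.d).X (ciF (S.F u) S.d).cone, S.X u) :=
  (S.pu u).comp (S.hol_ci u).q

theorem exists_hyp' : ∃ c : ℂ, ∀ u, SmCI (S.F u) S.d →
    (ciF (S.F u) S.d).lc _ 0 1 = c • H.map (S.pc u) (S.h u) :=
  (exists_hyp (S := S)).imp fun c hc u h => by
    haveI := h.good.fp
    haveI := (qm_pt (mem_U h)).fp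
    rw [pc, ← H.map_map, ← H.map_smulC, ← hc, Wt.map_lc (S.hol_ci u).toEqh fun _ _ => rfl]

section member

variable (h : SmCI (S.F u) S.d)
include h

theorem homeo_pc : IsHomeomorph (S.pc u) :=
  haveI := h.tg.compact
  isHomeomorph_iff_continuous_bijective.2 ⟨(S.pc u).continuous, bij_pu.comp bij_ci⟩

theorem bij_pc : Bijective (H.map (S.pc u)) :=
  H.map_bijective_of_homeomorph ((homeo_pc h).homeomorph _)

theorem qm_ci : (ciF (S.F u) S.d).QM (ciF (S.F u) S.d).cone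
    (Fintype.card J - Fintype.card K - Fintype.card Unit) := by
  haveI := h.good.fp
  haveI := h.tg.compact
  refine QM.of_mfd (Wt.lin_actT _) fun x hx => ?_
  obtain ⟨n, h1, h2⟩ := h.tg.mfd hx
  exact ⟨n, by rw [finrank_tor, Fintype.card_unit]; omega, h2⟩

theorem J_pc (x : H (S.X u)) :
    Loc.intg (fnd (ciF (S.F u) S.d).actT (ciF (S.F u) S.d).cone) (H.map (S.pc u) x) =
      Loc.intg (fnd (uw Λ J).actT (S.uf {u}).cone) (H.map (S.pu u) x) := by
  rw [pc, ← H.map_map]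
  exact (qm_ci h).J_map (qm_pt (mem_U h)) _ bij_ci _

theorem cor_pc (hK : St.Kit) {k : ℕ} (hk : 30 ≤ k) (β : Unit → ℤ) (j : ℤ) (l₂ : List (ℕ × ℕ))
    {r : ℕ} (m : Fin r → ℕ) (x : Fin r → H (S.X u)) :
    (ciF (S.F u) S.d).cor k (ciF (S.F u) S.d).ex0 0 (ciF (S.F u) S.d).cone (ciF (S.F u) S.d).cone
      β j (List.ofFn fun i => (m i, H.map (S.pc u) (x i))) l₂ [] =
    (PJ J).intB univ ((PJ J).rsB subset_rfl 1) * (S.uf {u}).cor k (uw Λ J).ex0 0 (S.uf {u}).cone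
      (S.uf {u}).cone β j (List.ofFn fun i => (m i, H.map (S.pu u) (x i))) l₂ [] := by
  have n := nice_pt (mem_U h)
  have t : (ciF (S.F u) S.d).Triv (S.uf {u}) u :=
    ⟨⟨rfl, rfl, fun _ => .inl (Subsingleton.elim _ _), fun _ _ _ => mem_ci⟩, rfl, rfl, rfl,
      fun _ _ => Subsingleton.elim _ _, fun _ _ _ _ => Iff.rfl⟩
  have := hK.triv _ _ u 0 k _ _ univ 1 (subset_univ _) h.nice (Fam.cp_empty _) n t (ciF_big hk)
    (uf_big hk) (Fam.exOk0 hK.selC h.good (ciF_big hk)) (Fam.exOk0 hK.selC n.toGood (uf_big hk))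
    (fun _ _ _ _ => Iff.rfl) subset_rfl (Fam.dvs_subset _ 0) (S.hol_ci u).maps (S.hol_ci u).maps
    (fun _ a => a.elim) β j (List.ofFn fun i => (m i, H.map (S.pu u) (x i))) l₂ []
  rw [List.map_ofFn, funext (Wt.pb_eq (S.hol_ci u).toEqv)] at this
  simp only [pc, ← H.map_map]
  exact this

end member

end Vale.Agent.P269.Mono.CI
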